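import Vale.Agent.P048.Full.NC.SepDefs

/-!
P048, the clique step: separated roots carry one independent vertex each, two when the ball of
radius two is not a clique.
-/

open scoped Classical

namespace Vale.Agent.P048.Full.NC

universe u

variable {V : Type u} {G : SimpleGraph V} {Y : Finset V} {a b x y : V}

/-- `x` may represent the root `a`. -/
private def UnitAt (G : SimpleGraph V) (Y : Finset V) (a x : V) : Prop :=
  x ∈ nb G a Y ∨
    (x ∈ Y ∧ G.IsClique (nb G a Y : Set V) ∧ ¬ G.Adj a x ∧ ∃ u ∈ nb G a Y, G.Adj u x)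

private lemma UnitAt.mem (h : UnitAt G Y a x) : x ∈ Y := by
  rcases h with h | h
  · exact (mem_nb.1 h).1
  · exact h.1

private lemma near_ne (h : Sep G Y a b) {u v : V} (hu : u ∈ nb G a Y) (hv : v ∈ nb G b Y) :
    u ≠ v ∧ ¬ G.Adj u v := by
  rw [mem_nb] at hu hv
  refine ⟨fun e => ?_, fun e => ?_⟩
  · subst e
    exact h.1 [u] ⟨by simp, by simp [hu.1], by simp [hu.2, hv.2.symm]⟩ (by simp) (by simp)
  · exact h.1 [u, v] ⟨by simp [e.ne], by simp [hu.1, hv.1], by simp [hu.2, e, hv.2.symm]⟩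
      (by simp) (by simp)

/-- A neighbour of a neighbour of `a` is no neighbour of `b`. -/
private lemma far_not_adj (h : Sep G Y a b) {u x : V} (hu : u ∈ nb G a Y) (hx : x ∈ Y)
    (he : G.Adj u x) : ¬ G.Adj b x := fun hb =>
  (near_ne h hu (mem_nb.2 ⟨hx, hb⟩)).2 he

/-- The window: a second vertex of a clique of neighbours. -/
private lemma second {u : V} (hu : u ∈ nb G a Y) (hc : G.IsClique (nb G a Y : Set V))
    (h1 : (nb G a Y).card ≠ 1) : ∃ u' ∈ nb G a Y, u' ≠ u ∧ G.Adj u' u := by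
  have h2 : 1 < (nb G a Y).card := by
    have := Finset.card_pos.2 ⟨u, hu⟩
    omega
  obtain ⟨u', hu', hne⟩ := Finset.exists_mem_ne h2 u
  exact ⟨u', hu', hne, hc (Finset.mem_coe.2 hu') (Finset.mem_coe.2 hu) hne⟩

/-- A far representative against a near one. -/
private lemma far_near (hab : Sep G Y a b) {u : V}
    (hc : G.IsClique (nb G a Y : Set V)) (hu : u ∈ nb G a Y) (hx : x ∈ Y) (hax : ¬ G.Adj a x)
    (he : G.Adj u x) (hy : y ∈ nb G b Y) : x ≠ y ∧ ¬ G.Adj x y := by
  have hne : x ≠ y := fun e => far_not_adj hab hu hx he (e ▸ (mem_nb.1 hy).2)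
  refine ⟨hne, fun hxy => ?_⟩
  obtain ⟨hy1, hy2⟩ := mem_nb.1 hy
  obtain ⟨hu1, hu2⟩ := mem_nb.1 hu
  have huy : u ≠ y := (near_ne hab hu hy).1
  have hP : Link G Y a [u, x, y] b :=
    ⟨by simp [he.ne, huy, hne], by simp [hu1, hx, hy1], by simp [hu2, he, hxy, hy2.symm]⟩
  by_cases h1 : (nb G a Y).card = 1
  · exact hab.2.2 (Or.inl h1) _ hP (by simp) (by simp)
  · obtain ⟨u', hu', hne', ha'⟩ := second hu hc h1
    obtain ⟨h1', h2'⟩ := mem_nb.1 hu'
    have hu'x : u' ≠ x := fun e => hax (e ▸ h2')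
    have hu'y : u' ≠ y := (near_ne hab hu' hy).1
    exact hab.2.1 [u, x, y] [u', u, x, y] hP
      ⟨by simp [hne', hu'x, hu'y, he.ne, huy, hne], by simp [h1', hu1, hx, hy1],
        by simp [h2', ha', he, hxy, hy2.symm]⟩ (by simp) (by simp) (by simp) (Or.inl hc) (by simp)

/-- Representatives of two separated roots are distinct and not adjacent. -/
private lemma unit_sep (hab : Sep G Y a b) (hba : Sep G Y b a) (hx : UnitAt G Y a x)
    (hy : UnitAt G Y b y) : x ≠ y ∧ ¬ G.Adj x y := by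
  rcases hx with hx | ⟨hxY, hca, hax, u, hu, hux⟩ <;>
    rcases hy with hy | ⟨hyY, hcb, hby, v, hv, hvy⟩
  · exact near_ne hab hx hy
  · obtain ⟨h1, h2⟩ := far_near hba hcb hv hyY hby hvy hx
    exact ⟨h1.symm, fun e => h2 e.symm⟩
  · exact far_near hab hca hu hxY hax hux hy
  · obtain ⟨hu1, hu2⟩ := mem_nb.1 hu
    obtain ⟨hv1, hv2⟩ := mem_nb.1 hv
    have huv : u ≠ v := (near_ne hab hu hv).1
    have hxv : x ≠ v := fun e => far_not_adj hab hu hxY hux (e ▸ hv2)
    have huy : u ≠ y := fun e => far_not_adj hba hv hyY hvy (e ▸ hu2)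
    have hne : x ≠ y := by
      intro e
      subst e
      have hP : Link G Y a [u, x, v] b :=
        ⟨by simp [hux.ne, huv, hxv], by simp [hu1, hxY, hv1],
          by simp [hu2, hux, hvy.symm, hv2.symm]⟩
      by_cases h1 : (nb G a Y).card = 1
      · exact hab.2.2 (Or.inl h1) _ hP (by simp) (by simp)
      · obtain ⟨u', hu', hne', ha'⟩ := second hu hca h1
        obtain ⟨h1', h2'⟩ := mem_nb.1 hu'
        have hu'x : u' ≠ x := fun e => hax (e ▸ h2')
        have hu'v : u' ≠ v := (near_ne hab hu' hv).1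
        exact hab.2.1 [u, x, v] [u', u, x, v] hP
          ⟨by simp [hne', hu'x, hu'v, hux.ne, huv, hxv], by simp [h1', hu1, hxY, hv1],
            by simp [h2', ha', hux, hvy.symm, hv2.symm]⟩ (by simp) (by simp) (by simp) (Or.inl hca)
          (by simp)
    refine ⟨hne, fun hxy => ?_⟩
    have hP : Link G Y a [u, x, y, v] b :=
      ⟨by simp [hux.ne, huy, huv, hne, hxv, hvy.ne'], by simp [hu1, hxY, hyY, hv1],
        by simp [hu2, hux, hxy, hvy.symm, hv2.symm]⟩
    by_cases h1 : (nb G a Y).card = 1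
    · exact hab.2.2 (Or.inl h1) _ hP (by simp) (by simp)
    · obtain ⟨u', hu', hne', ha'⟩ := second hu hca h1
      obtain ⟨h1', h2'⟩ := mem_nb.1 hu'
      have hu'x : u' ≠ x := fun e => hax (e ▸ h2')
      have hu'y : u' ≠ y := fun e => far_not_adj hba hv hyY hvy (e ▸ h2')
      have hu'v : u' ≠ v := (near_ne hab hu' hv).1
      refine hab.2.1 [u, x, y, v] [u', u, x, y, v] hP
        ⟨by simp [hne', hu'x, hu'y, hu'v, hux.ne, huy, huv, hne, hxv, hvy.ne'],
          by simp [h1', hu1, hxY, hyY, hv1],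
          by simp [h2', ha', hux, hxy, hvy.symm, hv2.symm]⟩ (by simp) (by simp) (by simp)
        (Or.inl hca) fun _ => ?_
      by_cases h6 : (nb G b Y).card = 1
      · exact (hab.2.2 (Or.inr h6) _ hP (by simp) (by simp)).elim
      · obtain ⟨v', hv', hnev, hva⟩ := second hv hcb h6
        obtain ⟨h1v, h2v⟩ := mem_nb.1 hv'
        have hv'y : v' ≠ y := fun e => hby (e ▸ h2v)
        have hv'x : v' ≠ x := fun e => far_not_adj hab hu hxY hux (e ▸ h2v)
        have hv'u : v' ≠ u := (near_ne hab hu hv').1.symm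
        have hv'u' : v' ≠ u' := (near_ne hab hu' hv').1.symm
        exact ⟨[u', u, x, y, v, v'],
          ⟨by simp [hne', hu'x, hu'y, hu'v, hux.ne, huy, huv, hne, hxv, hvy.ne', hv'y.symm,
              hv'x.symm, hv'u.symm, hv'u'.symm, hnev.symm],
            by simp [h1', hu1, hxY, hyY, hv1, h1v],
            by simp [h2', ha', hux, hxy, hvy.symm, hva.symm, h2v.symm]⟩, by simp⟩

/-- The representatives of one root. -/
private lemma exists_units (hne : (nb G a Y).Nonempty) :
    ∃ U : Finset V, (∀ x ∈ U, UnitAt G Y a x) ∧ Indep G U ∧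
      U.card = if G.IsClique (ball2 G Y a : Set V) then 1 else 2 := by
  by_cases hball : G.IsClique (ball2 G Y a : Set V)
  · obtain ⟨u, hu⟩ := hne
    refine ⟨{u}, fun x hx => ?_, by simp [Indep], by simp [hball]⟩
    rw [Finset.mem_singleton] at hx
    exact Or.inl (hx ▸ hu)
  have key : ∀ x y, UnitAt G Y a x → UnitAt G Y a y → x ≠ y → ¬ G.Adj x y →
      ∃ U : Finset V, (∀ z ∈ U, UnitAt G Y a z) ∧ Indep G U ∧
        U.card = if G.IsClique (ball2 G Y a : Set V) then 1 else 2 := by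
    intro x y hx hy hxy hn
    refine ⟨{x, y}, fun z hz => ?_, ?_, by simp [hball, Finset.card_pair hxy]⟩
    · simp only [Finset.mem_insert, Finset.mem_singleton] at hz
      rcases hz with rfl | rfl
      · exact hx
      · exact hy
    · intro p hp q hq
      simp only [Finset.mem_insert, Finset.mem_singleton] at hp hq
      rcases hp with rfl | rfl <;> rcases hq with rfl | rfl
      · exact G.irrefl
      · exact hn
      · exact fun e => hn e.symm
      · exact G.irrefl
  by_cases hc : G.IsClique (nb G a Y : Set V)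
  · have hb : ∀ x ∈ ball2 G Y a, UnitAt G Y a x := by
      intro x hx
      simp only [ball2, Finset.mem_filter] at hx
      by_cases h : G.Adj a x
      · exact Or.inl (mem_nb.2 ⟨hx.1, h⟩)
      · rcases hx.2 with h' | ⟨u, hu, h1, h2⟩
        · exact absurd h' h
        · exact Or.inr ⟨hx.1, hc, h, u, mem_nb.2 ⟨hu, h1⟩, h2⟩
    rw [SimpleGraph.isClique_iff, Set.Pairwise] at hball
    push Not at hball
    obtain ⟨x, hx, y, hy, hxy, hn⟩ := hball
    exact key x y (hb x hx) (hb y hy) hxy hn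
  · rw [SimpleGraph.isClique_iff, Set.Pairwise] at hc
    push Not at hc
    obtain ⟨x, hx, y, hy, hxy, hn⟩ := hc
    exact key x y (Or.inl hx) (Or.inl hy) hxy hn

/-- The count of units. -/
theorem ballCount : BallCount.{u} := by
  intro V G Y R k hk hne hsep hlt
  choose! U hU using fun a (ha : a ∈ R) => exists_units (a := a) (hne a ha)
  have hdis : ∀ a ∈ R, ∀ b ∈ R, a ≠ b → Disjoint (U a) (U b) := fun a ha b hb hab =>
    Finset.disjoint_left.2 fun x hx hx' =>
      (unit_sep (hsep a ha b hb hab) (hsep b hb a ha hab.symm) ((hU a ha).1 x hx)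
        ((hU b hb).1 x hx')).1 rfl
  have hind : Indep G (R.biUnion U) := by
    intro x hx y hy
    obtain ⟨a, ha, hxa⟩ := Finset.mem_biUnion.1 hx
    obtain ⟨b, hb, hyb⟩ := Finset.mem_biUnion.1 hy
    by_cases hab : a = b
    · subst hab
      exact (hU a ha).2.1 x hxa y hyb
    · exact (unit_sep (hsep a ha b hb hab) (hsep b hb a ha (Ne.symm hab)) ((hU a ha).1 x hxa)
        ((hU b hb).1 y hyb)).2
  have hsub : R.biUnion U ⊆ Y := fun x hx => by
    obtain ⟨a, ha, hxa⟩ := Finset.mem_biUnion.1 hx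
    exact ((hU a ha).1 x hxa).mem
  have h1 := (le_alpha hsub hind).trans hk
  rw [Finset.card_biUnion fun a ha b hb hab => hdis a (Finset.mem_coe.1 ha) b (Finset.mem_coe.1 hb) hab,
    Finset.sum_congr rfl fun a ha => (hU a ha).2.2] at h1
  simp only [Finset.sum_ite, Finset.sum_const, smul_eq_mul, mul_one] at h1
  have h2 := Finset.card_filter_add_card_filter_not
    (s := R) (p := fun a => G.IsClique (ball2 G Y a : Set V))
  omega

private lemma UnitAt.ball (h : UnitAt G Y a x) : x ∈ ball2 G Y a := by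
  rcases h with h | ⟨hx, -, -, u, hu, hux⟩
  · exact Finset.mem_filter.2 ⟨(mem_nb.1 h).1, Or.inl (mem_nb.1 h).2⟩
  · exact Finset.mem_filter.2 ⟨hx, Or.inr ⟨u, (mem_nb.1 hu).1, (mem_nb.1 hu).2, hux⟩⟩

/-- Separated roots with balls that are no cliques carry two units each. -/
theorem exists_two_units {R : Finset V} (hball : ∀ a ∈ R, ¬ G.IsClique (ball2 G Y a : Set V))
    (hsep : ∀ a ∈ R, ∀ b ∈ R, a ≠ b → Sep G Y a b) :
    ∃ U : V → Finset V, (∀ a ∈ R, U a ⊆ ball2 G Y a ∧ Indep G (U a) ∧ (U a).card = 2) ∧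
      ∀ a ∈ R, ∀ b ∈ R, a ≠ b → ∀ x ∈ U a, ∀ y ∈ U b, x ≠ y ∧ ¬ G.Adj x y := by
  have hne : ∀ a ∈ R, (nb G a Y).Nonempty := by
    intro a ha
    by_contra h
    refine hball a ha ?_
    have hemp : ball2 G Y a = ∅ := by
      rw [Finset.eq_empty_iff_forall_notMem]
      intro z hz
      obtain ⟨hzY, hz | ⟨w, hw, haw, -⟩⟩ := Finset.mem_filter.1 hz
      · exact h ⟨z, mem_nb.2 ⟨hzY, hz⟩⟩
      · exact h ⟨w, mem_nb.2 ⟨hw, haw⟩⟩
    simp [hemp]
  choose! U hU using fun a (ha : a ∈ R) => exists_units (a := a) (hne a ha)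
  refine ⟨U, fun a ha => ⟨fun x hx => ((hU a ha).1 x hx).ball, (hU a ha).2.1, ?_⟩, ?_⟩
  · rw [(hU a ha).2.2, if_neg (hball a ha)]
  · intro a ha b hb hab x hx y hy
    exact unit_sep (hsep a ha b hb hab) (hsep b hb a ha hab.symm) ((hU a ha).1 x hx)
      ((hU b hb).1 y hy)

end Vale.Agent.P048.Full.NC
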