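import Vale.Agent.P048.Full.NC.Sep

/-!
P048, the clique step: for cycles on eight vertices and a maximum clique on four vertices there is
no cycle with nine vertices through the clique. Its ears have sizes 2, 0, 3, 0; listed cycles show
that the five ear vertices have many neighbours outside, too many of them independent.
-/

namespace Vale.Agent.P048.Full.NC

/-- The closed walk through the positions `l` has eight vertices and uses only edges from `E`. -/
abbrev Cert (E : List (ℕ × ℕ)) (n : ℕ) (l : List ℕ) : Prop :=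
  l.length = 8 ∧ l.Nodup ∧ (∀ i ∈ l, i < n) ∧
    (l ++ l.take 1).IsChain fun i j => (i, j) ∈ E ∨ (j, i) ∈ E

/-- The edges known on the cycle `a p q b c r s t d`, positions 0, 3, 4, 8 forming a clique. -/
def edges9 : List (ℕ × ℕ) :=
  [(0, 1), (1, 2), (2, 3), (3, 4), (4, 5), (5, 6), (6, 7), (7, 8), (8, 0), (0, 3), (0, 4), (3, 8),
    (4, 8)]

instance (E : List (ℕ × ℕ)) (n : ℕ) (l : List ℕ) : Decidable (Cert E n l) := inferInstance

open scoped Classical

variable {V : Type*} {G : SimpleGraph V}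

lemma cert_false (hno : ¬ HasCyc G 8) {L : List V} (z : V) (hn : L.Nodup) {E : List (ℕ × ℕ)}
    (hE : ∀ e ∈ E, G.Adj (L.getD e.1 z) (L.getD e.2 z)) {l : List ℕ} (h : Cert E L.length l) :
    False := by
  obtain ⟨h8, hnd, hlt, hch⟩ := h
  obtain ⟨i0, l', rfl⟩ : ∃ i0 l', l = i0 :: l' := by
    rcases l with _ | ⟨i0, l'⟩
    · simp at h8
    · exact ⟨i0, l', rfl⟩
  refine hno ?_
  have := hasCyc_of_list (G := G) (l := (i0 :: l').map fun i => L.getD i z) (h := L.getD i0 z)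
    (by simp) (hnd.map_on fun i hi j hj e => ?_) ?_
  · rwa [List.length_map, h8] at this
  · simp only [List.getD_eq_getElem _ _ (hlt i hi), List.getD_eq_getElem _ _ (hlt j hj)] at e
    exact hn.getElem_inj_iff.1 e
  · rw [← List.map_singleton (f := fun i => L.getD i z), ← List.map_append, List.isChain_map]
    refine hch.imp fun i j hij => ?_
    rcases hij with hij | hij
    · exact hE _ hij
    · exact (hE _ hij).symm

/-- A nine-cycle `a p q b c r s t d` with `a b c d` a clique, without eight-cycle and `K5`. -/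
lemma nine_false {X : Finset V} {k : ℕ} (hC : Cx G 8 k X) (hk : k ≤ 7)
    (hmax : ∀ T, T ⊆ X → G.IsClique (T : Set V) → T.card ≤ 4) (a : V) (C : List V)
    (hl : C.length = 9) (hn : C.Nodup) (hX : ∀ x ∈ C, x ∈ X)
    (hE : ∀ e ∈ edges9, G.Adj (C.getD e.1 a) (C.getD e.2 a)) : False := by
  set v : ℕ → V := fun i => C.getD i a with hv
  set Y := X \ C.toFinset with hY
  set A : ℕ → Finset V := fun i => nb G (v i) Y with hA
  have hAm : ∀ {i u}, u ∈ A i → u ∈ X ∧ u ∉ C ∧ G.Adj (v i) u := by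
    intro i u h
    obtain ⟨h1, h2⟩ := mem_nb.1 h
    rw [hY, Finset.mem_sdiff, List.mem_toFinset] at h1
    exact ⟨h1.1, h1.2, h2⟩
  have hext : ∀ (R : List V) i, i < 9 → (C ++ R).getD i a = v i :=
    fun R i hi => List.getD_append C R a i (by omega)
  have hER : ∀ R : List V, ∀ e ∈ edges9, G.Adj ((C ++ R).getD e.1 a) ((C ++ R).getD e.2 a) := by
    intro R e he
    have h9 : ∀ e ∈ edges9, e.1 < 9 ∧ e.2 < 9 := by decide
    rw [hext R _ (h9 e he).1, hext R _ (h9 e he).2]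
    exact hE e he
  -- excluded chords and links
  have chord : ∀ i j l, G.Adj (v i) (v j) → Cert ((i, j) :: edges9) 9 l → False := by
    intro i j l hij hl'
    refine cert_false hC.noc a hn ?_ (hl ▸ hl')
    exact List.forall_mem_cons.2 ⟨hij, hE⟩
  have link1 : ∀ i j l, i < 9 → j < 9 → ∀ u ∈ A i, u ∈ A j →
      Cert ((i, 9) :: (9, j) :: edges9) 10 l → False := by
    intro i j l hi hj u hu hu' hl'
    have hnd : (C ++ [u]).Nodup := by
      rw [List.nodup_append']
      exact ⟨hn, by simp, by simp [(hAm hu).2.1]⟩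
    have h9 : (C ++ [u]).getD 9 a = u := by simp [hl]
    refine cert_false hC.noc a hnd ?_ (l := l) (by simpa [hl] using hl')
    refine List.forall_mem_cons.2 ⟨?_, List.forall_mem_cons.2 ⟨?_, hER _⟩⟩
    · rw [hext _ i hi, h9]; exact (hAm hu).2.2
    · rw [hext _ j hj, h9]; exact (hAm hu').2.2.symm
  have link2 : ∀ i j l, i < 9 → j < 9 → Cert ((i, 9) :: (9, 10) :: (10, j) :: edges9) 11 l →
      ∀ u ∈ A i, ∀ w ∈ A j, u ≠ w → ¬ G.Adj u w := by
    intro i j l hi hj hl' u hu w hw huw hadj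
    have hnd : (C ++ [u, w]).Nodup := by
      rw [List.nodup_append']
      exact ⟨hn, by simp [huw], by simp [(hAm hu).2.1, (hAm hw).2.1]⟩
    have h9 : (C ++ [u, w]).getD 9 a = u := by simp [hl]
    have h10 : (C ++ [u, w]).getD 10 a = w := by simp [hl]
    refine cert_false hC.noc a hnd ?_ (l := l) (by simpa [hl] using hl')
    refine List.forall_mem_cons.2 ⟨?_, List.forall_mem_cons.2 ⟨?_, List.forall_mem_cons.2
      ⟨?_, hER _⟩⟩⟩
    · rw [hext _ i hi, h9]; exact (hAm hu).2.2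
    · rw [h9, h10]; exact hadj
    · rw [hext _ j hj, h10]; exact (hAm hw).2.2.symm
  -- four neighbours outside, not all adjacent
  have out : ∀ i, i < 9 → ∀ S : List ℕ, S.length ≤ 3 → ∀ Ls : List (List ℕ),
      (∀ j < 9, j = i ∨ j ∈ S ∨ ∃ l ∈ Ls, Cert ((i, j) :: edges9) 9 l) →
      4 ≤ (A i).card ∧ ∃ u ∈ A i, ∃ w ∈ A i, u ≠ w ∧ ¬ G.Adj u w := by
    intro i hi S hS Ls hc
    have hvX : v i ∈ X := hX _ (by
      simp only [hv]
      rw [List.getD_eq_getElem _ _ (hl ▸ hi)]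
      exact List.getElem_mem _)
    have hsub : nb G (v i) X ⊆ A i ∪ (S.map v).toFinset := by
      intro y hy
      obtain ⟨hyX, hya⟩ := mem_nb.1 hy
      rw [Finset.mem_union]
      by_cases hyC : y ∈ C
      · obtain ⟨j, hj, rfl⟩ := List.mem_iff_getElem.1 hyC
        have e : v j = C[j] := List.getD_eq_getElem _ _ hj
        rw [← e] at hya ⊢
        rcases hc j (hl ▸ hj) with rfl | h | ⟨l, -, h⟩
        · exact absurd hya G.irrefl
        · exact Or.inr (List.mem_toFinset.2 (List.mem_map_of_mem h))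
        · exact (chord i j l hya h).elim
      · exact Or.inl (mem_nb.2 ⟨Finset.mem_sdiff.2 ⟨hyX, by simpa using hyC⟩, hya⟩)
    have h4 : 4 ≤ (A i).card := by
      have h1 := hC.deg hvX
      have h2 := (Finset.card_le_card hsub).trans (Finset.card_union_le _ _)
      have h3 := (List.toFinset_card_le (S.map v)).trans_eq (List.length_map _)
      omega
    refine ⟨h4, ?_⟩
    by_contra hcl
    push Not at hcl
    have hnot : v i ∉ A i := fun h => G.irrefl (hAm h).2.2
    have := hmax (insert (v i) (A i))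
      (Finset.insert_subset hvX fun y hy => (hAm hy).1) (by
        rw [Finset.coe_insert]
        exact SimpleGraph.IsClique.insert (fun x hx y hy hxy => hcl x hx y hy hxy)
          fun y hy _ => (hAm hy).2.2)
    rw [Finset.card_insert_of_notMem hnot] at this
    omega
  -- three independent vertices from two ends of an ear
  have triple : ∀ i j, (∃ u ∈ A i, ∃ w ∈ A i, u ≠ w ∧ ¬ G.Adj u w) → 4 ≤ (A j).card →
      (∀ u ∈ A i, ∀ w ∈ A j, u ≠ w → ¬ G.Adj u w) →
      ∃ T, T ⊆ A i ∪ A j ∧ Indep G T ∧ T.card = 3 := by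
    rintro i j ⟨u, hu, w, hw, huw, huw'⟩ hj hij
    obtain ⟨x, hx, hx'⟩ := Finset.exists_mem_notMem_of_card_lt_card
      (s := {u, w}) (t := A j) (by rw [Finset.card_pair huw]; omega)
    simp only [Finset.mem_insert, Finset.mem_singleton, not_or] at hx'
    refine ⟨{u, w, x}, ?_, ?_, ?_⟩
    · intro y hy
      simp only [Finset.mem_insert, Finset.mem_singleton] at hy
      rcases hy with rfl | rfl | rfl <;> simp [hu, hw, hx]
    · have h1 := hij u hu x hx (Ne.symm hx'.1)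
      have h2 := hij w hw x hx (Ne.symm hx'.2)
      intro y hy y' hy'
      simp only [Finset.mem_insert, Finset.mem_singleton] at hy hy'
      rcases hy with rfl | rfl | rfl <;> rcases hy' with rfl | rfl | rfl <;>
        first
        | exact G.irrefl
        | assumption
        | exact fun h => huw' h.symm
        | exact fun h => h1 h.symm
        | exact fun h => h2 h.symm
    · exact Finset.card_eq_three.2 ⟨u, w, x, huw, Ne.symm hx'.1, Ne.symm hx'.2, rfl⟩
  have sep : ∀ i j l l', i < 9 → j < 9 → Cert ((i, 9) :: (9, j) :: edges9) 10 l →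
      Cert ((i, 9) :: (9, 10) :: (10, j) :: edges9) 11 l' →
      ∀ u ∈ A i, ∀ w ∈ A j, u ≠ w ∧ ¬ G.Adj u w := by
    intro i j l l' hi hj h1 h2 u hu w hw
    have hne : u ≠ w := fun e => link1 i j l hi hj u hu (e ▸ hw) h1
    exact ⟨hne, link2 i j l' hi hj h2 u hu w hw hne⟩
  obtain ⟨-, hp⟩ := out 1 (by omega) [0, 2, 3] (by simp)
    [[0, 1, 4, 5, 6, 7, 8, 3], [0, 1, 5, 6, 7, 8, 3, 4], [0, 3, 2, 1, 6, 5, 4, 8],
      [0, 1, 7, 6, 5, 4, 3, 8], [0, 1, 8, 7, 6, 5, 4, 3]] (by decide)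
  obtain ⟨hq, -⟩ := out 2 (by omega) [0, 1, 3] (by simp)
    [[0, 1, 2, 4, 5, 6, 7, 8], [0, 1, 2, 5, 6, 7, 8, 3], [0, 1, 2, 6, 5, 4, 3, 8],
      [0, 1, 2, 7, 6, 5, 4, 3], [0, 1, 2, 8, 7, 6, 5, 4]] (by decide)
  obtain ⟨-, hr⟩ := out 5 (by omega) [4, 6, 8] (by simp)
    [[0, 1, 2, 3, 8, 7, 6, 5], [0, 1, 5, 6, 7, 8, 3, 4], [0, 1, 2, 5, 6, 7, 8, 3],
      [0, 1, 2, 3, 5, 6, 7, 8], [0, 1, 2, 3, 4, 5, 7, 8]] (by decide)
  obtain ⟨ht, -⟩ := out 7 (by omega) [4, 6, 8] (by simp)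
    [[0, 1, 2, 3, 4, 5, 6, 7], [0, 1, 7, 6, 5, 4, 3, 8], [0, 1, 2, 7, 6, 5, 4, 3],
      [0, 1, 2, 3, 7, 6, 5, 4], [0, 1, 2, 3, 4, 5, 7, 8]] (by decide)
  obtain ⟨-, u, hu, w, hw, huw, huw'⟩ := out 6 (by omega) [4, 5, 7] (by simp)
    [[0, 1, 2, 3, 4, 8, 7, 6], [0, 3, 2, 1, 6, 5, 4, 8], [0, 1, 2, 6, 5, 4, 3, 8],
      [0, 1, 2, 3, 6, 5, 4, 8], [0, 1, 2, 3, 4, 5, 6, 8]] (by decide)
  obtain ⟨T1, hT1, hI1, hc1⟩ := triple 1 2 hp hq
    (link2 1 2 [0, 1, 9, 10, 2, 3, 4, 8] (by omega) (by omega) (by decide))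
  obtain ⟨T2, hT2, hI2, hc2⟩ := triple 5 7 hr ht
    (link2 5 7 [0, 3, 4, 5, 9, 10, 7, 8] (by omega) (by omega) (by decide))
  have s15 := sep 1 5 [0, 1, 9, 5, 6, 7, 8, 3] [0, 1, 9, 10, 5, 4, 3, 8] (by omega) (by omega)
    (by decide) (by decide)
  have s16 := sep 1 6 [0, 1, 9, 6, 5, 4, 3, 8] [0, 1, 9, 10, 6, 5, 4, 3] (by omega) (by omega)
    (by decide) (by decide)
  have s17 := sep 1 7 [0, 1, 9, 7, 6, 5, 4, 3] [0, 1, 9, 10, 7, 6, 5, 4] (by omega) (by omega)
    (by decide) (by decide)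
  have s25 := sep 2 5 [0, 1, 2, 9, 5, 4, 3, 8] [0, 1, 2, 9, 10, 5, 4, 3] (by omega) (by omega)
    (by decide) (by decide)
  have s26 := sep 2 6 [0, 1, 2, 9, 6, 5, 4, 3] [0, 1, 2, 9, 10, 6, 5, 4] (by omega) (by omega)
    (by decide) (by decide)
  have s27 := sep 2 7 [0, 1, 2, 9, 7, 6, 5, 4] [0, 1, 2, 9, 10, 7, 8, 3] (by omega) (by omega)
    (by decide) (by decide)
  have s56 := sep 5 6 [0, 3, 4, 5, 9, 6, 7, 8] [0, 4, 5, 9, 10, 6, 7, 8] (by omega) (by omega)
    (by decide) (by decide)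
  have s76 := sep 7 6 [0, 3, 4, 5, 6, 9, 7, 8] [0, 4, 5, 6, 10, 9, 7, 8] (by omega) (by omega)
    (by decide) (by decide)
  set T3 : Finset V := {u, w} with hT3
  have hT3A : T3 ⊆ A 6 := Finset.insert_subset hu (Finset.singleton_subset_iff.2 hw)
  have hI3 : Indep G T3 := by
    intro y hy y' hy'
    simp only [hT3, Finset.mem_insert, Finset.mem_singleton] at hy hy'
    rcases hy with rfl | rfl <;> rcases hy' with rfl | rfl <;>
      first
      | exact G.irrefl
      | assumption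
      | exact fun h => huw' h.symm
  have h12 : ∀ x ∈ T1, ∀ y ∈ T2, x ≠ y ∧ ¬ G.Adj x y := fun x hx y hy =>
    (Finset.mem_union.1 (hT1 hx)).elim
      (fun h => (Finset.mem_union.1 (hT2 hy)).elim (s15 x h y) (s17 x h y))
      (fun h => (Finset.mem_union.1 (hT2 hy)).elim (s25 x h y) (s27 x h y))
  have h123 : ∀ x ∈ T1 ∪ T2, ∀ y ∈ T3, x ≠ y ∧ ¬ G.Adj x y := fun x hx y hy =>
    (Finset.mem_union.1 hx).elim
      (fun h => (Finset.mem_union.1 (hT1 h)).elim (fun h => s16 x h y (hT3A hy))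
        (fun h => s26 x h y (hT3A hy)))
      (fun h => (Finset.mem_union.1 (hT2 h)).elim (fun h => s56 x h y (hT3A hy))
        (fun h => s76 x h y (hT3A hy)))
  have hAX : ∀ i, A i ⊆ X := fun i y hy => (hAm hy).1
  have hd12 : Disjoint T1 T2 := Finset.disjoint_left.2 fun x hx hy => (h12 x hx x hy).1 rfl
  have hd3 : Disjoint (T1 ∪ T2) T3 :=
    Finset.disjoint_left.2 fun x hx hy => (h123 x hx x hy).1 rfl
  have := (le_alpha (G := G) (s := T1 ∪ T2 ∪ T3) (Y := X)
    (Finset.union_subset (Finset.union_subset (hT1.trans (Finset.union_subset (hAX 1) (hAX 2)))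
      (hT2.trans (Finset.union_subset (hAX 5) (hAX 7)))) (hT3A.trans (hAX 6)))
    ((hI1.union hI2 fun x hx y hy => (h12 x hx y hy).2).union hI3
      fun x hx y hy => (h123 x hx y hy).2)).trans hC.alp
  rw [Finset.card_union_of_disjoint hd3, Finset.card_union_of_disjoint hd12, hc1, hc2, hT3,
    Finset.card_pair huw] at this
  omega

/-- Four ear sizes of total five, none one and no two neighbouring zeros, are 2, 0, 3, 0. -/
lemma sizes {a b c d : ℕ} (hs : a + b + c + d = 5) (h : a ≠ 1 ∧ b ≠ 1 ∧ c ≠ 1 ∧ d ≠ 1)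
    (hf : fz [a, b, c, d] = 0) :
    (a = 2 ∧ b = 0 ∧ c = 3 ∧ d = 0) ∨ (b = 2 ∧ c = 0 ∧ d = 3 ∧ a = 0) ∨
      (c = 2 ∧ d = 0 ∧ a = 3 ∧ b = 0) ∨ (d = 2 ∧ a = 0 ∧ b = 3 ∧ c = 0) := by
  simp only [fz, pc, Nat.add_eq_zero_iff, ite_eq_right_iff, one_ne_zero, imp_false, not_and] at hf
  obtain ⟨h1, h2, h3, h4⟩ := hf
  obtain ⟨ha, hb, hc, hd⟩ := h
  by_cases ha0 : a = 0
  · have := h1 ha0
    have : d ≠ 0 := fun h => h4 h ha0
    have : c = 0 := by omega
    rcases (by omega : b = 2 ∨ b = 3) with e | e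
    · exact Or.inr (Or.inl ⟨e, by omega, by omega, ha0⟩)
    · exact Or.inr (Or.inr (Or.inr ⟨by omega, ha0, e, by omega⟩))
  · have hc0 : c ≠ 0 := fun e => by
      have : b ≠ 0 := fun h => h2 h e
      have : d ≠ 0 := h3 e
      omega
    have : b = 0 := by omega
    rcases (by omega : a = 2 ∨ a = 3) with e | e
    · exact Or.inl ⟨e, by omega, by omega, by omega⟩
    · exact Or.inr (Or.inr (Or.inl ⟨by omega, by omega, e, by omega⟩))

/-- For eight-cycles and a maximum clique on four vertices, no nine vertices through the clique. -/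
theorem eight_M {X K : Finset V} {B : List (Blk V)} {k : ℕ} (hC : Cx G 8 k X) (hk : k ≤ 7)
    (hKX : K ⊆ X) (hK : G.IsClique (K : Set V)) (hs : K.card = 4)
    (hmax : ∀ T, T ⊆ X → G.IsClique (T : Set V) → T.card ≤ 4) (hB : Whole G X K B)
    (hl : (flat B).length = 9) : False := by
  suffices key : ∀ a b c d : Blk V, Whole G X K [a, b, c, d] →
      a.2.length = 2 → b.2.length = 0 → c.2.length = 3 → d.2.length = 0 → False by
    have hf := hB.no_excess hK hC.noc (by omega) (by omega)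
    have h1 : ∀ x ∈ sz B, x ≠ 1 := by
      intro x hx hx1
      subst hx1
      obtain ⟨σ, hσ⟩ : ∃ σ : Fin 4 → ℕ, sz B = List.ofFn σ := by
        obtain ⟨σ, hσ, -⟩ := hB.drop_set hK (by omega) hs ∅
        exact ⟨σ, hσ⟩
      rw [hσ, List.mem_ofFn] at hx
      obtain ⟨i, hi⟩ := hx
      obtain ⟨σ', hσ', B', hB', -, hlen⟩ := hB.drop_set hK (by omega) hs {i}
      obtain rfl : σ' = σ := List.ofFn_injective (hσ'.symm.trans hσ)
      refine hB'.no_len hC.noc ?_
      rw [length_flat, hσ, List.sum_ofFn, hB.len, hs, Fin.sum_univ_four] at hl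
      rw [Fin.sum_univ_four] at hlen
      fin_cases i <;> simp [zero] at hlen hi <;> omega
    have hlen := hB.len
    rw [hs] at hlen
    obtain ⟨a, b, c, d, rfl⟩ : ∃ a b c d, B = [a, b, c, d] := by
      rcases B with _ | ⟨a, _ | ⟨b, _ | ⟨c, _ | ⟨d, _ | ⟨e, B⟩⟩⟩⟩⟩ <;> simp at hlen
      exact ⟨a, b, c, d, rfl⟩
    rw [hl] at hf
    simp only [sz, List.map_cons, List.map_nil] at hf h1
    simp only [length_flat, sz, List.map_cons, List.map_nil, List.length_cons, List.length_nil,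
      List.sum_cons, List.sum_nil] at hl
    simp only [List.forall_mem_cons] at h1
    rcases sizes (a := a.2.length) (b := b.2.length) (c := c.2.length) (d := d.2.length)
      (by omega) ⟨h1.1, h1.2.1, h1.2.2.1, h1.2.2.2.1⟩ (by omega) with
      ⟨p, q, r, s⟩ | ⟨p, q, r, s⟩ | ⟨p, q, r, s⟩ | ⟨p, q, r, s⟩
    · exact key a b c d hB p q r s
    · exact key b c d a (Whole.rotate (A := [a]) (C := [b, c, d]) hB) p q r s
    · exact key c d a b (Whole.rotate (A := [a, b]) (C := [c, d]) hB) p q r s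
    · exact key d a b c (Whole.rotate (A := [a, b, c]) (C := [d]) hB) p q r s
  rintro ⟨a, ea⟩ ⟨b, eb⟩ ⟨c, ec⟩ ⟨d, ed⟩ h la lb lc ld
  obtain ⟨p, q, rfl⟩ := List.length_eq_two.1 la
  obtain rfl := List.eq_nil_of_length_eq_zero lb
  obtain ⟨r, s, t, rfl⟩ := List.length_eq_three.1 lc
  obtain rfl := List.eq_nil_of_length_eq_zero ld
  have hch := okto_chain (h.ok (a, [p, q]) rfl)
  have hn := h.nd
  simp only [flat_cons, flat_nil, List.cons_append, List.nil_append, List.isChain_cons_cons,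
    List.isChain_singleton, and_true] at hch hn
  have hnd : (a ≠ b ∧ a ≠ c ∧ a ≠ d ∧ b ≠ d ∧ c ≠ d) := by
    simp at hn
    tauto
  refine nine_false hC hk hmax a [a, p, q, b, c, r, s, t, d] rfl hn ?_ ?_
  · intro x hx
    rcases List.mem_flatMap.1 (show x ∈ flat [(a, [p, q]), (b, []), (c, [r, s, t]), (d, [])] by
      simpa using hx) with ⟨e, he, hxe⟩
    rcases List.mem_cons.1 hxe with rfl | hxe
    · exact hKX (h.mem e he)
    · exact (h.ear e he x hxe).1
  · have hKa : a ∈ K := h.mem (a, [p, q]) (by simp)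
    have hKb : b ∈ K := h.mem (b, []) (by simp)
    have hKc : c ∈ K := h.mem (c, [r, s, t]) (by simp)
    have hKd : d ∈ K := h.mem (d, []) (by simp)
    obtain ⟨n1, n2, n3, n4, n5⟩ := hnd
    intro e he
    simp only [edges9, List.mem_cons, List.not_mem_nil, or_false] at he
    obtain ⟨e1, e2, e3, e4, e5, e6, e7, e8, e9⟩ := hch
    rcases he with rfl | rfl | rfl | rfl | rfl | rfl | rfl | rfl | rfl | rfl | rfl | rfl | rfl <;>
      simp only [List.getD_cons_zero, List.getD_cons_succ]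
    exacts [e1, e2, e3, e4, e5, e6, e7, e8, e9, hK hKa hKb n1, hK hKa hKc n2, hK hKb hKd n4,
      hK hKc hKd n5]

end Vale.Agent.P048.Full.NC
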