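import Vale.Agent.P048.Full.NC.States

/-!
P048, the clique step: a clique outside the cycle with two exits to it gives a cycle on exactly
`m` vertices, and so does a vertex outside seeing the cycle beside two universal roots.
-/

open scoped Classical

namespace Vale.Agent.P048.Full.NC

universe u

variable {V : Type u} {G : SimpleGraph V} {X K : Finset V} {B : List (Blk V)} {m : ℕ}

/-- A part of a clique avoiding two of its vertices, of any smaller size. -/
lemma clique_part {S : Finset V} {a b : V} {n : ℕ} (hn : n + 2 ≤ S.card) :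
    ∃ l : List V, l.Nodup ∧ l.length = n ∧ ∀ x ∈ l, x ∈ S ∧ x ≠ a ∧ x ≠ b := by
  have h1 := Finset.pred_card_le_card_erase (a := a) (s := S)
  have h2 := Finset.pred_card_le_card_erase (a := b) (s := S.erase a)
  obtain ⟨T, hT, hTc⟩ := Finset.exists_subset_card_eq (n := n) (s := (S.erase a).erase b) (by omega)
  refine ⟨T.toList, Finset.nodup_toList _, by simpa using hTc, fun x hx => ?_⟩
  have := hT (Finset.mem_toList.1 hx)
  simp only [Finset.mem_erase] at this
  exact ⟨this.2.2, this.2.1, this.1⟩

/-- The two ways from the cycle into the clique. -/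
lemma Whole.routes (h : Whole G X K B) (hs : 2 ≤ K.card) {x x' : V} (hx : x ∈ flat B) (hx' : x' ∈ flat B)
    (hne : x ≠ x') : ∃ (y y' : V) (l1 l2 : List V) (z z' : V), ((y = x ∧ y' = x') ∨ (y = x' ∧ y' = x)) ∧
      (l1 ++ l2).Nodup ∧ (∀ w ∈ l1 ++ l2, w ∈ flat B) ∧
      l1.head? = some z ∧ z ∈ K ∧ l1.getLast? = some y ∧
      l2.head? = some y' ∧ l2.getLast? = some z' ∧ z' ∈ K ∧
      l1.IsChain G.Adj ∧ l2.IsChain G.Adj ∧ (∀ w ∈ l1.tail, w ∉ K) ∧
      ∀ w ∈ l2.dropLast, w ∉ K := by
  obtain ⟨p, hp, hxp⟩ := List.mem_flatMap.1 hx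
  obtain ⟨r, hr, hxr⟩ := List.mem_flatMap.1 hx'
  obtain ⟨U, W, rfl⟩ := List.append_of_mem hp
  have h' : Whole G X K ((p :: W) ++ U) := h.rotate
  have hflat : ∀ w, w ∈ flat (U ++ p :: W) ↔ w ∈ flat (p :: (W ++ U)) := fun w => by
    simp only [flat_append, flat_cons, List.mem_append, List.mem_cons]
    tauto
  have hok := h'.ok p rfl
  have hnd := h'.nd
  rw [List.cons_append, flat_cons, ← List.cons_append] at hnd
  rw [List.cons_append] at hok
  have hnb := List.nodup_append'.1 hnd
  have hpre : ∀ {q : Blk V} {l t : List V}, q ∈ p :: (W ++ U) → q.1 :: q.2 = l ++ t →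
      l.IsChain G.Adj ∧ ∀ w ∈ l.tail, w ∉ K := by
    intro q l t hq e
    have hq' : q ∈ (p :: W) ++ U := by simpa using hq
    constructor
    · have : ∀ (L : List (Blk V)) z, OKto G L z → q ∈ L → (q.1 :: q.2).IsChain G.Adj := by
        intro L z hL hqL
        induction L with
        | nil => simp at hqL
        | cons a L ih =>
          rcases List.mem_cons.1 hqL with rfl | hqL
          · have h1 := hL.1
            rw [← List.cons_append] at h1
            exact h1.left_of_append
          · exact ih hL.2 hqL
      have hc := this _ _ hok hq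
      rw [e] at hc
      exact hc.left_of_append
    · intro w hw
      rcases l with _ | ⟨a, l⟩
      · simp at hw
      · simp only [List.cons_append, List.cons.injEq] at e
        exact (h'.ear q hq' w (by rw [e.2]; exact List.mem_append_left _ hw)).2
  by_cases hsame : x' ∈ p.1 :: p.2
  · obtain ⟨l, t, hlt⟩ := List.append_of_mem hxp
    -- which one comes first
    have key : ∀ (y y' : V) (l t t' : List V), p.1 :: p.2 = (l ++ [y]) ++ (t ++ y' :: t') →
        ((y = x ∧ y' = x') ∨ (y = x' ∧ y' = x)) →
        ∃ (y y' : V) (l1 l2 : List V) (z z' : V), ((y = x ∧ y' = x') ∨ (y = x' ∧ y' = x)) ∧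
          (l1 ++ l2).Nodup ∧ (∀ w ∈ l1 ++ l2, w ∈ flat (U ++ p :: W)) ∧
          l1.head? = some z ∧ z ∈ K ∧ l1.getLast? = some y ∧
          l2.head? = some y' ∧ l2.getLast? = some z' ∧ z' ∈ K ∧
          l1.IsChain G.Adj ∧ l2.IsChain G.Adj ∧ (∀ w ∈ l1.tail, w ∉ K) ∧
          ∀ w ∈ l2.dropLast, w ∉ K := by
      intro y y' l t t' e hor
      obtain ⟨hc1, hk1⟩ := hpre List.mem_cons_self e
      have hW : W ++ U ≠ [] := by
        intro e'
        have := h'.len
        rw [List.cons_append, e'] at this
        simp at this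
        omega
      obtain ⟨r1, R, hR⟩ := List.exists_cons_of_ne_nil hW
      rw [hR] at hok hnb
      simp only [flat_cons] at hnb
      have hc := hok.1
      simp only [fst] at hc
      rw [← List.cons_append, e] at hc
      refine ⟨y, y', l ++ [y], y' :: t' ++ [r1.1], p.1, r1.1, hor, ?_, ?_, ?_, h'.mem p (by simp),
        by simp, rfl, List.getLast?_concat, h'.mem r1 (by simp [hR]), hc1, ?_, hk1, ?_⟩
      · have h1 : ((l ++ [y]) ++ (y' :: t')).Nodup := by
          refine List.Nodup.sublist ?_ hnb.1
          rw [e]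
          exact (List.Sublist.refl _).append (List.sublist_append_right _ _)
        rw [← List.append_assoc, List.nodup_append']
        refine ⟨h1, List.nodup_singleton _, fun w hw hw' => hnb.2.2 (show w ∈ p.1 :: p.2 from ?_) ?_⟩
        · rw [e]
          simp only [List.mem_append, List.mem_cons] at hw ⊢
          tauto
        · simp at hw'
          simp [hw']
      · intro w hw
        rw [hflat, flat_cons, ← List.cons_append, e, hR, flat_cons]
        simp only [List.mem_append, List.mem_cons, List.not_mem_nil] at hw ⊢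
        tauto
      · rcases l with _ | ⟨a, l⟩ <;> simp at e ⊢ <;> exact e.1.symm
      · have : (y' :: t' ++ [r1.1]).IsChain G.Adj := by
          have e2 : (l ++ [y]) ++ (t ++ y' :: t') ++ [r1.1] =
              ((l ++ [y]) ++ t) ++ (y' :: t' ++ [r1.1]) := by simp
          rw [e2] at hc
          exact hc.right_of_append
        exact this
      · intro w hw
        rw [List.dropLast_concat] at hw
        rcases l with _ | ⟨a, l⟩
        · simp at e
          exact (h'.ear p (by simp) w (by rw [e.2]; exact List.mem_append_right _ hw)).2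
        · simp at e
          exact (h'.ear p (by simp) w (by
            rw [e.2]; simp only [List.mem_append, List.mem_cons] at hw ⊢; tauto)).2
    rw [hlt] at hsame
    simp only [List.mem_append, List.mem_cons] at hsame
    rcases hsame with hs | hs | hs
    · obtain ⟨l', t', rfl⟩ := List.append_of_mem hs
      exact key x' x l' t' t (by rw [hlt]; simp) (Or.inr ⟨rfl, rfl⟩)
    · exact absurd hs.symm hne
    · obtain ⟨l', t', rfl⟩ := List.append_of_mem hs
      exact key x x' l l' t' (by rw [hlt]; simp) (Or.inl ⟨rfl, rfl⟩)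
  · have hr' : r ∈ W ++ U := by
      simp only [List.mem_append, List.mem_cons] at hr ⊢
      rcases hr with hr | hr | hr
      · exact Or.inr hr
      · exact absurd (hr ▸ hxr) hsame
      · exact Or.inl hr
    obtain ⟨l, t, hlt⟩ := List.append_of_mem hxp
    obtain ⟨l', t', hlt'⟩ := List.append_of_mem hxr
    have e1 : p.1 :: p.2 = (l ++ [x]) ++ t := by rw [hlt]; simp
    have e2 : r.1 :: r.2 = (l' ++ [x']) ++ t' := by rw [hlt']; simp
    obtain ⟨hc1, hk1⟩ := hpre List.mem_cons_self e1
    obtain ⟨hc2, hk2⟩ := hpre (List.mem_cons_of_mem _ hr') e2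
    have hsub : ∀ w ∈ r.1 :: r.2, w ∈ flat (W ++ U) := fun w hw =>
      List.mem_flatMap.2 ⟨r, hr', hw⟩
    refine ⟨x, x', l ++ [x], (l' ++ [x']).reverse, p.1, r.1, Or.inl ⟨rfl, rfl⟩, ?_, ?_, ?_,
      h'.mem p (by simp), by simp, by simp, ?_, h'.mem r (by
        simp only [List.cons_append, List.mem_cons]; exact Or.inr hr'), hc1, ?_, hk1, ?_⟩
    · rw [List.nodup_append']
      refine ⟨List.Nodup.sublist ?_ hnb.1, ?_, fun w hw hw' => hnb.2.2 (show w ∈ p.1 :: p.2 from ?_) (hsub w ?_)⟩
      · rw [e1]; exact List.sublist_append_left _ _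
      · rw [List.nodup_reverse]
        have hs : (r.1 :: r.2).Nodup := by
          obtain ⟨U1, W1, e⟩ := List.append_of_mem hr'
          have := hnb.2.1
          rw [e, flat_append, flat_cons, ← List.cons_append] at this
          exact ((List.nodup_append'.1 (List.nodup_append'.1 this).2.1)).1
        rw [e2] at hs
        exact (List.nodup_append'.1 hs).1
      · rw [e1]; exact List.mem_append_left _ hw
      · rw [e2]; exact List.mem_append_left _ (List.mem_reverse.1 hw')
    · intro w hw
      rw [hflat, flat_cons, ← List.cons_append]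
      simp only [List.mem_append] at hw ⊢
      rcases hw with hw | hw
      · left; rw [e1]; simp only [List.mem_append] at hw ⊢; tauto
      · right
        exact hsub w (by rw [e2]; exact List.mem_append_left _ (List.mem_reverse.1 hw))
    · rcases l with _ | ⟨a, l⟩ <;> simp at e1 ⊢ <;> exact e1.1.symm
    · rw [List.getLast?_reverse]
      rcases l' with _ | ⟨a, l'⟩ <;> simp at e2 ⊢ <;> exact e2.1.symm
    · rw [List.isChain_reverse]
      exact hc2.imp fun _ _ ha => ha.symm
    · intro w hw
      rw [List.dropLast_reverse, List.mem_reverse] at hw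
      exact hk2 w hw

/-- Two exits from a clique outside. -/
theorem Whole.two_exits (hK : G.IsClique (K : Set V)) (h : Whole G X K B)
    (hlen : (flat B).length ≤ m + 1) (hm : 8 ≤ m) (hs : 5 ≤ K.card) {M : Finset V}
    (hM : G.IsClique (M : Set V)) (hMB : ∀ w ∈ M, w ∉ flat B) (hsum : m ≤ M.card + K.card)
    {u v x x' : V} (hu : u ∈ M) (hv : v ∈ M) (huv : u ≠ v) (hx : x ∈ flat B) (hx' : x' ∈ flat B)
    (hne : x ≠ x') (hux : G.Adj u x) (hvx : G.Adj v x') : HasCyc G m := by
  obtain ⟨y, y', l1, l2, z, z', hor, hnd, hmem, hz, hzK, hy, hy', hz', hz'K, hc1, hc2, hk1, hk2⟩ :=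
    h.routes (by omega) hx hx' hne
  obtain ⟨a, c, ha, hc, hac, hay, hcy⟩ : ∃ a c, a ∈ M ∧ c ∈ M ∧ a ≠ c ∧ G.Adj y a ∧ G.Adj c y' := by
    rcases hor with ⟨rfl, rfl⟩ | ⟨rfl, rfl⟩
    · exact ⟨u, v, hu, hv, huv, hux.symm, hvx⟩
    · exact ⟨v, u, hv, hu, huv.symm, hvx.symm, hux⟩
  have hzne : l1 ≠ [] := fun e => by simp [e] at hz
  have hz'ne : l2 ≠ [] := fun e => by simp [e] at hz'
  -- the length of the two routes
  have ht : l1.length + l2.length ≤ (flat B).length + 2 - K.card := by
    have hnd' := List.nodup_append'.1 hnd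
    have hsub : (l1.tail ++ l2.dropLast).toFinset ⊆ (flat B).toFinset \ K := by
      intro w hw
      simp only [List.mem_toFinset, List.mem_append] at hw
      rw [Finset.mem_sdiff, List.mem_toFinset]
      rcases hw with hw | hw
      · exact ⟨hmem w (List.mem_append_left _ (List.mem_of_mem_tail hw)), hk1 w hw⟩
      · exact ⟨hmem w (List.mem_append_right _ (List.dropLast_subset _ hw)), hk2 w hw⟩
    have h1 := Finset.card_le_card hsub
    rw [List.toFinset_card_of_nodup (hnd.sublist
        ((List.tail_sublist _).append (List.dropLast_sublist _))),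
      Finset.card_sdiff_of_subset (fun w hw => List.mem_toFinset.2 (h.clique_sub w hw)),
      List.toFinset_card_of_nodup h.nd, List.length_append, List.length_tail,
      List.length_dropLast] at h1
    have := List.length_pos_of_ne_nil hzne
    have := List.length_pos_of_ne_nil hz'ne
    have hKL := Finset.card_le_card (t := (flat B).toFinset)
      (fun w hw => List.mem_toFinset.2 (h.clique_sub w hw))
    rw [List.toFinset_card_of_nodup h.nd] at hKL
    omega
  have hMc : 2 ≤ M.card := Finset.one_lt_card.2 ⟨a, ha, c, hc, hac⟩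
  have := List.length_pos_of_ne_nil hzne
  have := List.length_pos_of_ne_nil hz'ne
  obtain ⟨i, j, hi, hj, hij⟩ : ∃ i j, i + 2 ≤ M.card ∧ j + 2 ≤ K.card ∧
      l1.length + 2 + i + l2.length + j = m := by
    refine ⟨min (M.card - 2) (m - l1.length - l2.length - 2),
      m - l1.length - l2.length - 2 - min (M.card - 2) (m - l1.length - l2.length - 2),
      by omega, by omega, by omega⟩
  obtain ⟨A, hA, hAl, hAM⟩ := clique_part (a := a) (b := c) hi
  obtain ⟨C, hC, hCl, hCK⟩ := clique_part (a := z) (b := z') hj
  have hmid : (a :: (A ++ [c])).IsChain G.Adj ∧ (a :: (A ++ [c])).Nodup ∧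
      ∀ w ∈ a :: (A ++ [c]), w ∈ M := by
    have hn : (a :: (A ++ [c])).Nodup := by
      rw [List.nodup_cons, List.nodup_append']
      refine ⟨?_, hA, List.nodup_singleton _, fun w hw hw' => ?_⟩
      · simp only [List.mem_append, List.mem_singleton]
        rintro (h1 | h1)
        · exact (hAM a h1).2.1 rfl
        · exact hac h1
      · simp only [List.mem_singleton] at hw'
        exact (hAM w hw).2.2 hw'
    have hin : ∀ w ∈ a :: (A ++ [c]), w ∈ M := by
      intro w hw
      simp only [List.mem_cons, List.mem_append, List.not_mem_nil, or_false] at hw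
      rcases hw with rfl | hw | rfl
      exacts [ha, (hAM w hw).1, hc]
    exact ⟨clique_chain hM hn hin, hn, hin⟩
  obtain ⟨hmc, hmn, hmM⟩ := hmid
  have hzz : z ≠ z' := fun e => (List.nodup_append'.1 hnd).2.2 (List.mem_of_mem_head? hz)
    (List.mem_of_mem_getLast? (e ▸ hz'))
  have htail : (z' :: (C ++ [z])).Nodup := by
    rw [List.nodup_cons, List.nodup_append']
    refine ⟨?_, hC, List.nodup_singleton _, fun w hw hw' => ?_⟩
    · simp only [List.mem_append, List.mem_singleton]
      rintro (h1 | h1)
      · exact (hCK z' h1).2.2 rfl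
      · exact hzz h1.symm
    · simp only [List.mem_singleton] at hw'
      exact (hCK w hw).2.1 hw'
  have hKC : (z' :: (C ++ [z])).IsChain G.Adj := clique_chain hK htail (by
    intro w hw
    simp only [List.mem_cons, List.mem_append, List.not_mem_nil, or_false] at hw
    rcases hw with rfl | hw | rfl
    exacts [hz'K, (hCK w hw).1, hzK])
  rw [← hij]
  have e : (l1 ++ ((a :: (A ++ [c])) ++ (l2 ++ C))).length = l1.length + 2 + i + l2.length + j := by
    simp [hAl, hCl]; omega
  refine (congrArg (HasCyc G) e).mp (hasCyc_of_list (h := z) ?_ ?_ ?_)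
  · rw [List.head?_append, hz]; rfl
  · have hK1 : ∀ w ∈ C, w ∉ l1 ∧ w ∉ l2 := fun w hw => by
      refine ⟨fun h1 => ?_, fun h1 => ?_⟩
      · rcases l1 with _ | ⟨w0, l1⟩
        · simp at h1
        · rcases List.mem_cons.1 h1 with e | h1
          · simp at hz; exact (hCK w hw).2.1 (e.trans hz)
          · exact hk1 w h1 (hCK w hw).1
      · rw [← List.dropLast_append_getLast hz'ne, List.mem_append] at h1
        rcases h1 with h1 | h1
        · exact hk2 w h1 (hCK w hw).1
        · rw [List.getLast?_eq_some_getLast hz'ne, Option.some_inj] at hz'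
          simp [hz'] at h1
          exact (hCK w hw).2.2 h1
    obtain ⟨n1, n2, n12⟩ := List.nodup_append'.1 hnd
    rw [List.nodup_append']
    refine ⟨n1, ?_, fun w hw hw' => ?_⟩
    · rw [List.nodup_append', List.nodup_append']
      refine ⟨hmn, ⟨n2, hC, fun w hw hw' => (hK1 w hw').2 hw⟩, fun w hw hw' => ?_⟩
      refine hMB w (hmM w hw) ?_
      rcases List.mem_append.1 hw' with h1 | h1
      · exact hmem w (List.mem_append_right _ h1)
      · exact h.clique_sub w (hCK w h1).1
    · rcases List.mem_append.1 hw' with h1 | h1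
      · exact hMB w (hmM w h1) (hmem w (List.mem_append_left _ hw))
      · rcases List.mem_append.1 h1 with h1 | h1
        · exact n12 hw h1
        · exact (hK1 w h1).1 hw
  · rw [List.append_assoc, List.isChain_append, List.append_assoc, List.isChain_append,
      List.append_assoc, List.isChain_append]
    have hk' : (C ++ [z]).IsChain G.Adj ∧ ∀ w ∈ (C ++ [z]).head?, G.Adj z' w := by
      rw [List.isChain_cons] at hKC
      exact ⟨hKC.2, hKC.1⟩
    refine ⟨hc1, ⟨hmc, ⟨hc2, hk'.1, ?_⟩, ?_⟩, ?_⟩
    · intro w hw w' hw'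
      rw [hz', Option.mem_some_iff] at hw
      subst hw
      exact hk'.2 w' hw'
    · intro w hw w' hw'
      rw [← List.cons_append, List.getLast?_concat, Option.mem_some_iff] at hw
      rw [List.head?_append, hy'] at hw'
      simp at hw'
      subst hw hw'
      exact hcy
    · intro w hw w' hw'
      rw [hy, Option.mem_some_iff] at hw
      simp at hw'
      subst hw hw'
      exact hay

/-- A vertex outside seeing a universal root and another vertex, beside a second universal root. -/
theorem Whole.two_universal (hK : G.IsClique (K : Set V)) {P0 Q0 : List (Blk V)} {p q : Blk V}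
    (h : Whole G X K (P0 ++ p :: (Q0 ++ [q])))
    (hlen : (flat (P0 ++ p :: (Q0 ++ [q]))).length + 1 = m) {u x : V}
    (hu : u ∉ flat (P0 ++ p :: (Q0 ++ [q]))) (hua : G.Adj (lastV p) u)
    (hx : x ∈ flat (P0 ++ p :: (Q0 ++ [q]))) (hxa : x ≠ lastV p) (hxb : x ≠ lastV q)
    (hux : G.Adj u x)
    (ha : ∀ w ∈ flat (P0 ++ p :: (Q0 ++ [q])), w ≠ lastV p → G.Adj (lastV p) w)
    (hb : ∀ w ∈ flat (P0 ++ p :: (Q0 ++ [q])), w ≠ lastV q → G.Adj (lastV q) w) :
    HasCyc G m := by
  have hab : lastV p ≠ lastV q := by
    have := h.lastV_nodup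
    simp [List.nodup_append'] at this
    exact fun e => this.2.1.1.2 e
  obtain ⟨B', hB'eq, hB', -, hperm⟩ := h.join hK (R := []) List.nodup_nil (by simp) (by
    simpa using ha _ (by
      rw [flat_append, flat_cons, flat_append, flat_cons]
      have := lastV_mem q
      simp only [List.mem_cons, List.mem_append, flat_nil, List.not_mem_nil, or_false] at this ⊢
      tauto) hab.symm)
  rw [List.append_nil] at hperm
  -- the joined cycle read from the first root
  obtain ⟨U, T, hfl⟩ : ∃ U T, flat B' = U ++ lastV p :: lastV q :: T := by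
    have hdl : (p.1 :: p.2).dropLast ++ [lastV p] = p.1 :: p.2 := List.dropLast_append_getLast _
    obtain ⟨T, hT⟩ : ∃ T, q.2.reverse ++ flat (rv q.1 Q0.reverse) = lastV q :: T := by
      rcases List.eq_nil_or_concat q.2 with e | ⟨e', c, e⟩
      · have hl : lastV q = q.1 := by simp [lastV, e]
        rw [e, hl]
        cases Q0.reverse <;> simp [rv]
      · have hl : lastV q = c := by simp [lastV, e]
        rw [e, hl]
        simp
    refine ⟨flat P0 ++ (p.1 :: p.2).dropLast, T, ?_⟩
    rw [hB'eq, flat_append, flat_cons, List.append_nil, List.append_assoc, hT,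
      ← List.cons_append, ← hdl]
    simp
  obtain ⟨w0, t, hwt⟩ := List.exists_cons_of_ne_nil hB'.ne
  have hch := okto_chain (hB'.ok w0 (by rw [hwt]; rfl))
  have hU0 : ∀ y ∈ U.head?, y = w0.1 := by
    intro y hy
    have : (flat B').head? = some w0.1 := by rw [hwt]; simp
    rw [hfl, List.head?_append, Option.mem_def.1 hy] at this
    simpa using this
  rw [hfl, List.append_assoc, List.isChain_append] at hch
  obtain ⟨hcU, hcW, -⟩ := hch
  have hcT : (T ++ U).IsChain G.Adj := by
    rw [List.cons_append, List.cons_append] at hcW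
    have h2 := hcW.tail.tail
    simp only [List.tail_cons] at h2
    rw [List.isChain_append] at h2
    refine List.isChain_append.2 ⟨h2.1, hcU, fun a ha' y hy => ?_⟩
    rw [hU0 y hy]
    exact h2.2.2 a ha' w0.1 (by simp)
  have hpm : (lastV p :: lastV q :: (T ++ U)).Perm (flat (P0 ++ p :: (Q0 ++ [q]))) := by
    refine List.Perm.trans ?_ (hfl ▸ hperm)
    exact (List.perm_append_comm (l₁ := U) (l₂ := lastV p :: lastV q :: T)).symm.trans (by simp)
      |>.trans (List.Perm.refl _)
  have hnd := hpm.nodup_iff.2 h.nd
  have hxT : x ∈ T ++ U := by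
    have := hpm.symm.subset hx
    simp only [List.mem_cons] at this
    tauto
  obtain ⟨T1, T2, hTU⟩ := List.append_of_mem hxT
  rw [hTU] at hcT hnd hpm
  rw [List.isChain_append] at hcT
  have hin : ∀ w ∈ T1 ++ x :: T2, w ∈ flat (P0 ++ p :: (Q0 ++ [q])) ∧ w ≠ lastV p ∧ w ≠ lastV q := by
    intro w hw
    simp only [List.nodup_cons, List.mem_cons, not_or] at hnd
    refine ⟨hpm.subset (List.mem_cons_of_mem _ (List.mem_cons_of_mem _ hw)), ?_, ?_⟩
    · rintro rfl; exact hnd.1.2 hw
    · rintro rfl; exact hnd.2.1 hw
  have hl : (lastV p :: u :: ((x :: T2) ++ lastV q :: T1)).length = m := by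
    have := hpm.length_eq
    simp only [List.length_cons, List.length_append] at this ⊢
    omega
  refine (congrArg (HasCyc G) hl).mp (hasCyc_of_list (h := lastV p) rfl ?_ ?_)
  · have hp' : (lastV p :: u :: ((x :: T2) ++ lastV q :: T1)).Perm
        (u :: (lastV p :: lastV q :: (T1 ++ x :: T2))) := by
      rw [List.perm_iff_count]
      intro w
      simp only [List.count_cons, List.count_append]
      omega
    rw [hp'.nodup_iff, List.nodup_cons]
    exact ⟨fun h1 => hu (hpm.subset h1), hnd⟩
  · simp only [List.cons_append]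
    rw [List.isChain_cons_cons, List.isChain_cons_cons]
    refine ⟨hua, hux, ?_⟩
    rw [List.append_assoc, ← List.cons_append, List.isChain_append]
    refine ⟨hcT.2.1, ?_, fun a ha' y hy => ?_⟩
    · rw [List.cons_append, List.isChain_cons, List.isChain_append]
      refine ⟨fun y hy => ?_, hcT.1, List.isChain_singleton _, fun a ha' y hy => ?_⟩
      · rcases T1 with _ | ⟨w, T1⟩
        · simp at hy
          subst hy
          refine hb _ ?_ hab
          rw [flat_append, flat_cons, List.mem_append]
          have := lastV_mem p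
          simp only [List.mem_cons, List.mem_append] at this ⊢
          tauto
        · simp at hy
          subst hy
          have := hin w (by simp)
          exact hb w this.1 this.2.2
      · simp at hy
        subst hy
        have := hin a (List.mem_append_left _ (List.mem_of_mem_getLast? ha'))
        exact (ha a this.1 this.2.1).symm
    · simp at hy
      subst hy
      have := hin a (List.mem_append_right _ (List.mem_of_mem_getLast? ha'))
      exact (hb a this.1 this.2.2).symm

end Vale.Agent.P048.Full.NC
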