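import Vale.Agent.P048.Full.NC.States

/-!
P048, the clique step: in state M a root misses vertices of the cycle, and the pairs of
consecutive roots leave few places for the neighbours of an outside vertex.
-/

open scoped Classical

namespace Vale.Agent.P048.Full.NC

universe u

/-- In state M a root is not adjacent to two further vertices of the cycle, three if
`m + 1 ≤ 2 |K|`. -/
def MDeg : Prop :=
  ∀ (V : Type u) (G : SimpleGraph V) (X K : Finset V) (B : List (Blk V)) (m k : ℕ) (a : V),
    StateM G X K B m k → a ∈ roots B →
    ((flat B).toFinset.filter (G.Adj a)).card + 2 ≤ m ∧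
      (m + 1 ≤ 2 * K.card → ((flat B).toFinset.filter (G.Adj a)).card + 3 ≤ m)

/-- An outside vertex adjacent to no root but `a` sees at most `(m - 1) / 2` cycle vertices,
provided it cannot be inserted. -/
def OutDeg : Prop :=
  ∀ (V : Type u) (G : SimpleGraph V) (X K : Finset V) (B : List (Blk V)) (m k : ℕ) (a u : V),
    (StateN G X K B m k ∨ StateM G X K B m k) → a ∈ roots B → u ∈ off X B →
    (∀ b ∈ roots B, b ≠ a → ¬ G.Adj u b) →
    2 * ((flat B).toFinset.filter (G.Adj u)).card + 1 ≤ m

end Vale.Agent.P048.Full.NC
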