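import Vale.Agent.P048.Full.NC.Exits
import Vale.Agent.P048.Full.NC.MDegDefs

/-!
P048, the clique step: every root has neighbours outside, and at most one root has a clique as
its ball of radius two; then the clique has more than `m / 2` vertices.
-/

open scoped Classical

namespace Vale.Agent.P048.Full.NC

universe u

variable {V : Type u} {G : SimpleGraph V} {X K : Finset V} {B : List (Blk V)} {m k : ℕ}

lemma nb_split {a : V} (B : List (Blk V)) :
    (nb G a X).card ≤ (nb G a (off X B)).card + ((flat B).toFinset.filter (G.Adj a)).card := by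
  refine (Finset.card_le_card fun x hx => ?_).trans (Finset.card_union_le _ _)
  rw [mem_nb] at hx
  rw [Finset.mem_union, mem_nb, off, Finset.mem_sdiff, Finset.mem_filter]
  by_cases hxB : x ∈ (flat B).toFinset
  · exact Or.inr ⟨hxB, hx.2⟩
  · exact Or.inl ⟨⟨hx.1, hxB⟩, hx.2⟩

lemma state_nb_pos (hMD : MDeg.{u}) (h : StateN G X K B m k ∨ StateM G X K B m k) {a : V}
    (ha : a ∈ roots B) : (nb G a (off X B)).Nonempty := by
  rw [← Finset.card_pos]
  have hspl := nb_split (G := G) (X := X) (a := a) B
  rcases h with h | h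
  · have hd := h.cx.deg (h.whole.roots_sub h.hKX ha).1
    have h2 : ((flat B).toFinset.filter (G.Adj a)).card ≤ ((flat B).toFinset.erase a).card :=
      Finset.card_le_card fun x hx => by
        rw [Finset.mem_filter] at hx
        exact Finset.mem_erase.2 ⟨hx.2.ne', hx.1⟩
    rw [Finset.card_erase_of_mem (List.mem_toFinset.2 (h.whole.roots_sub h.hKX ha).2),
      List.toFinset_card_of_nodup h.whole.nd] at h2
    have := h.short
    have := h.hm
    omega
  · have hd := h.cx.deg (h.whole.roots_sub h.hKX ha).1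
    have h2 := (hMD V G X K B m k a h ha).1
    omega

/-- At most one root has a clique ball, and only when `m + 1 ≤ 2 |K|`. -/
theorem bad_balls (hMD : MDeg.{u}) (hOD : OutDeg.{u})
    (h : StateN G X K B m k ∨ StateM G X K B m k) (hs : K.card + 2 ≤ m)
    (hmax : ∀ T, T ⊆ X → G.IsClique (T : Set V) → T.card ≤ K.card)
    (hsep : ∀ a ∈ roots B, ∀ b ∈ roots B, a ≠ b → Sep G (off X B) a b) :
    ((roots B).filter fun a => G.IsClique (ball2 G (off X B) a : Set V)).card ≤ 1 ∧
      (((roots B).filter fun a => G.IsClique (ball2 G (off X B) a : Set V)).Nonempty →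
        m + 1 ≤ 2 * K.card) := by
  have hb : Base G X K B m k := h.elim StateN.toBase StateM.toBase
  have hlen : (flat B).length ≤ m + 1 := by
    rcases h with h | h
    · have := h.short; omega
    · rw [h.long]
  have hm := hb.hm
  -- the facts about one such root
  have one : ∀ a ∈ roots B, G.IsClique (ball2 G (off X B) a : Set V) →
      m + 1 ≤ 2 * K.card ∧ StateN G X K B m k ∧ (nb G a (off X B)).card = 1 ∧
        ∃ u x, u ∈ off X B ∧ G.Adj a u ∧ x ∈ flat B ∧ G.Adj u x ∧ x ≠ a ∧
          ∀ b ∈ roots B, b ≠ a → x ≠ b := by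
    intro a ha hcl
    obtain ⟨M, hMdef⟩ : ∃ M, M = ball2 G (off X B) a := ⟨_, rfl⟩
    rw [← hMdef] at hcl
    have hMoff : M ⊆ off X B := hMdef ▸ Finset.filter_subset _ _
    have hMs : M.card ≤ K.card := hmax M (hMoff.trans Finset.sdiff_subset) hcl
    have hapart : ∀ u ∈ nb G a (off X B), ∀ b ∈ roots B, b ≠ a → ¬ G.Adj u b := by
      intro u hu b hb' hba hub
      rw [mem_nb] at hu
      exact (hsep a ha b hb' hba.symm).1 [u]
        ⟨by simp, by simp [hu.1], by simp [hu.2, hub]⟩ (by simp) (by simp)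
    have hdeg : ∀ u ∈ nb G a (off X B), m ≤ M.card + ((flat B).toFinset.filter (G.Adj u)).card ∧
        2 * ((flat B).toFinset.filter (G.Adj u)).card + 1 ≤ m ∧ u ∈ M := by
      intro u hu
      have hu' := mem_nb.1 hu
      have huM : u ∈ M := by
        rw [hMdef, ball2, Finset.mem_filter]; exact ⟨hu'.1, Or.inl hu'.2⟩
      have hsub : nb G u (off X B) ⊆ M.erase u := fun y hy => by
        rw [mem_nb] at hy
        rw [Finset.mem_erase, hMdef, ball2, Finset.mem_filter]
        exact ⟨hy.2.ne', hy.1, Or.inr ⟨u, hu'.1, hu'.2, hy.2⟩⟩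
      have h1 := hb.cx.deg (Finset.sdiff_subset hu'.1)
      have h2 := nb_split (G := G) (X := X) (a := u) B
      have h3 := Finset.card_le_card hsub
      rw [Finset.card_erase_of_mem huM] at h3
      have h4 : 0 < M.card := Finset.card_pos.2 ⟨u, huM⟩
      exact ⟨by omega, hOD V G X K B m k a u h ha hu'.1 (hapart u hu), huM⟩
    obtain ⟨u, hu⟩ := state_nb_pos hMD h ha
    obtain ⟨hu1, hu2, huM⟩ := hdeg u hu
    have hbig : m + 1 ≤ 2 * K.card := by omega
    obtain ⟨x, hx, hxa⟩ :=
      Finset.exists_mem_ne (s := (flat B).toFinset.filter (G.Adj u)) (by omega) a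
    rw [Finset.mem_filter, List.mem_toFinset] at hx
    have hone : (nb G a (off X B)).card = 1 := by
      by_contra hne
      have h2 : 1 < (nb G a (off X B)).card := by
        have := Finset.card_pos.2 ⟨u, hu⟩
        omega
      obtain ⟨v, hv, hvu⟩ := Finset.exists_mem_ne h2 u
      obtain ⟨hv1, hv2, hvM⟩ := hdeg v hv
      obtain ⟨x', hx', hx'x⟩ :=
        Finset.exists_mem_ne (s := (flat B).toFinset.filter (G.Adj v)) (by omega) x
      rw [Finset.mem_filter, List.mem_toFinset] at hx'
      refine hb.cx.noc (hb.whole.two_exits hb.hK hlen hm (by omega) hcl (fun w hw => ?_) (by omega)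
        huM hvM hvu.symm hx.1 hx'.1 hx'x.symm hx.2 hx'.2)
      have := hMoff hw
      rw [off, Finset.mem_sdiff, List.mem_toFinset] at this
      exact this.2
    refine ⟨hbig, ?_, hone, u, x, (mem_nb.1 hu).1, (mem_nb.1 hu).2, hx.1, hx.2, hxa,
      fun b hb' hba e => hapart u hu b hb' hba (e ▸ hx.2)⟩
    rcases h with h | h
    · exact h
    · exfalso
      have hd := h.cx.deg (h.whole.roots_sub h.hKX ha).1
      have h2 := (hMD V G X K B m k a h ha).2 hbig
      have h3 := nb_split (G := G) (X := X) (a := a) B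
      omega
  refine ⟨Finset.card_le_one.2 fun a ha b hb' => ?_, fun ⟨a, ha⟩ => ?_⟩
  · rw [Finset.mem_filter] at ha hb'
    by_contra hab
    obtain ⟨-, hN, hone, u, x, hu, hau, hx, hux, hxa, hxr⟩ := one a ha.1 ha.2
    obtain ⟨-, -, hone', -⟩ := one b hb'.1 hb'.2
    have hxb : x ≠ b := hxr b hb'.1 fun e => hab e.symm
    obtain ⟨hlen, huniv⟩ := lonely hN ha.1 hone
    obtain ⟨-, huniv'⟩ := lonely hN hb'.1 hone'
    obtain ⟨P0, p, Q0, q, hC, hperm, -, rfl, rfl⟩ := hN.whole.split ha.1 hb'.1 hab
    refine hb.cx.noc (hC.two_universal hb.hK (u := u) (x := x) ?_ ?_ hau (hperm.symm.subset hx) hxa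
      hxb hux (fun w hw => huniv w (hperm.subset hw)) fun w hw => huniv' w (hperm.subset hw))
    · rw [hperm.length_eq]; exact hlen
    · intro h'
      rw [off, Finset.mem_sdiff, List.mem_toFinset] at hu
      exact hu.2 (hperm.subset h')
  · rw [Finset.mem_filter] at ha
    exact (one a ha.1 ha.2).1

end Vale.Agent.P048.Full.NC
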