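import Vale.Agent.P048.Full.NC.GapsDefs

/-!
P048, the clique step: proofs of the ear-size statements `GapThree` and `GapFull`.
-/

namespace Vale.Agent.P048.Full.NC

variable {s : ℕ} [NeZero s]

omit [NeZero s] in
lemma sum_zero (σ : Fin s → ℕ) (S : Finset (Fin s)) :
    ∑ i, zero σ S i + ∑ i ∈ S, σ i = ∑ i, σ i := by
  classical
  have h : ∀ i, zero σ S i + (if i ∈ S then σ i else 0) = σ i := fun i => by
    unfold zero; split <;> simp
  calc ∑ i, zero σ S i + ∑ i ∈ S, σ i
      = ∑ i, (zero σ S i + if i ∈ S then σ i else 0) := by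
        rw [Finset.sum_add_distrib, Finset.sum_ite_mem, Finset.univ_inter]
    _ = ∑ i, σ i := Finset.sum_congr rfl fun i _ => h i

omit [NeZero s] in
lemma zero_empty (σ : Fin s → ℕ) : zero σ ∅ = σ := by
  funext i; simp [zero]

omit [NeZero s] in
lemma card_succ [NeZero s] (p : Fin s → Prop) [DecidablePred p] :
    (Finset.univ.filter fun i => p (i + 1)).card = (Finset.univ.filter p).card :=
  Finset.card_equiv (Equiv.addRight (1 : Fin s)) (fun i => by simp)

lemma card_pred (p : Fin s → Prop) [DecidablePred p] :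
    (Finset.univ.filter fun i => p (i - 1)).card = (Finset.univ.filter p).card :=
  Finset.card_equiv (Equiv.subRight (1 : Fin s)) (fun i => by simp)

/-- Zeros not followed by zeros inject into the nonzero entries. -/
lemma zeros_le (τ : Fin s → ℕ) :
    s ≤ free τ + 2 * (Finset.univ.filter fun i => τ i ≠ 0).card := by
  classical
  have h1 := Finset.card_filter_add_card_filter_not (s := (Finset.univ : Finset (Fin s)))
    (fun i => τ i ≠ 0)
  have h2 : (Finset.univ.filter fun i => ¬ τ i ≠ 0) ⊆
      (Finset.univ.filter fun i => τ i = 0 ∧ τ (i + 1) = 0) ∪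
        (Finset.univ.filter fun i => τ (i + 1) ≠ 0) := by
    intro i hi
    simp only [Finset.mem_filter, Finset.mem_univ, true_and, not_not, Finset.mem_union] at hi ⊢
    tauto
  have h3 := (Finset.card_le_card h2).trans (Finset.card_union_le _ _)
  rw [card_succ (fun i => τ i ≠ 0)] at h3
  rw [Finset.card_univ, Fintype.card_fin] at h1
  unfold free
  omega

theorem gapThree : GapThree := by
  classical
  intro s _ σ n0 m L j hs hm hw hms hL hj hsum hn0 hsafe hsafe'
  set σ' := Function.update σ n0 (σ n0 + 1) with hσ'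
  have hsum' : ∑ i, σ' i = ∑ i, σ i + 1 := by
    rw [hσ', Finset.sum_update_of_mem (Finset.mem_univ n0),
      ← Finset.add_sum_erase _ _ (Finset.mem_univ n0), Finset.sdiff_singleton_eq_erase]
    omega
  have hSsum : ∀ S : Finset (Fin s), n0 ∉ S → ∑ i ∈ S, σ' i = ∑ i ∈ S, σ i := fun S hS =>
    Finset.sum_congr rfl fun i hi => by
      rw [hσ', Function.update_of_ne (fun h : i = n0 => hS (h ▸ hi))]
  -- no dropped set has total size in `[δ, j]`
  have win : ∀ S : Finset (Fin s), n0 ∉ S → ∑ i ∈ S, σ i ≤ j → ∑ i ∈ S, σ i + m < L + j := by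
    intro S hS hle
    by_contra hcon
    have e1 := sum_zero σ S
    rcases Nat.lt_or_eq_of_le hle with hlt | heq
    · exact (hsafe S hS).1 (by omega)
    · have e2 := sum_zero σ' S
      rw [hSsum S hS] at e2
      exact (hsafe' S hS).1 (by omega)
  have hδ : m < L + j := by simpa using win ∅ (Finset.notMem_empty _) (by simp)
  set B0 := Finset.univ.filter fun i => i ≠ n0 ∧ σ i + m < L + j with hB0
  have hB0n : ∀ S, S ⊆ B0 → n0 ∉ S := fun S hS h => (Finset.mem_filter.1 (hS h)).2.1 rfl
  have small : ∀ S : Finset (Fin s), S ⊆ B0 → ∑ i ∈ S, σ i + m < L + j := by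
    intro S
    induction S using Finset.induction_on with
    | empty => intro _; simpa using hδ
    | insert a S ha ih =>
      intro hS
      have h1 := ih ((Finset.subset_insert a S).trans hS)
      have h2 := (Finset.mem_filter.1 (hS (Finset.mem_insert_self a S))).2.2
      refine win _ (hB0n _ hS) ?_
      rw [Finset.sum_insert ha]
      omega
  have hD := small B0 subset_rfl
  have big : ∀ i, i ≠ n0 → i ∉ B0 → j < σ i := by
    intro i hi hiB
    by_contra hle
    have := win {i} (by simpa using Ne.symm hi) (by simpa using Nat.le_of_not_lt hle)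
    exact hiB (Finset.mem_filter.2 ⟨Finset.mem_univ _, hi, by simpa using this⟩)
  have e1 := sum_zero σ B0
  have hf := (hsafe B0 (hB0n _ subset_rfl)).2 (by omega)
  set τ := zero σ B0 with hτ
  have hc := zeros_le τ
  set B := (Finset.univ.filter fun i => τ i ≠ 0).card with hBdef
  have hlow : (j + 1) * B ≤ ∑ i, τ i + 1 := by
    have hstep : ∀ i, (if τ i ≠ 0 then j + 1 else 0) ≤ τ i + (if i = n0 then 1 else 0) := by
      intro i
      by_cases hi : i = n0
      · subst hi
        have : τ i = σ i := by simp [hτ, zero, hB0n B0 subset_rfl]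
        rw [if_pos rfl]
        split <;> omega
      · rw [if_neg hi]
        by_cases hiB : i ∈ B0
        · have : τ i = 0 := by simp [hτ, zero, hiB]
          simp [this]
        · have h1 : τ i = σ i := by simp [hτ, zero, hiB]
          have := big i hi hiB
          split <;> omega
    have := Finset.sum_le_sum (s := Finset.univ) fun i _ => hstep i
    rw [Finset.sum_add_distrib, Finset.sum_ite_eq' Finset.univ n0, if_pos (Finset.mem_univ _),
      ← Finset.sum_filter, Finset.sum_const, smul_eq_mul] at this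
    rw [hBdef, Nat.mul_comm]
    exact this
  have hn0B : n0 ∈ Finset.univ.filter fun i => τ i ≠ 0 := by
    simp only [Finset.mem_filter, Finset.mem_univ, true_and, hτ, zero, hB0n B0 subset_rfl,
      if_false]
    omega
  -- the other large ears
  have hrest : (j + 1) * (B - 1) + σ n0 ≤ ∑ i, τ i := by
    rw [← Finset.add_sum_erase _ _ (Finset.mem_univ n0), Nat.add_comm (τ n0)]
    refine Nat.add_le_add ?_ (le_of_eq (by simp [hτ, zero, hB0n B0 subset_rfl]))
    have hsub : (Finset.univ.filter fun i => τ i ≠ 0).erase n0 ⊆ Finset.univ.erase n0 :=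
      Finset.erase_subset_erase _ (Finset.subset_univ _)
    rw [hBdef, ← Finset.card_erase_of_mem hn0B, Nat.mul_comm, ← smul_eq_mul, ← Finset.sum_const]
    refine (Finset.sum_le_sum fun i hi => ?_).trans (Finset.sum_le_sum_of_subset hsub)
    obtain ⟨hi0, hi⟩ := Finset.mem_erase.1 hi
    simp only [Finset.mem_filter, Finset.mem_univ, true_and, hτ, zero] at hi ⊢
    split_ifs with hiB
    · simp [hiB] at hi
    · exact big i hi0 hiB
  have h2 : m = 2 * s := by rcases hj with rfl | rfl <;> omega
  refine ⟨h2, ?_⟩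
  by_cases h4 : s = 4 ∧ j = 4
  · exact Or.inl h4
  obtain ⟨hjs, hσ0, hB2⟩ : j + 2 = s ∧ σ n0 = j ∧ 1 < B := by
    rcases hj with rfl | rfl <;> omega
  obtain ⟨i, hi, hi0⟩ := Finset.exists_mem_ne (hBdef ▸ hB2) n0
  simp only [Finset.mem_filter, Finset.mem_univ, true_and, hτ, zero] at hi
  refine Or.inr ⟨hjs, hσ0, i, hi0, ?_⟩
  split_ifs at hi with hiB
  · simp at hi
  · exact big i hi0 hiB

open Fin.NatCast in
/-- A single run of zeros does not surround the new ear. -/
lemma run_bound (σ : Fin s → ℕ) (n0 : Fin s) (hne1 : ∀ i, i ≠ n0 → σ i ≠ 1)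
    {N U U' A A' X3 X4 : Finset (Fin s)} (hN : N = Finset.univ.filter fun i => σ i ≠ 0)
    (hU : U = Finset.univ.filter fun i => σ i ≠ 0 ∧ σ (i + 1) = 0)
    (hU' : U' = Finset.univ.filter fun i => σ (i - 1) = 0 ∧ σ i ≠ 0)
    (hA : A = Finset.univ.filter fun i => (i ≠ n0 ∧ σ i = 2) ∧ σ (i + 1) = 0)
    (hA' : A' = Finset.univ.filter fun i => (i ≠ n0 ∧ σ i = 2) ∧ σ (i - 1) = 0)
    (hX3 : X3 = Finset.univ.filter fun i => i ≠ n0 ∧ σ i = 3)
    (hX4 : X4 = Finset.univ.filter fun i => i ≠ n0 ∧ 4 ≤ σ i)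
    (hN1 : 1 < N.card) (hU1 : U.card ≤ 1) :
    U.card + U'.card ≤ A.card + A'.card + 2 * X3.card + 2 * X4.card + 1 := by
  have hrem : ∀ i, i ≠ n0 → (i ∈ U → i ∈ A ∪ X3 ∪ X4) ∧ (i ∈ U' → i ∈ A' ∪ X3 ∪ X4) := by
    intro i hi
    simp only [hU, hU', hA, hA', hX3, hX4, Finset.mem_filter, Finset.mem_univ, true_and,
      Finset.mem_union]
    have := hne1 i hi
    constructor <;> intro hh
    · have := hh.1
      rcases (show σ i = 2 ∨ σ i = 3 ∨ 4 ≤ σ i by omega) with h' | h' | h' <;> tauto
    · have := hh.2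
      rcases (show σ i = 2 ∨ σ i = 3 ∨ 4 ≤ σ i by omega) with h' | h' | h' <;> tauto
  have hnot : n0 ∈ U → n0 ∈ U' → False := by
    intro ha hb
    obtain ⟨i, hi, hin⟩ := Finset.exists_mem_ne hN1 n0
    simp only [hU', Finset.mem_filter, Finset.mem_univ, true_and] at hb
    simp only [hN, Finset.mem_filter, Finset.mem_univ, true_and] at hi
    have step : ∀ x, σ x ≠ 0 → x ≠ n0 → σ (x + 1) ≠ 0 := by
      intro x hx hxn hx1
      exact hxn (Finset.card_le_one.1 hU1 x (by simp [hU, hx, hx1]) n0 ha)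
    have walk : ∀ d : ℕ, (∀ e < d, i + (e : Fin s) ≠ n0) → σ (i + (d : Fin s)) ≠ 0 := by
      intro d
      induction d with
      | zero => intro _; simpa using hi
      | succ d ih =>
        intro hd
        have := step _ (ih fun e he => hd e (Nat.lt_succ_of_lt he)) (hd d (Nat.lt_succ_self d))
        simpa [add_assoc] using this
    have hex : ∃ d : ℕ, i + (d : Fin s) = n0 := ⟨(n0 - i).val, by simp⟩
    have h0 : Nat.find hex ≠ 0 := fun e => hin (by simpa [e] using Nat.find_spec hex)
    obtain ⟨d, hd⟩ : ∃ d, Nat.find hex = d + 1 := Nat.exists_eq_succ_of_ne_zero h0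
    have := walk d fun e he => Nat.find_min hex (by omega)
    refine this ?_
    have hs' := Nat.find_spec hex
    rw [hd, Nat.cast_succ, ← add_assoc] at hs'
    rw [eq_sub_of_add_eq hs']
    exact hb.1
  have k1 : U.card ≤ (A ∪ X3 ∪ X4).card + (if n0 ∈ U then 1 else 0) := by
    split_ifs with h
    · rw [← Finset.card_erase_add_one h]
      exact Nat.succ_le_succ (Finset.card_le_card fun x hx =>
        (hrem x (Finset.mem_erase.1 hx).1).1 (Finset.mem_erase.1 hx).2)
    · exact Finset.card_le_card fun x hx => (hrem x fun e : x = n0 => h (e ▸ hx)).1 hx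
  have k2 : U'.card ≤ (A' ∪ X3 ∪ X4).card + (if n0 ∈ U' then 1 else 0) := by
    split_ifs with h
    · rw [← Finset.card_erase_add_one h]
      exact Nat.succ_le_succ (Finset.card_le_card fun x hx =>
        (hrem x (Finset.mem_erase.1 hx).1).2 (Finset.mem_erase.1 hx).2)
    · exact Finset.card_le_card fun x hx => (hrem x fun e : x = n0 => h (e ▸ hx)).2 hx
  have := Finset.card_union_le (A ∪ X3) X4
  have := Finset.card_union_le A X3
  have := Finset.card_union_le (A' ∪ X3) X4
  have := Finset.card_union_le A' X3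
  split_ifs at k1 k2 with p1 p2 p2 <;> first | (exact (hnot p1 p2).elim) | omega

/-- The arithmetic at the end of `gapFull`. -/
lemma full_arith {s m j c n z u u' a a' d x3 x4 e f t : ℕ} (hs : 5 ≤ s) (hm : 8 ≤ m)
    (hw : 14 ≤ m ∨ m < 2 * s) (hms : m ≤ 2 * s + 1) (hj1 : 1 ≤ j) (hj4 : j ≤ 4)
    (hsum : s + t = m + 1 + j) (hc : c ≤ 2) (hn0 : j + 2 * c ≤ e) (he : s + 2 ≤ 2 * (n + c))
    (h1 : n + z = s) (hzero : f + u = z) (hzero' : f + u' = z) (hUle : u ≤ n)
    (hUA : u ≤ a + x3 + x4 + 1) (hUA' : u' ≤ a' + x3 + x4 + 1) (hNc : n ≤ d + x3 + x4 + 1)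
    (hexc : 2 * n + x3 + 2 * x4 + e ≤ t + 2) (w0 : f < j + 1)
    (w3 : 0 < x3 → 3 ≤ j + 1 → f + 3 < j + 1) (w1 : 0 < d → f + 2 < j + 1)
    (w2 : 1 < d → 4 ≤ j + 1 → f + 4 < j + 1) (cA : a ≤ d) (_cA' : a' ≤ d)
    (fA : 0 < a + a' → f + 3 < j + 1 ∧ (1 < d → f + 5 < j + 1 ∨ j + 1 < 4) ∧
      (d = 1 → 1 < a + a' → f + 4 < j + 1))
    (w5 : 0 < x3 → 0 < d → j + 1 < 5) : False := by
  obtain rfl | rfl | rfl | rfl : j = 1 ∨ j = 2 ∨ j = 3 ∨ j = 4 := by omega
  all_goals omega

/-- The same for `m = 2 s`, with the runs of zeros around the new ear. -/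
lemma full_arith_half {s m j c n z u u' a a' d x3 x4 e f t : ℕ} (hs : 5 ≤ s) (hs' : s ≤ 6) (hm : m = 2 * s)
    (hj1 : 1 ≤ j) (hj4 : j ≤ 4)
    (hsum : s + t = m + 1 + j) (hc : c ≤ 2) (hn0 : j + 2 * c ≤ e) (he : s + 2 ≤ 2 * (n + c))
    (h1 : n + z = s) (hzero : f + u = z) (hzero' : f + u' = z)
    (hUA : u ≤ a + x3 + x4 + 1) (hUA' : u' ≤ a' + x3 + x4 + 1) (hNc : n ≤ d + x3 + x4 + 1)
    (hexc : 2 * n + x3 + 2 * x4 + e ≤ t + 2) (w0 : f < j + 1)
    (w3 : 0 < x3 → 3 ≤ j + 1 → f + 3 < j + 1) (w1 : 0 < d → f + 2 < j + 1)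
    (w2 : 1 < d → 4 ≤ j + 1 → f + 4 < j + 1)
    (cA : a ≤ d) (_cA' : a' ≤ d)
    (fA : 0 < a + a' → f + 3 < j + 1 ∧ (1 < d → f + 5 < j + 1 ∨ j + 1 < 4) ∧
      (d = 1 → 1 < a + a' → f + 4 < j + 1))
    (w5 : 0 < x3 → 0 < d → j + 1 < 5)
    (hUU : 1 < n → u ≤ 1 → u + u' ≤ a + a' + 2 * x3 + 2 * x4 + 1) : False := by
  obtain rfl | rfl : s = 5 ∨ s = 6 := by omega
  · subst hm
    obtain rfl | rfl | rfl | rfl : j = 1 ∨ j = 2 ∨ j = 3 ∨ j = 4 := by omega
    all_goals omega
  · subst hm
    clear hUU
    obtain rfl | rfl | rfl | rfl : j = 1 ∨ j = 2 ∨ j = 3 ∨ j = 4 := by omega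
    all_goals omega

theorem gapFull : GapFull := by
  classical
  intro s _ σ n0 m j c hs hm hw hms hj1 hj4 hsum hc hn0 he hne1 hsafe
  revert hw
  set δ := j + 1 with hδ
  -- dropping `S`: too little, or too much, or not enough free vertices
  have win : ∀ S : Finset (Fin s), n0 ∉ S → ∑ i ∈ S, σ i ≤ δ →
      free (zero σ S) + ∑ i ∈ S, σ i < δ := by
    intro S hS hle
    have e1 := sum_zero σ S
    have := (hsafe S hS).2 (by omega)
    omega
  set N := Finset.univ.filter fun i => σ i ≠ 0 with hN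
  set D2 := Finset.univ.filter fun i => i ≠ n0 ∧ σ i = 2 with hD2
  set X3 := Finset.univ.filter fun i => i ≠ n0 ∧ σ i = 3 with hX3
  set X4 := Finset.univ.filter fun i => i ≠ n0 ∧ 4 ≤ σ i with hX4
  set U := Finset.univ.filter fun i => σ i ≠ 0 ∧ σ (i + 1) = 0 with hU
  set U' := Finset.univ.filter fun i => σ (i - 1) = 0 ∧ σ i ≠ 0 with hU'
  set A := Finset.univ.filter fun i => (i ≠ n0 ∧ σ i = 2) ∧ σ (i + 1) = 0 with hA
  set A' := Finset.univ.filter fun i => (i ≠ n0 ∧ σ i = 2) ∧ σ (i - 1) = 0 with hA'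
  -- free vertices after dropping
  have gain : ∀ S, S ⊆ N → free σ + (S.filter fun i => σ (i + 1) = 0).card +
      (S.filter fun i => σ (i - 1) = 0).card ≤ free (zero σ S) := by
    intro S hS
    have hnz : ∀ i ∈ S, σ i ≠ 0 := fun i hi => (Finset.mem_filter.1 (hS hi)).2
    set F0 := Finset.univ.filter fun i => σ i = 0 ∧ σ (i + 1) = 0 with hF0
    set F1 := (S.filter fun i => σ (i - 1) = 0).image fun i => i - 1 with hF1
    have hF1c : F1.card = (S.filter fun i => σ (i - 1) = 0).card :=
      Finset.card_image_of_injective _ fun a b h => sub_left_injective h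
    have d1 : Disjoint F0 (S.filter fun i => σ (i + 1) = 0) := by
      rw [Finset.disjoint_left]
      intro i hi hi'
      exact hnz i (Finset.mem_filter.1 hi').1 (Finset.mem_filter.1 hi).2.1
    have d2 : Disjoint (F0 ∪ S.filter fun i => σ (i + 1) = 0) F1 := by
      rw [Finset.disjoint_left]
      intro i hi hi'
      obtain ⟨u, hu, rfl⟩ := Finset.mem_image.1 hi'
      rw [Finset.mem_filter] at hu
      rcases Finset.mem_union.1 hi with h | h
      · have := (Finset.mem_filter.1 h).2.2
        rw [sub_add_cancel] at this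
        exact hnz u hu.1 this
      · exact hnz _ (Finset.mem_filter.1 h).1 hu.2
    have hsub : F0 ∪ (S.filter fun i => σ (i + 1) = 0) ∪ F1 ⊆
        Finset.univ.filter fun i => zero σ S i = 0 ∧ zero σ S (i + 1) = 0 := by
      intro i hi
      refine Finset.mem_filter.2 ⟨Finset.mem_univ _, ?_⟩
      simp only [zero]
      rcases Finset.mem_union.1 hi with hi | hi
      rcases Finset.mem_union.1 hi with hi | hi
      · obtain ⟨-, h1, h2⟩ := Finset.mem_filter.1 hi
        simp [h1, h2]
      · obtain ⟨h1, h2⟩ := Finset.mem_filter.1 hi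
        simp [h1, h2]
      · obtain ⟨u, hu, rfl⟩ := Finset.mem_image.1 hi
        obtain ⟨h1, h2⟩ := Finset.mem_filter.1 hu
        simp [h1, h2]
    have := Finset.card_le_card hsub
    rw [Finset.card_union_of_disjoint d2, Finset.card_union_of_disjoint d1, hF1c] at this
    exact this
  have h1 := Finset.card_filter_add_card_filter_not (s := (Finset.univ : Finset (Fin s)))
    (fun i => σ i ≠ 0)
  rw [Finset.card_univ, Fintype.card_fin, ← hN] at h1
  -- runs
  have hzero : free σ + U.card = (Finset.univ.filter fun i => ¬ σ i ≠ 0).card := by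
    rw [← card_succ (fun i => ¬ σ i ≠ 0), free, ← Finset.card_union_of_disjoint]
    · refine congrArg Finset.card ?_
      ext i
      simp only [hU, Finset.mem_union, Finset.mem_filter, Finset.mem_univ, true_and, not_not]
      tauto
    · rw [Finset.disjoint_left]
      intro i hi hi'
      simp only [hU, Finset.mem_filter, Finset.mem_univ, true_and] at hi hi'
      exact hi'.1 hi.1
  have hzero' : free σ + U'.card = (Finset.univ.filter fun i => ¬ σ i ≠ 0).card := by
    have hU'c : U'.card = (Finset.univ.filter fun i => σ i = 0 ∧ σ (i + 1) ≠ 0).card := by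
      rw [hU', ← card_pred (fun i => σ i = 0 ∧ σ (i + 1) ≠ 0)]
      simp
    rw [hU'c, free, ← Finset.card_union_of_disjoint]
    · refine congrArg Finset.card ?_
      ext i
      simp only [Finset.mem_union, Finset.mem_filter, Finset.mem_univ, true_and, not_not]
      tauto
    · rw [Finset.disjoint_left]
      intro i hi hi'
      simp only [Finset.mem_filter, Finset.mem_univ, true_and] at hi hi'
      exact hi'.2 hi.2
  have hUle : U.card ≤ N.card := Finset.card_le_card fun i hi => by
    simp only [hU, hN, Finset.mem_filter, Finset.mem_univ, true_and] at hi ⊢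
    exact hi.1
  have hUA : U.card ≤ A.card + X3.card + X4.card + 1 := by
    have hsub : U ⊆ insert n0 (A ∪ X3 ∪ X4) := by
      intro i hi
      simp only [hU, hA, hX3, hX4, Finset.mem_filter, Finset.mem_univ, true_and,
        Finset.mem_insert, Finset.mem_union] at hi ⊢
      by_cases h : i = n0
      · exact Or.inl h
      · have := hne1 i h
        have := hi.1
        rcases (show σ i = 2 ∨ σ i = 3 ∨ 4 ≤ σ i by omega) with h' | h' | h' <;> tauto
    have := (Finset.card_le_card hsub).trans (Finset.card_insert_le _ _)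
    have := Finset.card_union_le (A ∪ X3) X4
    have := Finset.card_union_le A X3
    omega
  have hUA' : U'.card ≤ A'.card + X3.card + X4.card + 1 := by
    have hsub : U' ⊆ insert n0 (A' ∪ X3 ∪ X4) := by
      intro i hi
      simp only [hU', hA', hX3, hX4, Finset.mem_filter, Finset.mem_univ, true_and,
        Finset.mem_insert, Finset.mem_union] at hi ⊢
      by_cases h : i = n0
      · exact Or.inl h
      · have := hne1 i h
        have := hi.2
        rcases (show σ i = 2 ∨ σ i = 3 ∨ 4 ≤ σ i by omega) with h' | h' | h' <;> tauto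
    have := (Finset.card_le_card hsub).trans (Finset.card_insert_le _ _)
    have := Finset.card_union_le (A' ∪ X3) X4
    have := Finset.card_union_le A' X3
    omega
  have hNc : N.card ≤ D2.card + X3.card + X4.card + 1 := by
    have hsub : N ⊆ insert n0 (D2 ∪ X3 ∪ X4) := by
      intro i hi
      simp only [hN, hD2, hX3, hX4, Finset.mem_filter, Finset.mem_univ, true_and,
        Finset.mem_insert, Finset.mem_union] at hi ⊢
      by_cases h : i = n0
      · exact Or.inl h
      · have := hne1 i h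
        rcases (show σ i = 2 ∨ σ i = 3 ∨ 4 ≤ σ i by omega) with h' | h' | h' <;> tauto
    have := (Finset.card_le_card hsub).trans (Finset.card_insert_le _ _)
    have := Finset.card_union_le (D2 ∪ X3) X4
    have := Finset.card_union_le D2 X3
    omega
  have hexc : 2 * N.card + X3.card + 2 * X4.card + σ n0 ≤ ∑ i, σ i + 2 := by
    have hstep : ∀ i, (if σ i ≠ 0 then 2 else 0) + (if i ≠ n0 ∧ σ i = 3 then 1 else 0) +
        (if i ≠ n0 ∧ 4 ≤ σ i then 2 else 0) +
        (if i = n0 then σ n0 else 0) ≤ σ i + (if i = n0 then 2 else 0) := by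
      intro i
      by_cases hi : i = n0
      · subst hi
        simp only [ne_eq, not_true_eq_false, false_and, if_false, if_true]
        split <;> omega
      · have := hne1 i hi
        simp only [hi, ne_eq, not_false_eq_true, true_and, if_false]
        split <;> split <;> split <;> omega
    have := Finset.sum_le_sum (s := Finset.univ) fun i _ => hstep i
    simp only [Finset.sum_add_distrib] at this
    rw [Finset.sum_ite_eq' Finset.univ n0, if_pos (Finset.mem_univ _),
      Finset.sum_ite_eq' Finset.univ n0, if_pos (Finset.mem_univ _)] at this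
    rw [← Finset.sum_filter, Finset.sum_const, smul_eq_mul, ← Finset.sum_filter,
      Finset.sum_const, smul_eq_mul, ← Finset.sum_filter, Finset.sum_const, smul_eq_mul] at this
    rw [← hN, ← hX3, ← hX4] at this
    omega
  have w0 : free σ < δ := by
    simpa [zero_empty] using win ∅ (Finset.notMem_empty _) (by simp)
  have w3 : 0 < X3.card → 3 ≤ δ → free σ + 3 < δ := by
    intro h h3
    obtain ⟨t, ht⟩ := Finset.card_pos.1 h
    simp only [hX3, Finset.mem_filter, Finset.mem_univ, true_and] at ht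
    have := win {t} (by simpa using Ne.symm ht.1) (by simp [ht.2]; omega)
    have := gain {t} (by simp [hN, ht.2])
    simp [ht.2] at *
    omega
  have w1 : 0 < D2.card → free σ + 2 < δ := by
    intro h
    obtain ⟨t, ht⟩ := Finset.card_pos.1 h
    simp only [hD2, Finset.mem_filter, Finset.mem_univ, true_and] at ht
    have := win {t} (by simpa using Ne.symm ht.1) (by simp [ht.2]; omega)
    have := gain {t} (by simp [hN, ht.2])
    simp [ht.2] at *
    omega
  have w2 : 1 < D2.card → 4 ≤ δ → free σ + 4 < δ := by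
    intro h h4
    obtain ⟨t, ht, u, hu, htu⟩ := Finset.one_lt_card.1 h
    simp only [hD2, Finset.mem_filter, Finset.mem_univ, true_and] at ht hu
    have := win {t, u} (by simp [Ne.symm ht.1, Ne.symm hu.1]) (by
      rw [Finset.sum_pair htu, ht.2, hu.2]; omega)
    have := gain {t, u} (by
      intro x hx
      simp only [Finset.mem_insert, Finset.mem_singleton] at hx
      rcases hx with rfl | rfl <;> simp [hN, ht.2, hu.2])
    rw [Finset.sum_pair htu, ht.2, hu.2] at *
    omega
  -- sets of doubles carrying their gains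
  have wA : ∀ t, t ≠ n0 → σ t = 2 → (σ (t + 1) = 0 → free σ + 3 < δ) ∧
      (σ (t - 1) = 0 → free σ + 3 < δ) ∧
      (σ (t + 1) = 0 → σ (t - 1) = 0 → free σ + 4 < δ) := by
    intro t ht h2
    have := win {t} (by simpa using Ne.symm ht) (by simp [h2]; omega)
    have := gain {t} (by simp [hN, h2])
    simp only [Finset.filter_singleton, Finset.sum_singleton, h2] at *
    refine ⟨fun h => ?_, fun h => ?_, fun h h' => ?_⟩
    · simp only [h, if_true, Finset.card_singleton] at *
      omega
    · simp only [h, if_true, Finset.card_singleton] at *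
      omega
    · simp only [h, h', if_true, Finset.card_singleton] at *
      omega
  have wA2 : ∀ t u, t ≠ n0 → σ t = 2 → u ≠ n0 → σ u = 2 → t ≠ u → 4 ≤ δ →
      (σ (t + 1) = 0 ∨ σ (t - 1) = 0) → free σ + 5 < δ := by
    intro t u ht h2 hu hu2 htu h4 hz
    have := win {t, u} (by simp [Ne.symm ht, Ne.symm hu]) (by
      rw [Finset.sum_pair htu, h2, hu2]; omega)
    have := gain {t, u} (by
      intro x hx
      simp only [Finset.mem_insert, Finset.mem_singleton] at hx
      rcases hx with rfl | rfl <;> simp [hN, h2, hu2])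
    rw [Finset.sum_pair htu, h2, hu2] at *
    rcases hz with h | h
    · have : 0 < (({t, u} : Finset (Fin s)).filter fun i => σ (i + 1) = 0).card :=
        Finset.card_pos.2 ⟨t, by simp [h]⟩
      omega
    · have : 0 < (({t, u} : Finset (Fin s)).filter fun i => σ (i - 1) = 0).card :=
        Finset.card_pos.2 ⟨t, by simp [h]⟩
      omega
  have hAD : A ⊆ D2 := fun i hi => by
    simp only [hA, hD2, Finset.mem_filter, Finset.mem_univ, true_and] at hi ⊢
    exact hi.1
  have hA'D : A' ⊆ D2 := fun i hi => by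
    simp only [hA', hD2, Finset.mem_filter, Finset.mem_univ, true_and] at hi ⊢
    exact hi.1
  have cA := Finset.card_le_card hAD
  have cA' := Finset.card_le_card hA'D
  have fA : 0 < A.card + A'.card → free σ + 3 < δ ∧ (1 < D2.card → free σ + 5 < δ ∨ δ < 4) ∧
      (D2.card = 1 → 1 < A.card + A'.card → free σ + 4 < δ) := by
    intro h
    obtain ⟨t, ht, hz⟩ : ∃ t ∈ D2, σ (t + 1) = 0 ∨ σ (t - 1) = 0 := by
      rcases Nat.eq_zero_or_pos A.card with h0 | h0
      · obtain ⟨t, ht⟩ := Finset.card_pos.1 (show 0 < A'.card by omega)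
        exact ⟨t, hA'D ht, Or.inr (Finset.mem_filter.1 ht).2.2⟩
      · obtain ⟨t, ht⟩ := Finset.card_pos.1 h0
        exact ⟨t, hAD ht, Or.inl (Finset.mem_filter.1 ht).2.2⟩
    have ht' := (Finset.mem_filter.1 ht).2
    refine ⟨?_, fun hd => ?_, fun hd hd' => ?_⟩
    · rcases hz with h' | h'
      · exact (wA t ht'.1 ht'.2).1 h'
      · exact (wA t ht'.1 ht'.2).2.1 h'
    · obtain ⟨u, hu, hut⟩ := Finset.exists_mem_ne hd t
      have hu' := (Finset.mem_filter.1 hu).2
      by_cases h4 : 4 ≤ δ
      · exact Or.inl (wA2 t u ht'.1 ht'.2 hu'.1 hu'.2 (Ne.symm hut) h4 hz)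
      · exact Or.inr (by omega)
    · obtain ⟨x, hx⟩ := Finset.card_eq_one.1 hd
      have h1 : A = {x} := Finset.eq_of_subset_of_card_le (hx ▸ hAD) (by rw [Finset.card_singleton]; omega)
      have h2 : A' = {x} := Finset.eq_of_subset_of_card_le (hx ▸ hA'D) (by rw [Finset.card_singleton]; omega)
      have e1 := Finset.mem_filter.1 (h1 ▸ Finset.mem_singleton_self x : x ∈ A)
      have e2 := Finset.mem_filter.1 (h2 ▸ Finset.mem_singleton_self x : x ∈ A')
      exact (wA x e1.2.1.1 e1.2.1.2).2.2 e1.2.2 e2.2.2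
  have w5 : 0 < X3.card → 0 < D2.card → δ < 5 := by
    intro h h'
    by_contra h5
    obtain ⟨t, ht⟩ := Finset.card_pos.1 h
    obtain ⟨u, hu⟩ := Finset.card_pos.1 h'
    simp only [hX3, hD2, Finset.mem_filter, Finset.mem_univ, true_and] at ht hu
    have htu : t ≠ u := fun e => by subst e; omega
    have := win {t, u} (by simp [Ne.symm ht.1, Ne.symm hu.1]) (by
      rw [Finset.sum_pair htu, ht.2, hu.2]; omega)
    rw [Finset.sum_pair htu, ht.2, hu.2] at this
    omega
  intro hw
  by_cases hw' : 14 ≤ m ∨ m < 2 * s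
  · exact full_arith hs hm hw' hms hj1 hj4 hsum hc hn0 he h1 hzero hzero' hUle hUA hUA' hNc hexc
      (by simpa [hδ] using w0) (hδ ▸ w3) (hδ ▸ w1) (hδ ▸ w2) cA cA' (hδ ▸ fA) (hδ ▸ w5)
  · exact full_arith_half hs (by omega) (by omega) hj1 hj4 hsum hc hn0 he h1 hzero hzero' hUA hUA'
      hNc hexc (by simpa [hδ] using w0) (hδ ▸ w3) (hδ ▸ w1) (hδ ▸ w2) cA cA' (hδ ▸ fA)
      (hδ ▸ w5) (run_bound σ n0 hne1 hN hU hU' hA hA' hX3 hX4)

end Vale.Agent.P048.Full.NC
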