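import Mathlib

/-!
P048, the clique step: the arithmetic of ear sizes around a cycle through a clique.
`σ i` is the number of cycle vertices between the clique vertices number `i` and `i + 1`.
-/

namespace Vale.Agent.P048.Full.NC

variable {s : ℕ} [NeZero s]

/-- The free clique vertices: both neighbours on the cycle are in the clique. -/
def free (σ : Fin s → ℕ) : ℕ := (Finset.univ.filter fun i => σ i = 0 ∧ σ (i + 1) = 0).card

/-- The sizes after the ears in `S` have been dropped. -/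
def zero (σ : Fin s → ℕ) (S : Finset (Fin s)) : Fin s → ℕ := fun i => if i ∈ S then 0 else σ i

/-- No dropping of ears other than `n0` gives `m` vertices, directly or by deleting free vertices
afterwards, or between `L + 1` and `m + 1` vertices. -/
def Safe (σ : Fin s → ℕ) (n0 : Fin s) (m L : ℕ) : Prop :=
  ∀ S : Finset (Fin s), n0 ∉ S →
    ¬ (L < s + ∑ i, zero σ S i ∧ s + ∑ i, zero σ S i ≤ m + 1) ∧
      (m ≤ s + ∑ i, zero σ S i → m + free (zero σ S) < s + ∑ i, zero σ S i)

/-- An ear with three or four inserted vertices that can be lengthened by one is only safe for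
`m = 2 s`: then for `s = 4` it has four vertices, or `s - 2` and there is another large ear. -/
def GapThree : Prop :=
  ∀ (s : ℕ) [NeZero s] (σ : Fin s → ℕ) (n0 : Fin s) (m L j : ℕ), 4 ≤ s → 8 ≤ m →
    (14 ≤ m ∨ m ≤ 2 * s) →
    m ≤ 2 * s + 1 → L < m → (j = 3 ∨ j = 4) → s + ∑ i, σ i = L + j → j ≤ σ n0 →
    Safe σ n0 m L → Safe (Function.update σ n0 (σ n0 + 1)) n0 m L →
    m = 2 * s ∧ (s = 4 ∧ j = 4 ∨ j + 2 = s ∧ σ n0 = j ∧ ∃ i, i ≠ n0 ∧ j < σ i)

/-- From a cycle on `m + 1` vertices without free vertices and singles, an insertion of at most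
four vertices (uniting `c + (1 - c)` ears) is never safe. -/
def GapFull : Prop :=
  ∀ (s : ℕ) [NeZero s] (σ : Fin s → ℕ) (n0 : Fin s) (m j c : ℕ), 5 ≤ s → 8 ≤ m →
    (14 ≤ m ∨ m ≤ 2 * s) →
    m ≤ 2 * s + 1 → 1 ≤ j → j ≤ 4 → s + ∑ i, σ i = m + 1 + j → c ≤ 2 → j + 2 * c ≤ σ n0 →
    s + 2 ≤ 2 * ((Finset.univ.filter fun i => σ i ≠ 0).card + c) →
    (∀ i, i ≠ n0 → σ i ≠ 1) → Safe σ n0 m (m + 1) → False

end Vale.Agent.P048.Full.NC
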