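import Vale.Agent.P048.Full.NC.Sep

/-!
P048, the clique step for `m = 2 |K|`: cycles from a link outside and an arc of the cycle, or a
part of the clique.
-/

open scoped Classical

namespace Vale.Agent.P048.Full.NC

universe u

variable {V : Type u} {G : SimpleGraph V} {X K : Finset V} {B : List (Blk V)}

/-- A list without repetitions inside a clique is a path. -/
lemma clique_chain (hK : G.IsClique (K : Set V)) {l : List V} (hn : l.Nodup)
    (hl : ∀ x ∈ l, x ∈ K) : l.IsChain G.Adj := by
  induction l with
  | nil => exact List.isChain_nil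
  | cons a l ih =>
    rw [List.nodup_cons] at hn
    rw [List.isChain_cons]
    refine ⟨fun y hy => ?_, ih hn.2 fun x hx => hl x (List.mem_cons_of_mem _ hx)⟩
    have hyl : y ∈ l := List.mem_of_mem_head? hy
    exact hK (hl a List.mem_cons_self) (hl y (List.mem_cons_of_mem _ hyl)) fun e => hn.1 (e ▸ hyl)

lemma link_symm {Y : Finset V} {a b : V} {P : List V} (h : Link G Y a P b) :
    Link G Y b P.reverse a := by
  refine ⟨List.nodup_reverse.2 h.1, fun x hx => h.2.1 x (List.mem_reverse.1 hx), ?_⟩
  have h1 := h.2.2.imp (S := fun a b => G.Adj b a) fun _ _ ha => ha.symm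
  rw [← List.isChain_reverse] at h1
  simpa using h1

/-- A path `c :: T` in the cycle into a root, the link, and further vertices of the clique. -/
lemma Whole.k_ear_link (hK : G.IsClique (K : Set V)) (h : Whole G X K B) {a b c : V} {T R : List V}
    (hl : Link G (off X B) a R b) (hc : c ∈ K) (hb : b ∈ K) (ha : a ∈ flat B)
    (hbc : b ≠ c) (hab : a ≠ b)
    (hnd : (c :: T ++ [a]).Nodup) (hT : ∀ x ∈ T, x ∈ flat B ∧ x ∉ K)
    (hch : (c :: T ++ [a]).IsChain G.Adj) {i : ℕ} (hi : i + 3 ≤ K.card) :
    HasCyc G (T.length + 3 + R.length + i) := by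
  obtain ⟨S, hS, hSc⟩ := Finset.exists_subset_card_eq
    (show i ≤ (((K.erase a).erase b).erase c).card by
      have := Finset.pred_card_le_card_erase (a := a) (s := K)
      have := Finset.pred_card_le_card_erase (a := b) (s := K.erase a)
      have := Finset.pred_card_le_card_erase (a := c) (s := (K.erase a).erase b)
      omega)
  have hS' : ∀ x ∈ S.toList, x ∈ K ∧ x ≠ a ∧ x ≠ b ∧ x ≠ c := fun x hx => by
    have := hS (Finset.mem_toList.1 hx)
    simp only [Finset.mem_erase] at this
    exact ⟨this.2.2.2, this.2.2.1, this.2.1, this.1⟩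
  have hR : ∀ x ∈ R, x ∉ flat B := fun x hx => by
    have := hl.2.1 x hx
    rw [off, Finset.mem_sdiff, List.mem_toFinset] at this
    exact this.2
  have hKB := h.clique_sub
  have e : ((c :: T ++ [a]) ++ (R ++ b :: S.toList)).length = T.length + 3 + R.length + i := by
    simp [hSc]; omega
  refine (congrArg (HasCyc G) e).mp (hasCyc_of_list (h := c) rfl ?_ ?_)
  · rw [List.nodup_append']
    refine ⟨hnd, ?_, ?_⟩
    · rw [List.nodup_append', List.nodup_cons]
      refine ⟨hl.1, ⟨fun hb' => (hS' b hb').2.2.1 rfl, Finset.nodup_toList _⟩, fun x hx hx' => ?_⟩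
      rcases List.mem_cons.1 hx' with rfl | hx'
      · exact hR x hx (hKB x hb)
      · exact hR x hx (hKB x (hS' x hx').1)
    · intro x hx hx'
      have hxB : x ∈ flat B := by
        simp only [List.cons_append, List.mem_cons, List.mem_append, List.not_mem_nil,
          or_false] at hx
        rcases hx with rfl | hx | rfl
        exacts [hKB x hc, (hT x hx).1, ha]
      simp only [List.mem_append, List.mem_cons] at hx'
      simp only [List.cons_append, List.mem_cons, List.mem_append, List.not_mem_nil, or_false] at hx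
      rcases hx' with hx' | rfl | hx'
      · exact hR x hx' hxB
      · rcases hx with hx | hx | hx
        · exact hbc hx
        · exact (hT x hx).2 hb
        · exact hab hx.symm
      · obtain ⟨hxK, h1, h2, h3⟩ := hS' x hx'
        rcases hx with hx | hx | hx
        · exact h3 hx
        · exact (hT x hx).2 hxK
        · exact h1 hx
  · have hKc : ((b :: S.toList) ++ [c]).IsChain G.Adj := by
      refine clique_chain hK ?_ fun x hx => ?_
      · rw [List.nodup_append', List.nodup_cons]
        refine ⟨⟨fun hb' => (hS' b hb').2.2.1 rfl, Finset.nodup_toList _⟩,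
          List.nodup_singleton _, fun x hx hx' => ?_⟩
        obtain rfl := List.mem_singleton.1 hx'
        rcases List.mem_cons.1 hx with e | hx
        · exact hbc e.symm
        · exact (hS' x hx).2.2.2 rfl
      · simp only [List.mem_append, List.mem_cons, List.not_mem_nil, or_false] at hx
        rcases hx with (rfl | hx) | rfl
        exacts [hb, (hS' x hx).1, hc]
    obtain ⟨h1, -, h2⟩ := List.isChain_append.1 hch
    have e' : (c :: T ++ [a]) ++ (R ++ b :: S.toList) ++ [c] =
        (c :: T) ++ ((a :: (R ++ [b])) ++ (S.toList ++ [c])) := by simp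
    rw [e', List.isChain_append, List.isChain_append]
    refine ⟨h1, ⟨hl.2.2, ?_, fun x hx y hy => ?_⟩, fun x hx y hy => h2 x hx y ?_⟩
    · exact (List.isChain_cons.1 hKc).2
    · have hx' : x = b := by
        rw [← List.cons_append, List.getLast?_concat, Option.mem_some_iff] at hx
        exact hx.symm
      subst hx'
      exact (List.isChain_cons.1 hKc).1 y hy
    · simpa using hy

/-- A link and one arc of the cycle. -/
lemma Whole.arc_cycle {P0 Q0 : List (Blk V)} {p q : Blk V}
    (h : Whole G X K (P0 ++ p :: (Q0 ++ [q]))) {R : List V}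
    (hl : Link G (off X (P0 ++ p :: (Q0 ++ [q]))) (lastV p) R (lastV q)) :
    HasCyc G (1 + R.length + (flat (Q0 ++ [q])).length) := by
  obtain ⟨w, hw⟩ : ∃ w, (P0 ++ p :: (Q0 ++ [q])).head? = some w := by
    rcases P0 with _ | ⟨r, P0⟩ <;> exact ⟨_, rfl⟩
  have hch := (okto_chain (h.ok w hw)).left_of_append
  obtain ⟨T, hT⟩ : ∃ T, T = flat (Q0 ++ [q]) := ⟨_, rfl⟩
  have hlq : T.getLast? = some (lastV q) := by
    rw [hT]
    simp [lastV, List.getLast?_eq_some_getLast]
  obtain ⟨hd, hdl⟩ : ∃ hd, hd ++ [lastV p] = flat P0 ++ (p.1 :: p.2) := by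
    refine ⟨flat P0 ++ (p.1 :: p.2).dropLast, ?_⟩
    rw [List.append_assoc, lastV, List.dropLast_append_getLast]
  have e : flat (P0 ++ p :: (Q0 ++ [q])) = hd ++ (lastV p :: T) := by
    rw [List.append_cons hd, hdl, hT]
    simp
  have hnd := h.nd
  rw [e] at hch hnd
  have hn1 := (List.nodup_append'.1 hnd).2.1
  have hc1 := hch.right_of_append
  have hlen : (lastV p :: (R ++ T.reverse)).length = 1 + R.length + T.length := by simp; omega
  rw [← hT]
  refine (congrArg (HasCyc G) hlen).mp (hasCyc_of_list (h := lastV p) rfl ?_ ?_)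
  · rw [List.nodup_cons, List.nodup_append', List.nodup_reverse]
    rw [List.nodup_cons] at hn1
    have hR : ∀ x ∈ R, x ∉ hd ++ (lastV p :: T) := fun x hx => by
      have h' := hl.2.1 x hx
      rw [off, Finset.mem_sdiff, List.mem_toFinset, e] at h'
      exact h'.2
    refine ⟨fun hm => ?_, hl.1, hn1.2, fun x hx hx' => hR x hx (by simp [List.mem_reverse.1 hx'])⟩
    rcases List.mem_append.1 hm with hm | hm
    · exact hR _ hm (by simp)
    · exact hn1.1 (List.mem_reverse.1 hm)
  · obtain ⟨T', rfl⟩ : ∃ T', T = T' ++ [lastV q] := by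
      rcases List.eq_nil_or_concat T with e' | ⟨T', x, e'⟩
      · simp [e'] at hlq
      · simp [e'] at hlq
        exact ⟨T', by simp [e', hlq]⟩
    have e' : lastV p :: (R ++ (T' ++ [lastV q]).reverse) ++ [lastV p] =
        (lastV p :: R) ++ ((lastV p :: (T' ++ [lastV q])).reverse) := by simp
    have hR2 := hl.2.2
    rw [← List.cons_append, List.isChain_append] at hR2
    rw [e', List.isChain_append, List.isChain_reverse]
    refine ⟨hR2.1, hc1.imp fun _ _ ha => ha.symm, fun x hx y hy => ?_⟩
    simp at hy
    subst hy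
    exact hR2.2.2 x hx _ (by simp)

end Vale.Agent.P048.Full.NC
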