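import Vale.Agent.P048.Basic

/-!
P048, the clique step: the roots on the cycle and their balls of radius two outside it.
-/

open scoped Classical

namespace Vale.Agent.P048.Full.NC

universe u

variable {V : Type u}

/-- The vertices of `P`, all in `Y`, lead from `a` to `b`. -/
def Link (G : SimpleGraph V) (Y : Finset V) (a : V) (P : List V) (b : V) : Prop :=
  P.Nodup ∧ (∀ x ∈ P, x ∈ Y) ∧ (a :: (P ++ [b])).IsChain G.Adj

/-- The two roots are not joined outside by one or two vertices, nor by three or four with the
possibility of one more, for four also of two more, one of the roots having a clique as its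
neighbourhood outside; if one of them has a single neighbour outside, by at most four. -/
def Sep (G : SimpleGraph V) (Y : Finset V) (a b : V) : Prop :=
  (∀ P, Link G Y a P b → 1 ≤ P.length → P.length ≤ 2 → False) ∧
    (∀ P P', Link G Y a P b → Link G Y a P' b → 3 ≤ P.length → P.length ≤ 4 →
      P'.length = P.length + 1 →
      (G.IsClique (nb G a Y : Set V) ∨ G.IsClique (nb G b Y : Set V)) →
      (P.length = 4 → ∃ P'', Link G Y a P'' b ∧ P''.length = 6) → False) ∧
    ((nb G a Y).card = 1 ∨ (nb G b Y).card = 1 →
      ∀ P, Link G Y a P b → 1 ≤ P.length → P.length ≤ 4 → False)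

/-- The vertices of `Y` within two steps of `a`. -/
noncomputable def ball2 (G : SimpleGraph V) (Y : Finset V) (a : V) : Finset V :=
  Y.filter fun y => G.Adj a y ∨ ∃ x ∈ Y, G.Adj a x ∧ G.Adj x y

/-- Separated roots give one independent vertex each, and two when the ball is not a clique. -/
def BallCount : Prop :=
  ∀ (V : Type u) (G : SimpleGraph V) (Y R : Finset V) (k : ℕ), alpha G Y ≤ k →
    (∀ a ∈ R, (nb G a Y).Nonempty) → (∀ a ∈ R, ∀ b ∈ R, a ≠ b → Sep G Y a b) →
    k + (R.filter fun a => G.IsClique (ball2 G Y a : Set V)).card < 2 * R.card → False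

end Vale.Agent.P048.Full.NC
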