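import Vale.Agent.P048.Full.NC.Kills
import Vale.Agent.P048.Full.NC.SepDefs

/-!
P048, the clique step: two roots (the vertices before clique vertices) joined outside the cycle
give a longer cycle through the whole clique, one of the two arcs being reversed.
-/

open scoped Classical

namespace Vale.Agent.P048.Full.NC

universe u

variable {V : Type u} {G : SimpleGraph V} {X K : Finset V}

/-- The root of a block: its last vertex. -/
def lastV (p : Blk V) : V := (p.1 :: p.2).getLast (List.cons_ne_nil _ _)

lemma lastV_mem (p : Blk V) : lastV p ∈ p.1 :: p.2 := List.getLast_mem _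

/-- The blocks `R` (listed backwards) in reversed order, starting from `top`. -/
def rv (top : V) : List (Blk V) → List (Blk V)
  | [] => [(top, [])]
  | r :: R => (top, r.2.reverse) :: rv r.1 R

lemma fst_rv (top : V) (R : List (Blk V)) (z : V) : fst (rv top R) z = top := by cases R <;> rfl

lemma sz_rv (top : V) (R : List (Blk V)) : sz (rv top R) = sz R ++ [0] := by
  induction R generalizing top with
  | nil => simp [rv, sz]
  | cons r R ih => simp [rv, sz] at ih ⊢; exact ih r.1

lemma flat_rv (top : V) (R : List (Blk V)) : (flat (rv top R)).Perm (top :: flat R) := by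
  induction R generalizing top with
  | nil => simp [rv]
  | cons r R ih =>
    simp only [rv, flat_cons]
    refine List.Perm.cons _ ((List.Perm.append (List.reverse_perm r.2) (ih r.1)).trans ?_)
    exact List.perm_middle

lemma mem_rv (top : V) (R : List (Blk V)) {p : Blk V} (hp : p ∈ rv top R) :
    (p.1 = top ∨ ∃ r ∈ R, p.1 = r.1) ∧ ∀ x ∈ p.2, ∃ r ∈ R, x ∈ r.2 := by
  induction R generalizing top with
  | nil => simp [rv] at hp; subst hp; simp
  | cons r R ih =>
    rcases List.mem_cons.1 hp with rfl | hp
    · exact ⟨Or.inl rfl, fun x hx => ⟨r, List.mem_cons_self, List.mem_reverse.1 hx⟩⟩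
    · obtain ⟨h1, h2⟩ := ih r.1 hp
      refine ⟨Or.inr ?_, fun x hx => ?_⟩
      · rcases h1 with h1 | ⟨r', hr', h1⟩
        · exact ⟨r, List.mem_cons_self, h1⟩
        · exact ⟨r', List.mem_cons_of_mem _ hr', h1⟩
      · obtain ⟨r', hr', h⟩ := h2 x hx
        exact ⟨r', List.mem_cons_of_mem _ hr', h⟩

lemma okto_rv (hK : G.IsClique (K : Set V)) {z : V} (hz : z ∈ K) :
    ∀ (R : List (Blk V)) (top : V), OKto G R.reverse top → fst R.reverse top ∈ K →
      fst R.reverse top ≠ z → OKto G (rv top R) z
  | [], top, _, hm, hne => by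
    refine ⟨?_, trivial⟩
    simp only [fst, List.nil_append, List.isChain_cons_cons, List.isChain_singleton, and_true]
    exact hK hm hz hne
  | r :: R, top, h, hm, hne => by
    rw [List.reverse_cons, okto_append] at h
    rw [List.reverse_cons, fst_append] at hm hne
    simp only [fst] at hm hne h
    refine ⟨?_, okto_rv hK hz R r.1 h.1 hm hne⟩
    rw [fst_rv]
    have hc : (r.1 :: (r.2 ++ [top])).IsChain (fun a b => G.Adj b a) :=
      h.2.1.imp fun _ _ ha => ha.symm
    rw [← List.isChain_reverse] at hc
    simpa using hc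

/-- Joining the roots of `p` and `q` through `R`. -/
lemma Whole.join (hK : G.IsClique (K : Set V)) {P0 Q0 : List (Blk V)} {p q : Blk V}
    (h : Whole G X K (P0 ++ p :: (Q0 ++ [q]))) {R : List V} (hRn : R.Nodup)
    (hRX : ∀ x ∈ R, x ∈ X ∧ x ∉ K ∧ x ∉ flat (P0 ++ p :: (Q0 ++ [q])))
    (hR : (lastV p :: (R ++ [lastV q])).IsChain G.Adj) :
    ∃ B', B' = P0 ++ (p.1, p.2 ++ R ++ q.2.reverse) :: rv q.1 Q0.reverse ∧ Whole G X K B' ∧
      sz B' = sz P0 ++ (p.2.length + R.length + q.2.length) :: ((sz Q0).reverse ++ [0]) ∧
      (flat B').Perm (flat (P0 ++ p :: (Q0 ++ [q])) ++ R) := by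
  set N : Blk V := (p.1, p.2 ++ R ++ q.2.reverse) with hN
  have hperm : (flat (P0 ++ N :: rv q.1 Q0.reverse)).Perm
      (flat (P0 ++ p :: (Q0 ++ [q])) ++ R) := by
    have h1 : (flat (rv q.1 Q0.reverse)).Perm (q.1 :: flat Q0) :=
      (flat_rv _ _).trans (List.Perm.cons _ ((List.reverse_perm _).flatMap_right _))
    rw [List.perm_iff_count]
    intro x
    have := List.perm_iff_count.1 h1 x
    simp only [hN, flat_append, flat_cons, flat_nil, List.count_append, List.count_cons,
      List.count_nil, List.count_reverse] at this ⊢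
    omega
  refine ⟨P0 ++ N :: rv q.1 Q0.reverse, rfl, ⟨⟨by simp, ?_, ?_, ?_, ?_⟩, ?_⟩, ?_, hperm⟩
  · intro r hr
    simp only [List.mem_append, List.mem_cons] at hr
    rcases hr with hr | rfl | hr
    · exact h.mem r (by simp [hr])
    · exact h.mem p (by simp)
    · rcases (mem_rv _ _ hr).1 with e | ⟨r', hr', e⟩ <;> rw [e]
      · exact h.mem q (by simp)
      · exact h.mem r' (by simp [List.mem_reverse.1 hr'])
  · intro r hr x hx
    simp only [List.mem_append, List.mem_cons] at hr
    rcases hr with hr | rfl | hr
    · exact h.ear r (by simp [hr]) x hx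
    · simp only [hN, List.mem_append, List.mem_reverse] at hx
      rcases hx with (hx | hx) | hx
      · exact h.ear p (by simp) x hx
      · exact ⟨(hRX x hx).1, (hRX x hx).2.1⟩
      · exact h.ear q (by simp) x hx
    · obtain ⟨r', hr', hx'⟩ := (mem_rv _ _ hr).2 x hx
      exact h.ear r' (by simp [List.mem_reverse.1 hr']) x hx'
  · rw [hperm.nodup_iff, List.nodup_append']
    exact ⟨h.nd, hRn, fun x hx hx' => (hRX x hx').2.2 hx⟩
  · intro w hw
    obtain ⟨z, hzdef⟩ : ∃ z, z = fst P0 p.1 := ⟨_, rfl⟩
    have hwz : w.1 = z := by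
      subst hzdef
      rcases P0 with _ | ⟨r, P0⟩ <;> simp at hw <;> subst hw <;> rfl
    rw [hwz]
    obtain ⟨w0, hw0, hwz0⟩ : ∃ w0, (P0 ++ p :: (Q0 ++ [q])).head? = some w0 ∧ w0.1 = z := by
      subst hzdef
      rcases P0 with _ | ⟨r, P0⟩
      · exact ⟨p, rfl, rfl⟩
      · exact ⟨r, rfl, rfl⟩
    have hok := h.ok w0 hw0
    rw [hwz0, okto_append] at hok
    obtain ⟨okP, hp1, okQ⟩ := hok
    rw [okto_append] at okQ
    obtain ⟨okQ0, hq1, -⟩ := okQ
    simp only [fst] at okQ0 hq1
    simp only [fst] at okP
    rw [okto_append]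
    refine ⟨by simpa [fst] using okP, ?_, ?_⟩
    · rw [fst_rv]
      simp only [hN]
      have e1 : (p.1 :: p.2).IsChain G.Adj := by
        rw [← List.cons_append] at hp1
        exact hp1.left_of_append
      have e2 : (q.1 :: q.2).reverse.IsChain G.Adj := by
        rw [List.isChain_reverse]
        rw [← List.cons_append] at hq1
        exact hq1.left_of_append.imp fun _ _ ha => ha.symm
      have e3 : p.1 :: (p.2 ++ R ++ q.2.reverse ++ [q.1]) =
          (p.1 :: p.2) ++ R ++ (q.1 :: q.2).reverse := by simp
      rw [e3]
      rw [List.isChain_cons, List.isChain_append] at hR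
      have hl : (p.1 :: p.2).getLast? = some (lastV p) := List.getLast?_eq_some_getLast _
      have hh : (q.1 :: q.2).reverse.head? = some (lastV q) := by
        rw [List.head?_reverse]; exact List.getLast?_eq_some_getLast _
      rw [List.isChain_append, List.isChain_append]
      obtain ⟨h0, hR1, -, hR2⟩ := hR
      refine ⟨⟨e1, hR1, ?_⟩, e2, ?_⟩
      · intro x hx y hy
        rw [hl, Option.mem_some_iff] at hx
        subst hx
        refine h0 y ?_
        rcases R with _ | ⟨c, R⟩
        · simp at hy
        · simpa using hy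
      · intro x hx y hy
        rw [hh, Option.mem_some_iff] at hy
        subst hy
        rcases List.eq_nil_or_concat R with rfl | ⟨R', c, rfl⟩
        · rw [List.append_nil, hl, Option.mem_some_iff] at hx
          subst hx
          exact h0 _ (by simp)
        · rw [List.concat_eq_append, ← List.append_assoc, List.getLast?_concat,
            Option.mem_some_iff] at hx
          subst hx
          exact hR2 c (by simp) _ (by simp)
    · have hzK : z ∈ K := by rw [← hwz0]; exact h.mem w0 (List.mem_of_mem_head? hw0)
      refine okto_rv hK hzK _ _ (by simpa using okQ0) ?_ ?_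
      · rw [List.reverse_reverse]
        rcases Q0 with _ | ⟨r, Q0⟩
        · exact h.mem q (by simp)
        · exact h.mem r (by simp)
      · rw [List.reverse_reverse]
        have hn := h.fst_inj
        rw [List.map_append, List.nodup_append'] at hn
        intro e
        have h2 : fst Q0 q.1 ∈ ((Q0 ++ [q]).map Prod.fst) := by
          rcases Q0 with _ | ⟨r, Q0⟩ <;> simp [fst]
        rw [e, hzdef] at h2
        rcases P0 with _ | ⟨r, P0⟩
        · rw [List.map_cons, List.nodup_cons] at hn
          exact hn.2.1.1 (by simpa [fst] using h2)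
        · have hx : r.1 ∈ (r :: P0).map Prod.fst := by simp
          refine hn.2.2 hx ?_
          rw [List.map_cons]
          exact List.mem_cons_of_mem _ h2
  · have := h.len
    have hl : ∀ (R : List (Blk V)) top, (rv top R).length = R.length + 1 := by
      intro R
      induction R with
      | nil => intro; rfl
      | cons r R ih => intro top; simp [rv, ih]
    simp [hl] at this ⊢
    omega
  · have := sz_rv q.1 Q0.reverse
    simp only [sz] at this ⊢
    simp only [List.map_append, List.map_cons, this, hN, List.map_reverse, List.length_append,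
      List.length_reverse]

end Vale.Agent.P048.Full.NC
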