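import Vale.Agent.P048.Basic

/-!
P048, the clique step: cycles through clique vertices as lists of blocks (a clique vertex and
the ear that follows it). Dropping an ear, deleting a free clique vertex and rotating keep a cycle.
-/

open scoped Classical

namespace Vale.Agent.P048.Full.NC

variable {V : Type*} {G : SimpleGraph V}

/-- A list of distinct vertices, cyclically adjacent, gives a cycle. -/
lemma hasCyc_of_list {l : List V} {h : V} (hh : l.head? = some h) (hn : l.Nodup)
    (hc : (l ++ [h]).IsChain G.Adj) : HasCyc G l.length := by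
  have h0 : 0 < l.length := by rcases l with _ | ⟨a, t⟩ <;> simp at hh ⊢
  have hl : h = l[0] := by rcases l with _ | ⟨a, t⟩ <;> simp at hh ⊢; exact hh.symm
  have hc' := List.isChain_iff_getElem.1 hc
  refine ⟨fun i => l.getD i h, l.length - 1, by omega, ⟨fun i j hi hj he => ?_, fun i hi => ?_⟩, ?_⟩
  · simp only [List.getD_eq_getElem?_getD, List.getElem?_eq_getElem (by omega : i < l.length),
      List.getElem?_eq_getElem (by omega : j < l.length), Option.getD_some] at he
    exact hn.getElem_inj_iff.1 he
  · have h1 := hc' i (by simp; omega)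
    rw [List.getElem_append_left (by omega), List.getElem_append_left (by omega)] at h1
    simpa [List.getD_eq_getElem?_getD, List.getElem?_eq_getElem (by omega : i < l.length),
      List.getElem?_eq_getElem (by omega : i + 1 < l.length)] using h1
  · have h1 := hc' (l.length - 1) (by simp; omega)
    rw [List.getElem_append_left (by omega), List.getElem_append_right (by omega)] at h1
    simpa [List.getD_eq_getElem?_getD, List.getElem?_eq_getElem (by omega : l.length - 1 < l.length),
      List.getElem?_eq_getElem h0, hl] using h1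

/-- A clique vertex with the ear following it. -/
abbrev Blk (V : Type*) := V × List V

/-- The vertices in cyclic order. -/
def flat (B : List (Blk V)) : List V := B.flatMap fun p => p.1 :: p.2

/-- The ear sizes. -/
def sz (B : List (Blk V)) : List ℕ := B.map fun p => p.2.length

/-- The first vertex of `B`, or `z`. -/
def fst : List (Blk V) → V → V
  | [], z => z
  | p :: _, _ => p.1

/-- Every ear leads from its vertex to the next one, the last to `z`. -/
def OKto (G : SimpleGraph V) : List (Blk V) → V → Prop
  | [], _ => True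
  | p :: B, z => (p.1 :: (p.2 ++ [fst B z])).IsChain G.Adj ∧ OKto G B z

@[simp] lemma flat_nil : flat ([] : List (Blk V)) = [] := rfl

@[simp] lemma flat_cons (p : Blk V) (B : List (Blk V)) :
    flat (p :: B) = p.1 :: (p.2 ++ flat B) := by simp [flat]

@[simp] lemma flat_append (A B : List (Blk V)) : flat (A ++ B) = flat A ++ flat B := by simp [flat]

lemma length_flat (B : List (Blk V)) : (flat B).length = B.length + (sz B).sum := by
  induction B with
  | nil => simp [sz]
  | cons p B ih => simp [sz] at ih ⊢; omega

lemma fst_append (A B : List (Blk V)) (z : V) : fst (A ++ B) z = fst A (fst B z) := by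
  cases A <;> rfl

lemma okto_append (A B : List (Blk V)) (z : V) :
    OKto G (A ++ B) z ↔ OKto G A (fst B z) ∧ OKto G B z := by
  induction A with
  | nil => simp [OKto]
  | cons p A ih => simp [OKto, fst_append, ih, and_assoc]

lemma okto_chain : ∀ {B : List (Blk V)} {z : V}, OKto G B z →
    (flat B ++ [z]).IsChain G.Adj
  | [], z, _ => by simp
  | p :: B, z, h => by
    have ih := okto_chain h.2
    rw [flat_cons, List.cons_append, List.append_assoc]
    cases B with
    | nil => simpa [fst] using h.1
    | cons r B =>
      have h1 := h.1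
      simp only [fst] at h1
      simp only [flat_cons, List.cons_append] at ih ⊢
      rw [← List.cons_append, List.isChain_append]
      rw [← List.cons_append, List.isChain_append] at h1
      refine ⟨h1.1, ih, ?_⟩
      simpa using h1.2.2

/-- Adjacent zero entries in `a, l, b`. -/
def pc : ℕ → List ℕ → ℕ → ℕ
  | a, [], b => if a = 0 ∧ b = 0 then 1 else 0
  | a, c :: l, b => (if a = 0 ∧ c = 0 then 1 else 0) + pc c l b

/-- Cyclically adjacent zero entries: the free clique vertices. -/
def fz : List ℕ → ℕ
  | [] => 0
  | a :: l => pc a l a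

lemma pc_append (a c b : ℕ) (l l' : List ℕ) : pc a (l ++ c :: l') b = pc a l c + pc c l' b := by
  induction l generalizing a with
  | nil => simp [pc]
  | cons d l ih => simp [pc, ih, Nat.add_assoc]

lemma fz_rotate (l l' : List ℕ) : fz (l ++ l') = fz (l' ++ l) := by
  rcases l with _ | ⟨a, t⟩
  · simp
  rcases l' with _ | ⟨c, t'⟩
  · simp
  simp only [List.cons_append, fz, pc_append]
  omega

lemma pc_reverse (a b : ℕ) (l : List ℕ) : pc a l.reverse b = pc b l a := by
  induction l generalizing b with
  | nil => simp [pc, and_comm]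
  | cons c l ih => simp [pc, pc_append, ih, and_comm, Nat.add_comm]

lemma pc_pos {a b : ℕ} {l : List ℕ} (h : 0 < pc a l b) :
    (∃ u v, a :: l = u ++ 0 :: 0 :: v) ∨ (∃ u, a :: l = u ++ [0] ∧ b = 0) := by
  induction l generalizing a with
  | nil =>
    simp only [pc] at h
    split_ifs at h with h'
    · exact Or.inr ⟨[], by simp [h'.1], h'.2⟩
    · omega
  | cons c l ih =>
    simp only [pc] at h
    split_ifs at h with h'
    · exact Or.inl ⟨[], l, by simp [h'.1, h'.2]⟩
    · rcases ih (a := c) (by omega) with ⟨u, v, e⟩ | ⟨u, e, hb⟩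
      · exact Or.inl ⟨a :: u, v, by simp [e]⟩
      · exact Or.inr ⟨a :: u, by simp [e], hb⟩

/-- A cycle through vertices of the clique `K`, as blocks. -/
structure KC (G : SimpleGraph V) (X K : Finset V) (B : List (Blk V)) : Prop where
  ne : B ≠ []
  mem : ∀ p ∈ B, p.1 ∈ K
  ear : ∀ p ∈ B, ∀ x ∈ p.2, x ∈ X ∧ x ∉ K
  nd : (flat B).Nodup
  ok : ∀ p, B.head? = some p → OKto G B p.1

variable {X K : Finset V} {B : List (Blk V)}

lemma KC.hasCyc (h : KC G X K B) : HasCyc G (flat B).length := by
  obtain ⟨p, t, rfl⟩ := List.exists_cons_of_ne_nil h.ne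
  exact hasCyc_of_list (h := p.1) (by simp) h.nd (okto_chain (h.ok p rfl))

lemma KC.rotate {A C : List (Blk V)} (h : KC G X K (A ++ C)) : KC G X K (C ++ A) := by
  rcases A with _ | ⟨a, A⟩
  · simpa using h
  rcases C with _ | ⟨c, C⟩
  · simpa using h
  have h1 := h.ok a (by simp)
  rw [okto_append] at h1
  refine ⟨by simp, fun p hp => h.mem p ?_, fun p hp => h.ear p ?_, ?_, fun p hp => ?_⟩
  · simp at hp ⊢; tauto
  · simp at hp ⊢; tauto
  · rw [flat_append]
    have := h.nd
    rw [flat_append] at this
    exact List.nodup_append_comm.1 this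
  · simp at hp
    subst hp
    rw [okto_append]
    exact ⟨h1.2, h1.1⟩

lemma KC.fst_inj (h : KC G X K B) : (B.map Prod.fst).Nodup := by
  have : ∀ B : List (Blk V), (B.map Prod.fst).Sublist (flat B) := by
    intro B
    induction B with
    | nil => simp
    | cons p B ih =>
      simp only [List.map_cons, flat_cons]
      exact (ih.trans (List.sublist_append_right _ _)).cons_cons _
  exact (this B).nodup h.nd

/-- Deleting a free clique vertex. -/
lemma KC.remove_one (hK : G.IsClique (K : Set V)) (h : KC G X K B) (hf : 0 < fz (sz B))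
    (h2 : 3 ≤ (flat B).length) :
    ∃ B', KC G X K B' ∧ (flat B').length + 1 = (flat B).length ∧ fz (sz B) ≤ fz (sz B') + 1 := by
  suffices key : ∀ (x y : V) (W : List (Blk V)), KC G X K ((x, []) :: (y, []) :: W) →
      (flat ((x, []) :: (y, []) :: W)).length = (flat B).length →
      fz (sz ((x, []) :: (y, []) :: W)) = fz (sz B) →
      ∃ B', KC G X K B' ∧ (flat B').length + 1 = (flat B).length ∧
        fz (sz B) ≤ fz (sz B') + 1 by
    obtain ⟨p, t, rfl⟩ := List.exists_cons_of_ne_nil h.ne
    simp only [sz, List.map_cons, fz] at hf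
    rcases pc_pos hf with ⟨u, v, e⟩ | ⟨u, e, hb⟩
    · rw [← List.map_cons (f := fun q : Blk V => q.2.length)] at e
      obtain ⟨U, R, hUR, -, hR⟩ := List.map_eq_append_iff.1 e
      obtain ⟨⟨x, ex⟩, R', rfl, hx, hR'⟩ := List.map_eq_cons_iff.1 hR
      obtain ⟨⟨y, ey⟩, W, rfl, hy, -⟩ := List.map_eq_cons_iff.1 hR'
      obtain rfl := List.eq_nil_of_length_eq_zero hx
      obtain rfl := List.eq_nil_of_length_eq_zero hy
      refine key x y (W ++ U) (List.cons_append ▸ List.cons_append ▸ KC.rotate (hUR ▸ h)) ?_ ?_
      · rw [hUR]; simp [length_flat, sz]; omega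
      · rw [hUR]; simp only [sz, List.map_cons, List.map_append]
        rw [fz_rotate (U.map fun q : Blk V => q.2.length)]
        simp
    · rw [← List.map_cons (f := fun q : Blk V => q.2.length)] at e
      obtain ⟨U, R, hUR, -, hR⟩ := List.map_eq_append_iff.1 e
      obtain ⟨⟨x, ex⟩, R', rfl, hx, hR'⟩ := List.map_eq_cons_iff.1 hR
      obtain rfl := List.map_eq_nil_iff.1 hR'
      obtain rfl := List.eq_nil_of_length_eq_zero hx
      rcases U with _ | ⟨⟨y, ey⟩, U⟩
      · simp only [List.nil_append, List.cons.injEq] at hUR
        obtain ⟨rfl, rfl⟩ := hUR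
        simp [flat] at h2
      simp only [List.cons_append, List.cons.injEq] at hUR
      obtain ⟨rfl, rfl⟩ := hUR
      obtain rfl := List.eq_nil_of_length_eq_zero hb
      have h' : KC G X K ([(x, [])] ++ ((y, []) :: U)) := KC.rotate (by simpa using h)
      refine key x y U (by simpa using h') ?_ ?_
      · simp [length_flat, sz]
      · simp only [sz, List.map_cons, List.map_append, List.map_nil]
        rw [← List.cons_append, fz_rotate]
        simp
  intro x y W hKC hlen hfz
  refine ⟨(x, []) :: W, ⟨by simp, fun p hp => hKC.mem p ?_, fun p hp => hKC.ear p ?_, ?_, ?_⟩,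
    ?_, ?_⟩
  · simp at hp ⊢; tauto
  · simp at hp ⊢; tauto
  · have := hKC.nd
    simp only [flat_cons, List.nil_append] at this ⊢
    exact this.sublist ((List.sublist_cons_self _ _).cons_cons _)
  · intro p hp
    simp at hp
    subst hp
    have h1 := hKC.ok (x, []) rfl
    refine ⟨?_, h1.2.2⟩
    rcases W with _ | ⟨w, W⟩
    · simp at hlen
      omega
    · simp only [fst, List.nil_append, List.isChain_cons_cons, List.isChain_singleton, and_true]
      refine hK (hKC.mem (x, []) (by simp)) (hKC.mem w (by simp)) fun e => ?_
      have := hKC.nd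
      simp [flat] at this
      exact this.1.2.1 e
  · simp [length_flat, sz] at hlen ⊢; omega
  · rw [← hfz]
    simp only [sz, List.map_cons, fz, List.length_nil, pc]
    rcases W with _ | ⟨w, W⟩ <;> simp [pc] <;> omega

/-- Deleting free vertices down to any length. -/
lemma KC.remove_free (hK : G.IsClique (K : Set V)) : ∀ (r : ℕ) {B : List (Blk V)}, KC G X K B →
    r ≤ fz (sz B) → r + 3 ≤ (flat B).length → HasCyc G ((flat B).length - r)
  | 0, _, h, _, _ => h.hasCyc
  | r + 1, B, h, hr, hl => by
    obtain ⟨B', hB', e, hf⟩ := h.remove_one hK (by omega) (by omega)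
    have := KC.remove_free hK r hB' (by omega) (by omega)
    rwa [show (flat B).length - (r + 1) = (flat B').length - r by omega]

end Vale.Agent.P048.Full.NC
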