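import Vale.Agent.P048.Full.NC.KCyc
import Vale.Agent.P048.Full.NC.GapsDefs

/-!
P048, the clique step: cycles through the whole clique as blocks. Dropping ears keeps them, so
without a cycle on `m` vertices their ear sizes are `Safe`.
-/

open scoped Classical

namespace Vale.Agent.P048.Full.NC

variable {V : Type*} {G : SimpleGraph V} {X K : Finset V} {B : List (Blk V)}

/-- A cycle through all of `K`. -/
structure Whole (G : SimpleGraph V) (X K : Finset V) (B : List (Blk V)) : Prop
    extends KC G X K B where
  len : B.length = K.card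

lemma pc_count : ∀ (a : ℕ) (l : List ℕ) (b : ℕ), pc a l b =
    ∑ i ∈ Finset.range (l.length + 1),
      if (a :: l).getD i 1 = 0 ∧ (l ++ [b]).getD i 1 = 0 then 1 else 0
  | a, [], b => by rw [List.length_nil, Finset.sum_range_one, pc]; rfl
  | a, c :: l, b => by
    rw [pc, List.length_cons, Finset.sum_range_succ' _ (l.length + 1), pc_count c l b,
      Nat.add_comm]
    congr 1

lemma fz_ofFn {s : ℕ} [NeZero s] (σ : Fin s → ℕ) : fz (List.ofFn σ) = free σ := by
  obtain ⟨t, rfl⟩ : ∃ t, s = t + 1 := ⟨s - 1, by have := NeZero.ne s; omega⟩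
  rw [List.ofFn_succ, fz, pc_count, List.length_ofFn, free, Finset.card_filter,
    Finset.sum_range]
  refine Finset.sum_congr rfl fun i _ => ?_
  have h1 : (σ 0 :: List.ofFn fun i => σ (Fin.succ i)).getD i 1 = σ i := by
    rw [← List.ofFn_succ (f := σ), List.getD_eq_getElem _ _ (by have := i.2; simp; omega),
      List.getElem_ofFn]
  have h2 : ((List.ofFn fun i => σ (Fin.succ i)) ++ [σ 0]).getD i 1 = σ (i + 1) := by
    rw [List.getD_eq_getElem _ _ (by have := i.2; simp; omega)]
    rcases Nat.lt_or_ge i t with h | h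
    · rw [List.getElem_append_left (by simpa using h), List.getElem_ofFn]
      congr 1
      ext
      rw [Fin.val_add_one_of_lt (by rw [Fin.lt_def, Fin.val_last]; exact h), Fin.val_succ]
    · rw [List.getElem_append_right (by simpa using h)]
      have hi : i = Fin.last t := by ext; have := i.2; simp; omega
      subst hi
      simp
  rw [h1, h2]

/-- The same blocks, some ears dropped. -/
def Dropped (p p' : Blk V) : Prop := p'.1 = p.1 ∧ (p'.2 = p.2 ∨ p'.2 = [])

lemma okto_drop (hK : G.IsClique (K : Set V)) {z : V} (hz : z ∈ K) {B B' : List (Blk V)}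
    (hr : List.Forall₂ Dropped B B') (hm : ∀ p ∈ B, p.1 ∈ K)
    (hd : (B.map Prod.fst ++ [z]).IsChain (· ≠ ·)) (h : OKto G B z) :
    fst B' z = fst B z ∧ OKto G B' z := by
  induction hr with
  | nil => exact ⟨rfl, trivial⟩
  | @cons p p' B B' hp hr ih =>
    obtain ⟨h1, h2⟩ := hp
    have hd' : (B.map Prod.fst ++ [z]).IsChain (· ≠ ·) := by
      simp only [List.map_cons, List.cons_append] at hd
      exact hd.tail
    obtain ⟨e, ok⟩ := ih (fun q hq => hm q (List.mem_cons_of_mem _ hq)) hd' h.2
    refine ⟨h1, ?_, ok⟩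
    rw [h1, e]
    rcases h2 with h2 | h2 <;> rw [h2]
    · exact h.1
    · simp only [List.nil_append, List.isChain_cons_cons, List.isChain_singleton, and_true]
      cases B with
      | nil =>
        refine hK (hm p (by simp)) hz ?_
        simpa [fst] using hd
      | cons r B =>
        refine hK (hm p (by simp)) (hm r (by simp)) ?_
        simp only [List.map_cons, List.cons_append, List.isChain_cons_cons] at hd
        exact hd.1

lemma flat_drop {B B' : List (Blk V)} (hr : List.Forall₂ Dropped B B') :
    (flat B').Sublist (flat B) := by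
  induction hr with
  | nil => simp
  | @cons p p' B B' hp _ ih =>
    obtain ⟨h1, h2⟩ := hp
    simp only [flat_cons, h1]
    rcases h2 with h2 | h2 <;> rw [h2]
    · exact (ih.append_left _).cons_cons _
    · exact (ih.trans (List.sublist_append_right _ _)).cons_cons _

lemma KC.drop (hK : G.IsClique (K : Set V)) (h : KC G X K B) (h2 : 2 ≤ B.length)
    {B' : List (Blk V)} (hr : List.Forall₂ Dropped B B') : KC G X K B' := by
  have hlen := hr.length_eq
  have hmem : ∀ p' ∈ B', ∃ p ∈ B, Dropped p p' := by
    clear hlen h h2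
    induction hr with
    | nil => simp
    | cons hp _ ih =>
      intro p' hp'
      rcases List.mem_cons.1 hp' with rfl | hp'
      · exact ⟨_, List.mem_cons_self, hp⟩
      · obtain ⟨q, hq, hd⟩ := ih p' hp'
        exact ⟨q, List.mem_cons_of_mem _ hq, hd⟩
  refine ⟨fun e => by subst e; simp only [List.length_nil] at hlen; omega, fun p hp => ?_, fun p hp x hx => ?_,
    (flat_drop hr).nodup h.nd, fun p hp => ?_⟩
  · obtain ⟨q, hq, hd, -⟩ := hmem p hp
    exact hd ▸ h.mem q hq
  · obtain ⟨q, hq, -, hd⟩ := hmem p hp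
    rcases hd with hd | hd <;> rw [hd] at hx
    · exact h.ear q hq x hx
    · simp at hx
  · obtain ⟨q, t, rfl⟩ := List.exists_cons_of_ne_nil h.ne
    rcases hr with _ | @⟨_, p', _, t', hd, hr'⟩
    obtain rfl : p' = p := by simpa using hp
    rw [hd.1]
    refine (okto_drop hK (h.mem q (by simp)) (List.Forall₂.cons hd hr') h.mem ?_ (h.ok q rfl)).2
    have hn : ((t.map Prod.fst) ++ [q.1]).Nodup := by
      have := h.fst_inj
      rw [List.map_cons, ← List.singleton_append] at this
      exact List.nodup_append_comm.1 this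
    have ht : t ≠ [] := fun e => by simp [e] at h2
    obtain ⟨r, t2, rfl⟩ := List.exists_cons_of_ne_nil ht
    simp only [List.map_cons, List.cons_append, List.isChain_cons_cons] at hn ⊢
    refine ⟨?_, (List.Pairwise.isChain hn)⟩
    intro e
    rw [List.nodup_cons] at hn
    exact hn.1 (by simp [e])

lemma Whole.no_len (h : Whole G X K B) {m : ℕ} (hno : ¬ HasCyc G m) : (flat B).length ≠ m :=
  fun e => hno (e ▸ h.hasCyc)

/-- Without a cycle on `m` vertices free vertices cannot make up the excess over `m`. -/
lemma Whole.no_excess (hK : G.IsClique (K : Set V)) (h : Whole G X K B) {m : ℕ}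
    (hno : ¬ HasCyc G m) (hm : 3 ≤ m) (hL : m ≤ (flat B).length) :
    m + fz (sz B) < (flat B).length := by
  by_contra hle
  have := h.toKC.remove_free hK ((flat B).length - m) (by omega) (by omega)
  exact hno (by rwa [show (flat B).length - ((flat B).length - m) = m by omega] at this)

/-- The ear sizes of a cycle through all of `K`. -/
lemma Whole.drop_set (hK : G.IsClique (K : Set V)) {s : ℕ} [NeZero s] (hs : 2 ≤ s)
    (hKs : K.card = s) (h : Whole G X K B) (S : Finset (Fin s)) :
    ∃ σ : Fin s → ℕ, sz B = List.ofFn σ ∧ ∃ B', Whole G X K B' ∧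
      sz B' = List.ofFn (zero σ S) ∧ (flat B').length = s + ∑ i, zero σ S i := by
  have hl : B.length = s := h.len.trans hKs
  subst hl
  refine ⟨fun i => (B[i.1]).2.length, ?_,
    List.ofFn fun i : Fin B.length => if i ∈ S then ((B[i.1]).1, []) else B[i.1], ?_⟩
  · refine List.ext_getElem (by simp [sz]) fun i h1 h2 => ?_
    simp [sz]
  have hr : List.Forall₂ Dropped B
      (List.ofFn fun i : Fin B.length => if i ∈ S then ((B[i.1]).1, []) else B[i.1]) := by
    refine List.forall₂_iff_get.2 ⟨by simp, fun i h1 h2 => ?_⟩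
    simp only [List.get_eq_getElem, List.getElem_ofFn]
    split_ifs <;> simp [Dropped]
  have hsz : sz (List.ofFn fun i : Fin B.length => if i ∈ S then ((B[i.1]).1, []) else B[i.1]) =
      List.ofFn (zero (fun i : Fin B.length => (B[i.1]).2.length) S) := by
    refine List.ext_getElem (by simp [sz]) fun i h1 h2 => ?_
    simp only [sz, List.getElem_map, List.getElem_ofFn, zero]
    split_ifs <;> simp
  refine ⟨⟨h.toKC.drop hK hs hr, by rw [List.length_ofFn]; exact h.len⟩, hsz, ?_⟩
  rw [length_flat, hsz, List.sum_ofFn, List.length_ofFn]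

/-- The ear sizes are safe: dropping ears gives neither `m` vertices nor, by hypothesis, a number
in `(L, m + 1]`. -/
lemma Whole.safe (hK : G.IsClique (K : Set V)) {s : ℕ} [NeZero s] (hs : 2 ≤ s) (hKs : K.card = s)
    {m L : ℕ} (hm : 3 ≤ m) (hno : ¬ HasCyc G m)
    (hmax : ∀ B', Whole G X K B' → L < (flat B').length → m + 1 < (flat B').length)
    (h : Whole G X K B) (σ : Fin s → ℕ) (hσ : sz B = List.ofFn σ) (n0 : Fin s) :
    Safe σ n0 m L := by
  intro S _
  obtain ⟨σ', hσ', B', hB', hsz, hlen⟩ := h.drop_set hK hs hKs S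
  obtain rfl : σ' = σ := List.ofFn_injective (hσ'.symm.trans hσ)
  refine ⟨fun ⟨h1, h2⟩ => ?_, fun h1 => ?_⟩
  · have := hmax B' hB' (by omega)
    omega
  · have := hB'.no_excess hK hno hm (by omega)
    rw [hsz, fz_ofFn] at this
    omega

end Vale.Agent.P048.Full.NC
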