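import Vale.Agent.P048.Full.NC.MDegDefs

/-!
P048, the clique step: proofs of the degree statements `MDeg` and `OutDeg`.
-/

open scoped Classical

namespace Vale.Agent.P048.Full.NC

universe u

variable {V : Type u} {G : SimpleGraph V} {X K : Finset V} {B : List (Blk V)} {m k : ℕ}

lemma fz_split : ∀ (l : List ℕ), pc 1 l 1 ≤ fz l
  | [] => by simp [fz, pc]
  | a :: t => by
    have h : ∀ (x : ℕ) (l : List ℕ) (b : ℕ), pc x l 1 ≤ pc x l b := by
      intro x l b
      induction l generalizing x with
      | nil => simp [pc]
      | cons c l ih => simp only [pc]; have := ih c; omega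
    have := h a t a
    simpa [fz, pc] using this

/-- The counted places: without two consecutive ones, twice the ones and the pairs of zeros fill
the list. -/
lemma pc_ones : ∀ (a : ℕ) (l : List ℕ) (b : ℕ), (∀ x ∈ a :: l, x ≤ 1) → b ≤ 1 →
    (a :: (l ++ [b])).IsChain (fun x y => x + y ≤ 1) →
    pc a l b + a + 2 * l.sum + b = l.length + 1
  | a, [], b, h, hb, hc => by
    simp only [List.nil_append, List.isChain_cons_cons, List.isChain_singleton, and_true] at hc
    have := h a (by simp)
    simp only [pc, List.sum_nil, List.length_nil]
    split_ifs <;> omega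
  | a, c :: l, b, h, hb, hc => by
    simp only [List.cons_append, List.isChain_cons_cons] at hc
    have := pc_ones c l b (fun x hx => h x (List.mem_cons_of_mem _ hx)) hb hc.2
    have := h a (by simp)
    have := h c (by simp)
    simp only [pc, List.sum_cons, List.length_cons]
    split_ifs <;> omega

/-- The number of zero entries of a list without two cyclically adjacent zeros is at most the
number of nonzero ones. -/
lemma zeros_count (l : List ℕ) (h1 : ∀ x ∈ l, x ≠ 1) :
    2 * nz l ≤ l.sum ∧ nz l + l.countP (fun x => decide (x = 0)) = l.length := by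
  induction l with
  | nil => simp [nz]
  | cons a l ih =>
    obtain ⟨i1, i2⟩ := ih fun x hx => h1 x (List.mem_cons_of_mem _ hx)
    have := h1 a List.mem_cons_self
    simp only [nz, List.countP_cons, List.sum_cons, List.length_cons, decide_eq_true_eq] at i1 i2 ⊢
    split_ifs <;> omega

/-- If the nonzero entries are as few as possible they are all two. -/
lemma zeros_exact (l : List ℕ) (h1 : ∀ x ∈ l, x ≠ 1) (h : l.sum ≤ 2 * nz l) :
    ∀ x ∈ l, x = 0 ∨ x = 2 := by
  induction l with
  | nil => simp
  | cons a l ih =>
    obtain ⟨i1, -⟩ := zeros_count l fun x hx => h1 x (List.mem_cons_of_mem _ hx)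
    have := h1 a List.mem_cons_self
    have hl : l.sum ≤ 2 * nz l ∧ (a = 0 ∨ a = 2) := by
      simp only [nz, List.countP_cons, List.sum_cons, decide_eq_true_eq] at h i1 ⊢
      split_ifs at h <;> omega
    intro x hx
    rcases List.mem_cons.1 hx with rfl | hx
    · exact hl.2
    · exact ih (fun y hy => h1 y (List.mem_cons_of_mem _ hy)) hl.1 x hx

/-- The root's block put last. -/
lemma Whole.root_last (h : Whole G X K B) {a : V} (ha : a ∈ roots B) :
    ∃ U p, Whole G X K (U ++ [p]) ∧ lastV p = a ∧ (flat (U ++ [p])).Perm (flat B) ∧
      (sz (U ++ [p])).Perm (sz B) ∧ roots (U ++ [p]) = roots B := by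
  rw [roots, List.mem_toFinset, List.mem_map] at ha
  obtain ⟨p, hp, hpa⟩ := ha
  obtain ⟨U, W, rfl⟩ := List.append_of_mem hp
  refine ⟨W ++ U, p, ?_, hpa, ?_, ?_, ?_⟩
  · have := Whole.rotate (A := U ++ [p]) (C := W) (by simpa using h)
    simpa using this
  · rw [List.perm_iff_count]
    intro x
    simp only [flat_append, flat_cons, flat_nil, List.count_append, List.count_cons, List.count_nil]
    omega
  · rw [List.perm_iff_count]
    intro x
    simp only [sz, List.map_append, List.map_cons, List.map_nil, List.count_append,
      List.count_cons, List.count_nil]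
    omega
  · ext x
    simp only [roots, List.mem_toFinset, List.mem_map, List.mem_append, List.mem_cons,
      List.not_mem_nil, or_false]
    constructor <;> (rintro ⟨r, hr, rfl⟩; exact ⟨r, by tauto, rfl⟩)

/-- The roots before empty ears. -/
noncomputable def before : List (Blk V) → List V
  | [] => []
  | [_] => []
  | q :: r :: U => if r.2 = [] then lastV q :: before (r :: U) else before (r :: U)

lemma before_sub : ∀ U : List (Blk V), (before U).Sublist (U.map lastV)
  | [] => by simp [before]
  | [q] => by simp [before]
  | q :: r :: U => by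
    have := before_sub (r :: U)
    rw [before, List.map_cons]
    split_ifs
    · exact this.cons_cons _
    · exact this.cons _

lemma before_mem : ∀ (U : List (Blk V)) (b : V), b ∈ before U →
    ∃ U1 q r U2, U = U1 ++ q :: r :: U2 ∧ r.2 = [] ∧ b = lastV q
  | [], b, h => by simp [before] at h
  | [q], b, h => by simp [before] at h
  | q :: r :: U, b, h => by
    rw [before] at h
    have step : b ∈ before (r :: U) → ∃ U1 q' r' U2,
        q :: r :: U = U1 ++ q' :: r' :: U2 ∧ r'.2 = [] ∧ b = lastV q' := fun h' => by
      obtain ⟨U1, q', r', U2, e, e1, e2⟩ := before_mem (r :: U) b h'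
      exact ⟨q :: U1, q', r', U2, by rw [e]; rfl, e1, e2⟩
    split_ifs at h with hr
    · rcases List.mem_cons.1 h with h | h
      · exact ⟨[], q, r, U, rfl, hr, h⟩
      · exact step h
    · exact step h

lemma before_length : ∀ U : List (Blk V),
    (before U).length = (sz U.tail).countP (fun x => decide (x = 0))
  | [] => by simp [before, sz]
  | [q] => by simp [before, sz]
  | q :: r :: U => by
    have := before_length (r :: U)
    simp only [sz, List.tail_cons, List.map_cons, List.countP_cons, decide_eq_true_eq,
      List.length_eq_zero_iff] at this ⊢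
    rw [before]
    split_ifs <;> simp_all

/-- With the root's block last, many of the other roots are followed by empty ears. -/
lemma StateM.before_count (h : StateM G X K B m k) {U : List (Blk V)} {p : Blk V}
    (hC : Whole G X K (U ++ [p])) (hflat : (flat (U ++ [p])).Perm (flat B)) :
    (2 ≤ (before U).length ∨ (1 ≤ (before U).length ∧ m = 10 ∧ K.card = 5 ∧
      (∀ r ∈ U ++ [p], r.2.length = 0 ∨ r.2.length = 2))) ∧
      (m + 1 ≤ 2 * K.card → 3 ≤ (before U).length ∨ (m = 11 ∧ K.card = 6)) := by
  have hst : StateM G X K (U ++ [p]) m k :=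
    StateM.mk (h.toBase.perm hC) (by rw [hflat.length_eq, h.long]) h.five
  have hfree := hst.free_zero
  have hcov := fz_cover (sz (U ++ [p]))
  have hone := perm_sz_ne_one hst
  obtain ⟨i1, i2⟩ := zeros_count _ hone
  have hlen := length_flat (U ++ [p])
  have := hst.long
  have := hC.len
  have := h.hm
  have := h.hw
  have := h.hq
  have := h.card7
  have := h.five
  have hsl : (sz (U ++ [p])).length = (U ++ [p]).length := by simp [sz]
  rw [before_length]
  have hlose : (sz (U ++ [p])).countP (fun x => decide (x = 0)) ≤
      (sz U.tail).countP (fun x => decide (x = 0)) + 1 := by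
    rcases U with _ | ⟨q, U⟩
    · simp only [sz, List.nil_append, List.map_cons, List.map_nil, List.tail_nil, List.countP_cons,
        List.countP_nil]
      split_ifs <;> omega
    · simp only [sz, List.cons_append, List.map_cons, List.map_append, List.map_nil, fz] at hfree
      have hboth : ¬ (q.2.length = 0 ∧ p.2.length = 0) := by
        intro hz
        rw [pc_append] at hfree
        simp [pc, hz.1, hz.2] at hfree
      simp only [sz, List.cons_append, List.map_cons, List.map_append, List.map_nil,
        List.tail_cons, List.countP_cons, List.countP_append, List.countP_nil, decide_eq_true_eq]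
      split_ifs <;> omega
  refine ⟨?_, fun _ => by omega⟩
  by_contra hcon
  push Not at hcon
  obtain ⟨c1, c2⟩ := hcon
  have he : (sz (U ++ [p])).sum ≤ 2 * nz (sz (U ++ [p])) := by omega
  have hall := zeros_exact _ hone he
  obtain ⟨r, hr, hr1, hr2⟩ := c2 (by omega) (by omega) (by omega)
  rcases hall r.2.length (List.mem_map.2 ⟨r, hr, rfl⟩) with e | e
  · exact hr1 e
  · exact hr2 e

/-- In the window, with doubles and empty ears alternating, a root misses a third vertex. -/
lemma StateM.third (h : StateM G X K B m k) {U : List (Blk V)} {p : Blk V}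
    (hC : Whole G X K (U ++ [p])) (hflat : (flat (U ++ [p])).Perm (flat B)) (hm : m = 11)
    (hs : K.card = 6) :
    ∃ x ∈ flat (U ++ [p]), x ≠ lastV p ∧ ¬ G.Adj (lastV p) x ∧ x ∉ before U := by
  have hst : StateM G X K (U ++ [p]) m k :=
    StateM.mk (h.toBase.perm hC) (by rw [hflat.length_eq, h.long]) h.five
  have hfree := hst.free_zero
  have hone := perm_sz_ne_one hst
  have hlong := hst.long
  have hlen := hC.len
  rw [length_flat] at hlong
  obtain _ | ⟨⟨c1, e1⟩, _ | ⟨⟨c2, e2⟩, _ | ⟨⟨c3, e3⟩, _ | ⟨⟨c4, e4⟩, _ | ⟨⟨c5, e5⟩, _ | ⟨q, U⟩⟩⟩⟩⟩⟩ :=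
    U <;> simp only [List.length_append, List.length_cons, List.length_nil] at hlen <;>
    try omega
  obtain ⟨c6, e6⟩ := p
  have hnd := hC.nd
  have hK' : ∀ {x y : V}, x ∈ K → y ∈ K → x ≠ y → G.Adj x y := fun hx hy hxy => h.hK hx hy hxy
  have hok := hC.ok (c1, e1) rfl
  have hmem : ∀ q ∈ [(c1, e1), (c2, e2), (c3, e3), (c4, e4), (c5, e5), (c6, e6)], q.1 ∈ K :=
    fun q hq => hC.mem q (by simpa using hq)
  simp only [List.forall_mem_cons] at hmem
  obtain ⟨k1, k2, k3, k4, k5, k6, -⟩ := hmem
  simp only [sz, List.cons_append, List.nil_append, List.map_cons, List.map_nil, fz, pc,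
    List.sum_cons, List.sum_nil, List.mem_cons, List.not_mem_nil, or_false, forall_eq_or_imp,
    forall_eq, List.length_cons, List.length_nil] at hfree hlong hone
  obtain ⟨o1, o2, o3, o4, o5, o6⟩ := hone
  have halt : (e1.length = 0 ∧ e2.length = 2 ∧ e3.length = 0 ∧ e4.length = 2 ∧ e5.length = 0 ∧
        e6.length = 2) ∨ (e1.length = 2 ∧ e2.length = 0 ∧ e3.length = 2 ∧ e4.length = 0 ∧
        e5.length = 2 ∧ e6.length = 0) := by
    have pair : ∀ a b : ℕ, a ≠ 1 → b ≠ 1 → (if a = 0 ∧ b = 0 then 1 else 0) = 0 → 2 ≤ a + b := by
      intro a b ha hb hab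
      split_ifs at hab <;> omega
    have := pair _ _ o1 o2 (by omega)
    have := pair _ _ o2 o3 (by omega)
    have := pair _ _ o3 o4 (by omega)
    have := pair _ _ o4 o5 (by omega)
    have := pair _ _ o5 o6 (by omega)
    have := pair _ _ o6 o1 (by omega)
    omega
  rcases halt with ⟨h1, h2, h3, h4, h5, h6⟩ | ⟨h1, h2, h3, h4, h5, h6⟩
  · obtain rfl := List.eq_nil_of_length_eq_zero h1
    obtain rfl := List.eq_nil_of_length_eq_zero h3
    obtain rfl := List.eq_nil_of_length_eq_zero h5
    obtain ⟨y1, y2, rfl⟩ := List.length_eq_two.1 h2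
    obtain ⟨z1, z2, rfl⟩ := List.length_eq_two.1 h4
    obtain ⟨x1, x2, rfl⟩ := List.length_eq_two.1 h6
    simp only [List.cons_append, List.nil_append, OKto, fst, List.isChain_cons_cons,
      List.isChain_singleton, and_true] at hok
    obtain ⟨-, ⟨-, a3, a4⟩, -, ⟨a5, a6, a7⟩, a8, a9, a10, -⟩ := hok
    refine ⟨y1, by simp, ?_, fun hadj => h.cx.noc ?_, ?_⟩
    · intro e
      simp [lastV, e] at hnd
    · have hadj' : G.Adj x2 y1 := by simpa [lastV] using hadj
      have b1 : G.Adj c3 c1 := hK' k3 k1 (by intro e; simp [e] at hnd)
      have b2 : G.Adj c1 c4 := hK' k1 k4 (by intro e; simp [e] at hnd)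
      have hd : ([c6, x1, x2, y1, y2, c3, c1, c4, z1, z2, c5] ++ [c2]).Nodup := by
        refine (List.Perm.nodup_iff ?_).2 hnd
        rw [List.perm_iff_count]
        intro v
        simp only [flat_cons, flat_nil, List.cons_append, List.nil_append, List.count_cons,
          List.count_nil]
        omega
      refine (congrArg (HasCyc G) hm.symm).mp
        (hasCyc_of_list (h := c6) rfl (List.nodup_append'.1 hd).1 ?_)
      simp only [List.cons_append, List.nil_append, List.isChain_cons_cons,
        List.isChain_singleton, and_true]
      exact ⟨a9, a10, hadj', a3, a4, b1, b2, a5, a6, a7, a8⟩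
    · simp [before, lastV]
      constructor <;> intro e <;> simp [e] at hnd
  · obtain rfl := List.eq_nil_of_length_eq_zero h2
    obtain rfl := List.eq_nil_of_length_eq_zero h4
    obtain rfl := List.eq_nil_of_length_eq_zero h6
    obtain ⟨y1, y2, rfl⟩ := List.length_eq_two.1 h1
    obtain ⟨z1, z2, rfl⟩ := List.length_eq_two.1 h3
    obtain ⟨x1, x2, rfl⟩ := List.length_eq_two.1 h5
    simp only [List.cons_append, List.nil_append, OKto, fst, List.isChain_cons_cons,
      List.isChain_singleton, and_true] at hok
    obtain ⟨⟨-, a2, a3⟩, a4, ⟨a5, a6, a7⟩, a8, ⟨a9, a10, a11⟩, -⟩ := hok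
    refine ⟨y1, by simp, ?_, fun hadj => h.cx.noc ?_, ?_⟩
    · intro e
      simp [lastV, e] at hnd
    · have hadj' : G.Adj c6 y1 := by simpa [lastV] using hadj
      have hd : ([c5, x1, x2, c6, y1, y2, c2, c3, z1, z2, c4] ++ [c1]).Nodup := by
        refine (List.Perm.nodup_iff ?_).2 hnd
        rw [List.perm_iff_count]
        intro v
        simp only [flat_cons, flat_nil, List.cons_append, List.nil_append, List.count_cons,
          List.count_nil]
        omega
      refine (congrArg (HasCyc G) hm.symm).mp
        (hasCyc_of_list (h := c5) rfl (List.nodup_append'.1 hd).1 ?_)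
      simp only [List.cons_append, List.nil_append, List.isChain_cons_cons,
        List.isChain_singleton, and_true]
      exact ⟨a9, a10, a11, hadj', a2, a3, a4, a5, a6, a7, a8⟩
    · simp [before, lastV]
      constructor <;> intro e <;> simp [e] at hnd

/-- In the exceptional state with `m = 10` a root misses another vertex of its ear or of the
ear before it. -/
lemma StateM.second (h : StateM G X K B m k) {U : List (Blk V)} {p : Blk V}
    (hC : Whole G X K (U ++ [p])) (hflat : (flat (U ++ [p])).Perm (flat B)) (hm : m = 10)
    (hall : ∀ r ∈ U ++ [p], r.2.length = 0 ∨ r.2.length = 2) :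
    ∃ x ∈ flat (U ++ [p]), x ≠ lastV p ∧ ¬ G.Adj (lastV p) x ∧ x ∉ before U := by
  have hst : StateM G X K (U ++ [p]) m k :=
    StateM.mk (h.toBase.perm hC) (by rw [hflat.length_eq, h.long]) h.five
  have hlen := hst.long
  -- shorten one ear of two
  have short : ∀ (A D : List (Blk V)) (c y y' : V), U ++ [p] = A ++ (c, [y, y']) :: D →
      ∀ e : V, (e = y ∧ G.Adj y (fst D (fst A c)) ∨ e = y' ∧ G.Adj c y') → False := by
    intro A D c y y' e0 e he
    have hrot : Whole G X K ((c, [y, y']) :: (D ++ A)) := by
      have := Whole.rotate (A := A) (C := (c, [y, y']) :: D) (e0 ▸ hC)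
      simpa using this
    have hz : fst D (fst A c) = fst (D ++ A) c := (fst_append D A c).symm
    rw [hz] at he
    have hok := hrot.ok (c, [y, y']) rfl
    simp only [OKto, List.cons_append, List.nil_append, List.isChain_cons_cons,
      List.isChain_singleton, and_true] at hok
    have hey : e = y ∨ e = y' := he.elim (fun h' => Or.inl h'.1) fun h' => Or.inr h'.1
    have hB' : Whole G X K ((c, [e]) :: (D ++ A)) := by
      refine ⟨⟨by simp, fun r hr => ?_, fun r hr z hz => ?_, ?_, fun r hr => ?_⟩, ?_⟩
      · rcases List.mem_cons.1 hr with rfl | hr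
        · exact hrot.mem (c, [y, y']) (by simp)
        · exact hrot.mem r (by simp [hr])
      · rcases List.mem_cons.1 hr with rfl | hr
        · obtain rfl := List.mem_singleton.1 hz
          exact hrot.ear (c, [y, y']) (by simp) z (by rcases hey with e | e <;> simp [e])
        · exact hrot.ear r (by simp [hr]) z hz
      · refine hrot.nd.sublist ?_
        simp only [flat_cons, List.cons_append, List.nil_append]
        refine List.Sublist.cons_cons _ ?_
        rcases hey with e | e <;> subst e
        · exact (List.sublist_cons_self _ _).cons_cons _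
        · exact List.sublist_cons_self _ _
      · simp only [List.head?_cons, Option.some.injEq] at hr
        subst hr
        refine ⟨?_, hok.2⟩
        simp only [List.cons_append, List.nil_append, List.isChain_cons_cons,
          List.isChain_singleton, and_true]
        rcases he with ⟨rfl, he⟩ | ⟨rfl, he⟩
        · exact ⟨hok.1.1, he⟩
        · exact ⟨he, hok.1.2.2⟩
      · simpa using hrot.len
    refine hB'.no_len h.cx.noc ?_
    have h2 : (flat (U ++ [p])).length = (flat ((c, [e]) :: (D ++ A))).length + 1 := by
      rw [e0]; simp [flat_append]; omega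
    omega
  have hnd := hC.nd
  have hbU : ∀ x ∈ before U, ∃ r ∈ U, lastV r = x := fun x hx =>
    List.mem_map.1 ((before_sub U).subset hx)
  rcases hall p (by simp) with hp | hp
  · -- the ear before the root
    obtain ⟨c, e⟩ := p
    obtain rfl := List.eq_nil_of_length_eq_zero hp
    obtain rfl | ⟨A, q, rfl⟩ := List.eq_nil_or_concat U
    · simp [hm] at hlen
    simp only [List.concat_eq_append] at hC hnd hall hbU short hlen ⊢
    rcases hall q (by simp) with hq | hq
    · exfalso
      have hfree := hst.free_zero
      simp only [List.concat_eq_append, sz, List.map_append, List.map_cons, List.map_nil, hq,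
        List.length_nil, List.append_assoc, List.cons_append, List.nil_append] at hfree
      rw [fz_rotate] at hfree
      simp [fz, pc] at hfree
    obtain ⟨cq, eq⟩ := q
    obtain ⟨y, y', rfl⟩ := List.length_eq_two.1 hq
    rw [flat_append, flat_append, List.append_assoc, List.nodup_append'] at hnd
    obtain ⟨-, hn2, hd⟩ := hnd
    simp only [flat_cons, flat_nil, List.cons_append, List.nil_append, List.nodup_cons,
      List.mem_cons, List.not_mem_nil, or_false, not_or] at hn2
    refine ⟨y, by simp, ?_, fun hadj => ?_, fun hy => ?_⟩
    · intro e'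
      exact hn2.2.1.2 (by simpa [lastV] using e')
    · refine short A [(c, [])] cq y y' (by simp) y (Or.inl ⟨rfl, ?_⟩)
      simpa [fst, lastV] using hadj.symm
    · obtain ⟨r, hr, hry⟩ := hbU y hy
      rcases List.mem_append.1 hr with hr | hr
      · have : y ∈ flat A := List.mem_flatMap.2 ⟨r, hr, hry ▸ lastV_mem r⟩
        exact hd this (by simp)
      · simp only [List.mem_singleton] at hr
        subst hr
        exact hn2.2.1.1 (by simpa [lastV] using hry.symm)
  · obtain ⟨c, e⟩ := p
    obtain ⟨y, y', rfl⟩ := List.length_eq_two.1 hp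
    rw [flat_append, List.nodup_append'] at hnd
    obtain ⟨-, hn2, hd⟩ := hnd
    simp only [flat_cons, flat_nil, List.cons_append, List.nil_append, List.nodup_cons,
      List.mem_cons, List.not_mem_nil, or_false, not_or] at hn2
    refine ⟨c, by simp, ?_, fun hadj => ?_, fun hy => ?_⟩
    · intro e'
      exact hn2.1.2 (by simpa [lastV] using e')
    · exact short U [] c y y' rfl y' (Or.inr ⟨rfl, by simpa [lastV] using hadj.symm⟩)
    · obtain ⟨r, hr, hry⟩ := hbU c hy
      have : c ∈ flat U := List.mem_flatMap.2 ⟨r, hr, hry ▸ lastV_mem r⟩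
      exact hd this (by simp)

theorem mDeg : MDeg := by
  intro V G X K B m k a h ha
  obtain ⟨U, p, hC, hpa, hflat, -, -⟩ := h.whole.root_last ha
  obtain ⟨c2, c3⟩ := h.before_count hC hflat
  have hnd : (flat (U ++ [p])).Nodup := hC.nd
  have hbn : (before U).Nodup := by
    have := hC.lastV_nodup
    rw [List.map_append] at this
    exact (before_sub U).nodup (List.nodup_append'.1 this).1
  have hb : ∀ b ∈ (before U).toFinset, b ∈ ((flat B).toFinset.erase a) ∧ ¬ G.Adj a b := by
    intro b hb
    rw [List.mem_toFinset] at hb
    obtain ⟨U1, q, r, U2, hU, hr, rfl⟩ := before_mem U b hb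
    have hC' : Whole G X K ((r :: U2) ++ p :: (U1 ++ [q])) := by
      have := Whole.rotate (A := U1 ++ [q]) (C := r :: U2 ++ [p])
        (by simpa [hU] using hC)
      simpa using this
    have hne : lastV q ≠ a := by
      intro e
      have := hC.lastV_nodup
      rw [List.map_append, List.nodup_append'] at this
      refine this.2.2 (List.mem_map.2 ⟨q, by rw [hU]; simp, rfl⟩) ?_
      simp [e, hpa]
    refine ⟨Finset.mem_erase.2 ⟨hne, List.mem_toFinset.2 (hflat.subset ?_)⟩, fun hadj => ?_⟩
    · exact List.mem_flatMap.2 ⟨q, by rw [hU]; simp, lastV_mem q⟩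
    · obtain ⟨B', -, hB', hsz, hperm⟩ := hC'.join h.hK (R := []) List.nodup_nil (by simp)
        (by simpa [hpa] using hadj)
      rw [List.append_nil] at hperm
      have hl : (flat B').length = m + 1 := by
        rw [hperm.length_eq, ← h.long, ← hflat.length_eq]
        simp only [hU, length_flat, sz, List.length_append, List.length_cons, List.map_append,
          List.map_cons, List.map_nil, List.sum_append, List.sum_cons, List.sum_nil,
          List.length_nil]
        omega
      have hz := (StateM.mk (h.toBase.perm hB') hl h.five).free_zero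
      rw [hsz] at hz
      simp only [sz, List.map_cons, hr, List.length_nil, List.cons_append, fz] at hz
      rw [← List.cons_append, ← List.append_assoc, pc_append] at hz
      simp [pc] at hz
  have key : ∀ T : Finset V, (∀ b ∈ T, b ∈ ((flat B).toFinset.erase a) ∧ ¬ G.Adj a b) →
      ((flat B).toFinset.filter (G.Adj a)).card + T.card ≤ m := by
    intro T hT
    have hsub : (flat B).toFinset.filter (G.Adj a) ⊆ ((flat B).toFinset.erase a) \ T := by
      intro x hx
      rw [Finset.mem_filter] at hx
      exact Finset.mem_sdiff.2 ⟨Finset.mem_erase.2 ⟨hx.2.ne.symm, hx.1⟩,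
        fun hx' => (hT x hx').2 hx.2⟩
    have hcard := Finset.card_le_card hsub
    have hT' := Finset.card_le_card (fun x hx => (hT x hx).1 : T ⊆ (flat B).toFinset.erase a)
    rw [Finset.card_sdiff_of_subset (fun x hx => (hT x hx).1)] at hcard
    rw [Finset.card_erase_of_mem (List.mem_toFinset.2 (h.whole.roots_sub h.hKX ha).2),
      List.toFinset_card_of_nodup h.whole.nd, h.long] at hcard hT'
    omega
  have k2 := key _ hb
  rw [List.toFinset_card_of_nodup hbn] at k2
  refine ⟨?_, fun hh => ?_⟩
  · rcases c2 with c2 | ⟨c1, hm, -, hall⟩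
    · omega
    · obtain ⟨x, hx, hxa, hxn, hxb⟩ := h.second hC hflat hm hall
      rw [hpa] at hxa hxn
      have k3 := key (insert x (before U).toFinset) fun b hb' => by
        rcases Finset.mem_insert.1 hb' with rfl | hb'
        · exact ⟨Finset.mem_erase.2 ⟨hxa, List.mem_toFinset.2 (hflat.subset hx)⟩, hxn⟩
        · exact hb b hb'
      rw [Finset.card_insert_of_notMem (by simpa using hxb), List.toFinset_card_of_nodup hbn] at k3
      omega
  rcases c3 hh with c3 | ⟨hm, hs⟩
  · omega
  · obtain ⟨x, hx, hxa, hxn, hxb⟩ := h.third hC hflat hm hs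
    rw [hpa] at hxa hxn
    have k3 := key (insert x (before U).toFinset) fun b hb' => by
      rcases Finset.mem_insert.1 hb' with rfl | hb'
      · exact ⟨Finset.mem_erase.2 ⟨hxa, List.mem_toFinset.2 (hflat.subset hx)⟩, hxn⟩
      · exact hb b hb'
    rw [Finset.card_insert_of_notMem (by simpa using hxb), List.toFinset_card_of_nodup hbn] at k3
    omega

/-- Every segment from a clique vertex to the next satisfies `R`. -/
def OKR (R : V → V → Prop) : List (Blk V) → V → Prop
  | [], _ => True
  | p :: B, z => (p.1 :: (p.2 ++ [fst B z])).IsChain R ∧ OKR R B z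

lemma okr_chain {R : V → V → Prop} : ∀ {B : List (Blk V)} {z : V}, OKR R B z →
    (flat B ++ [z]).IsChain R
  | [], z, _ => by simp
  | p :: B, z, h => by
    have ih := okr_chain h.2
    rw [flat_cons, List.cons_append, List.append_assoc]
    cases B with
    | nil => simpa [fst] using h.1
    | cons r B =>
      have h1 := h.1
      simp only [fst] at h1
      simp only [flat_cons, List.cons_append] at ih ⊢
      rw [← List.cons_append, List.isChain_append]
      rw [← List.cons_append, List.isChain_append] at h1
      refine ⟨h1.1, ih, ?_⟩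
      simpa using h1.2.2

/-- A place to insert `u`. -/
lemma exists_slot (G : SimpleGraph V) (u z : V) : ∀ (a : V) (e : List V),
    ¬ (a :: (e ++ [z])).IsChain (fun x y => ¬ (G.Adj u x ∧ G.Adj u y)) →
    ∃ e1 e2, e = e1 ++ e2 ∧ G.Adj u ((a :: e1).getLast (List.cons_ne_nil _ _)) ∧
      ∀ y ∈ (e2 ++ [z]).head?, G.Adj u y
  | a, [], h => by
    simp only [List.nil_append, List.isChain_cons_cons, List.isChain_singleton, and_true,
      not_not] at h
    exact ⟨[], [], rfl, by simpa using h.1, by simpa using h.2⟩
  | a, c :: e, h => by
    rw [List.cons_append, List.isChain_cons_cons] at h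
    by_cases hac : G.Adj u a ∧ G.Adj u c
    · exact ⟨[], c :: e, rfl, by simpa using hac.1, by simpa using hac.2⟩
    · obtain ⟨e1, e2, rfl, h1, h2⟩ := exists_slot G u z c e (fun hc => h ⟨hac, hc⟩)
      exact ⟨c :: e1, e2, rfl, by rwa [List.getLast_cons (List.cons_ne_nil _ _)], h2⟩

/-- An outside vertex has no two consecutive neighbours on the cycle. -/
lemma no_consecutive {u : V} (h : StateN G X K B m k ∨ StateM G X K B m k) (hu : u ∈ off X B)
    {p : Blk V} {W : List (Blk V)} (hC : Whole G X K (p :: W))
    (hperm : (flat (p :: W)).Perm (flat B)) :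
    (p.1 :: (p.2 ++ [fst W p.1])).IsChain (fun x y => ¬ (G.Adj u x ∧ G.Adj u y)) := by
  by_contra hcon
  obtain ⟨e1, e2, he, h1, h2⟩ := exists_slot G u _ _ _ hcon
  rw [off, Finset.mem_sdiff, List.mem_toFinset] at hu
  have hb : Base G X K B m k := by rcases h with h | h <;> exact h.toBase
  have huK : u ∉ K := fun hk => hu.2 (hb.whole.clique_sub u hk)
  have hfl : (flat ((p.1, e1 ++ u :: e2) :: W)).Perm (u :: flat (p :: W)) := by
    simp only [flat_cons, he, List.append_assoc, List.cons_append]
    exact (List.Perm.cons _ List.perm_middle).trans (List.Perm.swap _ _ _)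
  have hB' : Whole G X K ((p.1, e1 ++ u :: e2) :: W) := by
    refine ⟨⟨by simp, fun r hr => ?_, fun r hr x hx => ?_, ?_, fun r hr => ?_⟩, ?_⟩
    · rcases List.mem_cons.1 hr with rfl | hr
      · exact hC.mem p (by simp)
      · exact hC.mem r (by simp [hr])
    · rcases List.mem_cons.1 hr with rfl | hr
      · simp only [List.mem_append, List.mem_cons] at hx
        have hmem : x ∈ e1 ++ e2 → x ∈ X ∧ x ∉ K := fun hx' => hC.ear p (by simp) x (he ▸ hx')
        rcases hx with hx | rfl | hx
        · exact hmem (by simp [hx])
        · exact ⟨hu.1, huK⟩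
        · exact hmem (by simp [hx])
      · exact hC.ear r (by simp [hr]) x hx
    · rw [hfl.nodup_iff, List.nodup_cons]
      exact ⟨fun hm => hu.2 (hperm.subset hm), hC.nd⟩
    · simp only [List.head?_cons, Option.some.injEq] at hr
      subst hr
      have hok := hC.ok p rfl
      refine ⟨?_, hok.2⟩
      have h0 := hok.1
      rw [he, List.append_assoc, ← List.cons_append, List.isChain_append] at h0
      show (p.1 :: ((e1 ++ u :: e2) ++ [fst W p.1])).IsChain G.Adj
      rw [List.append_assoc, ← List.cons_append, List.isChain_append]
      refine ⟨h0.1, ?_, ?_⟩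
      · rw [List.cons_append, List.isChain_cons]
        exact ⟨h2, h0.2.1⟩
      · intro x hx y hy
        simp only [List.cons_append, List.head?_cons, Option.mem_some_iff] at hy
        subst hy
        rw [List.getLast?_eq_some_getLast (List.cons_ne_nil _ _), Option.mem_some_iff] at hx
        exact hx ▸ h1.symm
    · have := hC.len
      simpa using this
  have hL : (flat ((p.1, e1 ++ u :: e2) :: W)).length = (flat B).length + 1 := by
    rw [hfl.length_eq, List.length_cons, hperm.length_eq]
  rcases h with h | h
  · have := h.max _ hB' (by omega)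
    have := h.short
    omega
  · -- drop a double elsewhere
    have hst : StateM G X K (p :: W) m k :=
      StateM.mk (h.toBase.perm hC) (by rw [hperm.length_eq, h.long]) h.five
    have hone := perm_sz_ne_one hst
    obtain ⟨i1, i2⟩ := zeros_count _ hone
    have hcov := fz_cover (sz (p :: W))
    rw [hst.free_zero] at hcov
    obtain ⟨r, hr, hr2⟩ : ∃ r ∈ W, r.2.length = 2 := by
      by_contra hcon
      push Not at hcon
      have h3 : ∀ l : List (Blk V), (∀ r ∈ l, r.2.length ≠ 2 ∧ r.2.length ≠ 1) →
          3 * nz (sz l) ≤ (sz l).sum := by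
        intro l hl
        induction l with
        | nil => simp [sz, nz]
        | cons r l ih =>
          have := hl r (by simp)
          have := ih fun r' hr' => hl r' (List.mem_cons_of_mem _ hr')
          simp only [sz, nz, List.map_cons, List.countP_cons, List.sum_cons,
            decide_eq_true_eq] at this ⊢
          split_ifs <;> omega
      have := h3 W fun r hr => ⟨hcon r hr, hone _ (by simp [sz]; exact Or.inr ⟨_, _, hr, rfl⟩)⟩
      have := hone p.2.length (by simp [sz])
      have := hst.long
      have := length_flat (p :: W)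
      have := hC.len
      have := h.hq
      have := h.card7
      have := h.five
      have := h.hm
      have := h.hw
      simp only [sz, nz, List.map_cons, List.countP_cons, List.sum_cons, List.length_cons,
        List.length_map, decide_eq_true_eq] at *
      split_ifs at * <;> omega
    obtain ⟨A, C, rfl⟩ := List.append_of_mem hr
    have hdr : List.Forall₂ Dropped ((p.1, e1 ++ u :: e2) :: (A ++ r :: C))
        ((p.1, e1 ++ u :: e2) :: (A ++ (r.1, []) :: C)) := by
      have hrefl : ∀ l : List (Blk V), List.Forall₂ Dropped l l := fun l =>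
        List.forall₂_same.2 fun x _ => ⟨rfl, Or.inl rfl⟩
      exact List.Forall₂.cons ⟨rfl, Or.inl rfl⟩
        (List.rel_append (hrefl A) (List.Forall₂.cons ⟨rfl, Or.inr rfl⟩ (hrefl C)))
    have hk := hB'.toKC.drop h.hK (by simp; omega) hdr
    refine h.cx.noc ((congrArg (HasCyc G) ?_).mp hk.hasCyc)
    have hlong := h.long
    simp only [length_flat, sz, List.map_cons, List.map_append, List.sum_cons, List.sum_append,
      List.length_cons, List.length_append, hr2, List.length_nil] at hL hlong ⊢
    omega

/-- Roots not adjacent to `u` next to each other. -/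
lemma pc_before (f : V → ℕ) : ∀ (U : List (Blk V)) (rest : List V),
    (∀ r ∈ U, f (lastV r) = 0) → (before U).length ≤ pc 1 ((flat U ++ rest).map f) 1
  | [], _, _ => by simp [before]
  | [q], _, _ => by simp [before]
  | q :: r :: U, rest, h => by
    have ih := pc_before f (r :: U) rest fun x hx => h x (List.mem_cons_of_mem _ hx)
    obtain ⟨l0, hl0⟩ : ∃ l0, (q.1 :: q.2).map f = l0 ++ [0] := by
      refine ⟨((q.1 :: q.2).dropLast).map f, ?_⟩
      rw [← h q List.mem_cons_self, ← List.map_singleton (f := f), ← List.map_append]
      exact congrArg _ (List.dropLast_append_getLast _).symm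
    have e : (flat (q :: r :: U) ++ rest).map f =
        l0 ++ 0 :: f r.1 :: (r.2 ++ (flat U ++ rest)).map f := by
      rw [flat_cons, ← List.cons_append, List.append_assoc, List.map_append, hl0]
      simp
    rw [e, pc_append]
    simp only [flat_cons, List.cons_append, List.map_cons, List.append_assoc, pc] at ih ⊢
    simp only [Nat.one_ne_zero, false_and, if_false, Nat.zero_add] at ih
    rw [before]
    split_ifs with hr hr' <;> (try simp only [List.length_cons]) <;> try omega
    exfalso
    refine hr' ⟨trivial, ?_⟩
    have := h r (by simp)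
    simpa [lastV, hr] using this

theorem outDeg : OutDeg := by
  intro V G X K B m k a u h ha hu hne
  have hb : Base G X K B m k := by rcases h with h | h <;> exact h.toBase
  obtain ⟨U, p, hC, hpa, hflat, -, hroot⟩ := hb.whole.root_last ha
  set R : V → V → Prop := fun x y => ¬ (G.Adj u x ∧ G.Adj u y) with hR
  obtain ⟨w, hw⟩ : ∃ w, w = fst (U ++ [p]) p.1 := ⟨_, rfl⟩
  have okr : ∀ A W, U ++ [p] = A ++ W → OKR R W w := by
    intro A W
    induction W generalizing A with
    | nil => intro _; trivial
    | cons r W ih =>
      intro e
      refine ⟨?_, ih (A ++ [r]) (by rw [e]; simp)⟩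
      have hrot : Whole G X K (r :: (W ++ A)) := by
        have := Whole.rotate (A := A) (C := r :: W) (e ▸ hC)
        simpa using this
      have hp : (flat (r :: (W ++ A))).Perm (flat B) := by
        refine List.Perm.trans ?_ (e ▸ hflat)
        rw [List.perm_iff_count]
        intro x
        simp only [flat_append, flat_cons, List.count_append, List.count_cons]
        omega
      have := no_consecutive h hu hrot hp
      have hz : fst (W ++ A) r.1 = fst W w := by
        rcases W with _ | ⟨c, W⟩
        · rw [hw, e]
          rcases A with _ | ⟨c, A⟩ <;> rfl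
        · rfl
      rwa [hz] at this
  have hchain := okr_chain (okr [] (U ++ [p]) rfl)
  set f : V → ℕ := fun x => if G.Adj u x then 1 else 0 with hf
  obtain ⟨v, t, hvt⟩ : ∃ v t, flat (U ++ [p]) = v :: t := by
    rcases U with _ | ⟨c, U⟩ <;> simp
  have hwv : w = v := by
    rw [hw]
    rcases U with _ | ⟨c, U⟩ <;> simp [fst] at hvt ⊢ <;> exact hvt.1
  have hle1 : ∀ x, f x ≤ 1 := fun x => by simp only [hf]; split_ifs <;> omega
  have hones := pc_ones (f v) (t.map f) (f v) (by
      intro x hx
      rw [← List.map_cons, List.mem_map] at hx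
      obtain ⟨y, -, rfl⟩ := hx
      exact hle1 y) (hle1 v) (by
      rw [← List.map_singleton (f := f), ← List.map_append, ← List.map_cons, List.isChain_map]
      rw [hvt, hwv, List.cons_append] at hchain
      refine hchain.imp fun x y hxy => ?_
      simp only [hR] at hxy
      simp only [hf]
      split_ifs <;> first | omega | (exact absurd ⟨‹_›, ‹_›⟩ hxy))
  have hcount : ((flat B).toFinset.filter (G.Adj u)).card = ((v :: t).map f).sum := by
    rw [← List.toFinset_eq_of_perm _ _ hflat, hvt, Finset.card_filter, List.sum_toFinset]
    exact hvt ▸ hC.nd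
  simp only [List.map_cons, List.sum_cons] at hcount
  have hlen := hflat.length_eq
  rw [hvt, List.length_cons] at hlen
  rw [List.length_map] at hones
  rcases h with h | h
  · have := h.short
    omega
  · obtain ⟨c2, -⟩ := h.before_count hC hflat
    rcases c2 with c2 | ⟨-, hm10, hK5, hall⟩
    swap
    · -- block by block
      have hroot0 : ∀ r ∈ U, f (lastV r) = 0 := fun r hr => by
        have hmem : lastV r ∈ roots B := by
          rw [← hroot]
          exact List.mem_toFinset.2 (List.mem_map.2 ⟨r, by simp [hr], rfl⟩)
        have hnea : lastV r ≠ a := by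
          intro e
          have := hC.lastV_nodup
          rw [List.map_append, List.nodup_append'] at this
          exact this.2.2 (List.mem_map.2 ⟨r, hr, rfl⟩) (by simp [e, hpa])
        simp [hf, hne _ hmem hnea]
      have hpair : ∀ r ∈ U ++ [p], ∀ x y l, r.1 :: r.2 = x :: y :: l → f x + f y ≤ 1 := by
        intro r hr x y l e
        obtain ⟨A, W, hAW⟩ := List.append_of_mem hr
        have h1 := (okr A (r :: W) hAW).1
        rw [← List.cons_append, e, List.cons_append, List.cons_append,
          List.isChain_cons_cons] at h1
        have hxy := h1.1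
        simp only [hR] at hxy
        simp only [hf]
        split_ifs <;> first | omega | (exact absurd ⟨‹_›, ‹_›⟩ hxy)
      have hblk : ∀ r ∈ U, 2 * ((r.1 :: r.2).map f).sum ≤ r.2.length := by
        intro r hr
        obtain ⟨c, e⟩ := r
        have h0 := hroot0 _ hr
        rcases hall _ (List.mem_append_left _ hr) with hl | hl
        · obtain rfl := List.eq_nil_of_length_eq_zero hl
          simp [lastV] at h0
          simp [h0]
        · obtain ⟨y, y', rfl⟩ := List.length_eq_two.1 hl
          simp [lastV] at h0
          have := hpair _ (List.mem_append_left _ hr) c y [y'] rfl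
          simp [h0]
          omega
      have hU : ∀ W : List (Blk V), (∀ r ∈ W, 2 * ((r.1 :: r.2).map f).sum ≤ r.2.length) →
          2 * ((flat W).map f).sum ≤ (sz W).sum := by
        intro W hW
        induction W with
        | nil => simp
        | cons r W ih =>
          have := hW r (by simp)
          have := ih fun r' hr' => hW r' (List.mem_cons_of_mem _ hr')
          simp only [flat_cons, sz, List.map_cons, List.map_append, List.sum_cons,
            List.sum_append] at *
          omega
      have hU' := hU U hblk
      have hp : 2 * ((p.1 :: p.2).map f).sum ≤ p.2.length + 2 := by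
        obtain ⟨c, e⟩ := p
        rcases hall _ (List.mem_append_right _ (List.mem_singleton_self _)) with hl | hl
        · obtain rfl := List.eq_nil_of_length_eq_zero hl
          have := hle1 c
          simp
          omega
        · obtain ⟨y, y', rfl⟩ := List.length_eq_two.1 hl
          have := hpair _ (List.mem_append_right _ (List.mem_singleton_self _)) c y [y'] rfl
          have := hle1 y'
          simp
          omega
      have hsum : ((flat (U ++ [p])).map f).sum =
          ((flat U).map f).sum + ((p.1 :: p.2).map f).sum := by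
        simp [flat_append, List.sum_append]
      have hlong := h.long
      have hl2 := length_flat (U ++ [p])
      have := hC.len
      rw [hflat.length_eq] at hl2
      rw [hvt] at hsum
      simp only [sz, List.map_append, List.map_cons, List.map_nil, List.sum_append, List.sum_cons,
        List.sum_nil] at hl2 hU'
      simp only [List.map_cons, List.sum_cons] at hsum hp
      omega
    have hb2 : (before U).length ≤ pc (f v) (t.map f) (f v) := by
      refine le_trans ?_ (le_trans (fz_split ((v :: t).map f)) (le_of_eq (by simp [fz])))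
      rw [← hvt, flat_append]
      refine pc_before f U _ fun r hr => ?_
      have hmem : lastV r ∈ roots B := by
        have hroots : lastV r ∈ roots (U ++ [p]) :=
          List.mem_toFinset.2 (List.mem_map.2 ⟨r, by simp [hr], rfl⟩)
        rwa [hroot] at hroots
      have hnea : lastV r ≠ a := by
        intro e
        have := hC.lastV_nodup
        rw [List.map_append, List.nodup_append'] at this
        exact this.2.2 (List.mem_map.2 ⟨r, hr, rfl⟩) (by simp [e, hpa])
      simp [hf, hne _ hmem hnea]
    have := h.long
    omega

end Vale.Agent.P048.Full.NC
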