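import Vale.Agent.P048.Full.NC.Fail
import Vale.Agent.P048.Full.NC.Gaps
import Vale.Agent.P048.Full.NC.Balls
import Vale.Agent.P048.Full.NC.MDeg
import Vale.Agent.P048.Full.NC.EightM
import Vale.Agent.P048.Full.Small.High
import Vale.Agent.P048.CliqueUp

/-!
P048, the clique step assembled: for `m ≥ 8` a minimal counterexample has no clique on `m / 2`
vertices, rounded up.
-/

open scoped Classical

namespace Vale.Agent.P048.Full.NC

universe u

variable {V : Type u} {G : SimpleGraph V} {X K : Finset V} {m k : ℕ}

/-- A longest suitable cycle through a clique gives one of the two states. -/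
lemma exists_state (hC : Cx G m k X) (hm : 8 ≤ m) (hw : 14 ≤ m ∨ m ≤ 2 * K.card) (hKX : K ⊆ X)
    (hK : G.IsClique (K : Set V))
    (hfive : ∀ B, Whole G X K B → (flat B).length = m + 1 → 5 ≤ K.card)
    (hq : m ≤ 2 * K.card + 1) (hs : K.card ≤ k) (hk : k + 1 ≤ m) :
    ∃ B, StateN G X K B m k ∨ StateM G X K B m k := by
  by_cases hM : ∃ B, Whole G X K B ∧ (flat B).length = m + 1
  · obtain ⟨B, hB, hl⟩ := hM
    exact ⟨B, Or.inr ⟨⟨hC, hm, hw, hKX, hK, hq, hs, hk, hB⟩, hl, hfive B hB hl⟩⟩
  -- the clique alone is a cycle
  have h0 : Whole G X K (K.toList.map fun x => (x, [])) := by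
    have hfl : flat (K.toList.map fun x => ((x, []) : Blk V)) = K.toList := by
      induction K.toList with
      | nil => rfl
      | cons a l ih => simp [ih]
    refine ⟨⟨by simp; intro h; simp [h] at hq; omega, ?_, ?_, hfl.symm ▸ Finset.nodup_toList K, ?_⟩,
      by simp⟩
    · simp
    · simp
    · intro p hp
      have key : ∀ l : List V, (l ++ [p.1]).IsChain G.Adj →
          OKto G (l.map fun x => ((x, []) : Blk V)) p.1 := by
        intro l
        induction l with
        | nil => intro _; exact trivial
        | cons a l ih =>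
          intro h
          rw [List.cons_append, List.isChain_cons] at h
          refine ⟨?_, ih h.2⟩
          simp only [List.nil_append, List.isChain_cons_cons, List.isChain_singleton, and_true]
          exact h.1 _ (by cases l <;> simp [fst])
      apply key
      rw [List.head?_map] at hp
      rcases hl : K.toList with _ | ⟨a, l⟩
      · simp [hl] at hp
      · rw [hl] at hp
        simp at hp
        subst hp
        have hn : (a :: l).Nodup := hl ▸ Finset.nodup_toList K
        rw [List.isChain_append]
        refine ⟨clique_chain hK hn (fun x hx => by rw [← hl] at hx; simpa using hx),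
          List.isChain_singleton _, fun x hx y hy => ?_⟩
        simp at hy
        subst hy
        have hne : l ≠ [] := by
          intro e
          have := congrArg List.length hl
          simp [e] at this
          omega
        rw [List.getLast?_cons, List.getLast?_eq_some_getLast hne] at hx
        simp at hx
        subst hx
        have hmem : l.getLast hne ∈ a :: l := List.mem_cons_of_mem _ (List.getLast_mem _)
        rw [List.nodup_cons] at hn
        refine hK ?_ ?_ fun e => hn.1 (e ▸ List.getLast_mem _)
        · rw [← hl] at hmem; simpa using hmem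
        · have : a ∈ K.toList := by rw [hl]; simp
          simpa using this
  have hfl : flat (K.toList.map fun x => ((x, []) : Blk V)) = K.toList := by
    induction K.toList with
    | nil => rfl
    | cons a l ih => simp [ih]
  obtain ⟨B0, hB0, hB0l⟩ : ∃ B, Whole G X K B ∧ (flat B).length = K.card :=
    ⟨_, h0, by rw [hfl, Finset.length_toList]⟩
  obtain ⟨L, ⟨hL, B, hB, hBL⟩, hmaxL⟩ : ∃ L, (L < m ∧ ∃ B, Whole G X K B ∧ (flat B).length = L) ∧
      ∀ L', L' < m ∧ (∃ B, Whole G X K B ∧ (flat B).length = L') → L' ≤ L := by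
    let S := (Finset.range m).filter fun L => ∃ B, Whole G X K B ∧ (flat B).length = L
    have hS : K.card ∈ S := Finset.mem_filter.2 ⟨Finset.mem_range.2 (by omega), B0, hB0, hB0l⟩
    refine ⟨S.max' ⟨_, hS⟩, ?_, fun L' hL' => Finset.le_max' S L'
      (Finset.mem_filter.2 ⟨Finset.mem_range.2 hL'.1, hL'.2⟩)⟩
    have := Finset.mem_filter.1 (S.max'_mem ⟨_, hS⟩)
    exact ⟨Finset.mem_range.1 this.1, this.2⟩
  refine ⟨B, Or.inl ⟨⟨hC, hm, hw, hKX, hK, hq, hs, hk, hB⟩, by omega, fun B' hB' hlt => ?_⟩⟩
  have h1 : (flat B').length ≠ m := hB'.no_len hC.noc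
  have h2 : (flat B').length ≠ m + 1 := fun e => hM ⟨B', hB', e⟩
  by_contra hle
  have := hmaxL _ ⟨by omega, B', hB', rfl⟩
  omega

/-- No clique has at least `m / 2` vertices, rounded up. -/
theorem no_big_clique (hC : Cx G m k X) (hm : 8 ≤ m) (hk : k + 1 ≤ m) (hKX : K ⊆ X)
    (hK : G.IsClique (K : Set V)) (hq : m ≤ 2 * K.card) : False := by
  obtain ⟨X', hKX', hX'X, hX'c⟩ := Finset.exists_subsuperset_card_eq hKX (n := (m - 1) * k + 1)
    (by
      have h1 : K.card ≤ k := by
        by_contra hlt
        obtain ⟨T, hT, hTc⟩ := Finset.exists_subset_card_eq (show max (k + 1) 3 ≤ K.card by omega)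
        rcases Nat.eq_zero_or_pos k with rfl | hk1
        · have := hC.alp
          have := one_le_alpha (G := G) (Y := X) (Finset.card_pos.1 (by have := hC.big; omega))
          omega
        exact hC.no_clique_up hk1 (hT.trans hKX) (hK.subset (Finset.coe_subset.2 hT)) (by omega)
          (by omega) (by omega)
      calc K.card ≤ k := h1
        _ ≤ (m - 1) * k + 1 := by
          have := Nat.le_mul_of_pos_left k (show 0 < m - 1 by omega)
          omega)
    (by have := hC.big; omega)
  replace hC : Cx G m k X' := ⟨hC.noc, hC.ih, (alpha_mono hX'X).trans hC.alp, by omega⟩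
  -- a largest clique
  obtain ⟨M, hMm, hmax'⟩ := Finset.exists_max_image
    (X'.powerset.filter fun T : Finset V => G.IsClique (T : Set V)) Finset.card
    ⟨∅, by simp⟩
  simp only [Finset.mem_filter, Finset.mem_powerset] at hMm hmax'
  have hmax : ∀ T, T ⊆ X' → G.IsClique (T : Set V) → T.card ≤ M.card :=
    fun T hT hTc => hmax' T ⟨hT, hTc⟩
  have hKM := hmax K hKX' hK
  have hqM : m ≤ 2 * M.card := by omega
  have hk1 : 1 ≤ k := by
    by_contra hk0
    obtain rfl : k = 0 := by omega
    have := hC.alp
    have := one_le_alpha (G := G) (Y := X') (Finset.card_pos.1 (by omega))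
    omega
  have hMk : M.card ≤ k := by
    by_contra hlt
    obtain ⟨T, hT, hTc⟩ := Finset.exists_subset_card_eq (show max (k + 1) 3 ≤ M.card by omega)
    exact hC.no_clique_up hk1 (hT.trans hMm.1) (hMm.2.subset (Finset.coe_subset.2 hT)) (by omega)
      (by omega) (by omega)
  have hs2 : M.card + 2 ≤ m := by
    by_contra hlt
    exact Small.no_clique_top (s := M.card)
      ⟨hC, hMm.1, hMm.2, rfl, fun T hT hTc => Nat.lt_succ_of_le (hmax T hT hTc)⟩
      (by omega) (by omega) (by omega) hX'c
  obtain ⟨B, hB⟩ := exists_state hC hm (by omega) hMm.1 hMm.2 (fun B' hB' hl => by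
    by_contra hlt
    obtain rfl : m = 8 := by omega
    exact eight_M hC (by omega) hMm.1 hMm.2 (by omega)
      (fun T hT hTc => (hmax T hT hTc).trans (by omega)) hB' hl) (by omega) hMk hk
  have hsep : ∀ a ∈ roots B, ∀ b ∈ roots B, a ≠ b → Sep G (off X' B) a b := fun a ha b hb hab =>
    hB.elim (fun h => h.sep gapThree hmax ha hb hab) fun h => h.sep gapFull ha hb hab
  have hne : ∀ a ∈ roots B, (nb G a (off X' B)).Nonempty := fun a ha => state_nb_pos mDeg hB ha
  obtain ⟨hbad, hbad'⟩ := bad_balls mDeg outDeg hB hs2 hmax hsep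
  have hW : Whole G X' M B := hB.elim (fun h => h.whole) fun h => h.whole
  have hR := hW.card_roots
  have halpha : alpha G (off X' B) ≤ k := (alpha_mono Finset.sdiff_subset).trans hC.alp
  refine ballCount V G (off X' B) (roots B) k halpha hne hsep ?_
  rcases Finset.eq_empty_or_nonempty
      ((roots B).filter fun a => G.IsClique (ball2 G (off X' B) a : Set V)) with h | h
  · rw [h, Finset.card_empty, hR]
    omega
  · have := hbad' h
    rw [hR]
    omega

end Vale.Agent.P048.Full.NC
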