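import Vale.Agent.P048.Full.NC.Join
import Vale.Agent.P048.Clique

/-!
P048, the clique step: the roots are separated outside the cycle, both when it is the longest one
below `m` (none having `m + 1` vertices) and when it has `m + 1` vertices.
-/

open scoped Classical

namespace Vale.Agent.P048.Full.NC

universe u

variable {V : Type u} {G : SimpleGraph V} {X K : Finset V} {B : List (Blk V)}

/-- The roots. -/
noncomputable def roots (B : List (Blk V)) : Finset V := (B.map lastV).toFinset

/-- The vertices off the cycle. -/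
noncomputable def off (X : Finset V) (B : List (Blk V)) : Finset V := X \ (flat B).toFinset

lemma KC.lastV_nodup (h : KC G X K B) : (B.map lastV).Nodup := by
  suffices ∀ B : List (Blk V), (B.map lastV).Sublist (flat B) from (this B).nodup h.nd
  intro B
  induction B with
  | nil => simp
  | cons p B ih =>
    rw [List.map_cons, flat_cons, ← List.cons_append, ← List.singleton_append]
    exact (List.singleton_sublist.2 (lastV_mem p)).append ih

lemma Whole.card_roots (h : Whole G X K B) : (roots B).card = K.card := by
  rw [roots, List.toFinset_card_of_nodup h.lastV_nodup, List.length_map, h.len]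

lemma fst_mem_flat {p : Blk V} (hp : p ∈ B) : p.1 ∈ flat B :=
  List.mem_flatMap.2 ⟨p, hp, List.mem_cons_self⟩

lemma Whole.clique_sub (h : Whole G X K B) : ∀ x ∈ K, x ∈ flat B := by
  intro x hx
  have hs : (B.map Prod.fst).toFinset = K := by
    refine Finset.eq_of_subset_of_card_le (fun y hy => ?_) ?_
    · rw [List.mem_toFinset, List.mem_map] at hy
      obtain ⟨p, hp, rfl⟩ := hy
      exact h.mem p hp
    · rw [List.toFinset_card_of_nodup h.fst_inj, List.length_map, h.len]
  rw [← hs, List.mem_toFinset, List.mem_map] at hx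
  obtain ⟨p, hp, rfl⟩ := hx
  exact fst_mem_flat hp

lemma Whole.roots_sub (h : Whole G X K B) (hKX : K ⊆ X) {a : V} (ha : a ∈ roots B) :
    a ∈ X ∧ a ∈ flat B := by
  rw [roots, List.mem_toFinset, List.mem_map] at ha
  obtain ⟨p, hp, rfl⟩ := ha
  refine ⟨?_, List.mem_flatMap.2 ⟨p, hp, lastV_mem p⟩⟩
  rcases List.mem_cons.1 (lastV_mem p) with e | e
  · rw [e]; exact hKX (h.mem p hp)
  · exact (h.ear p hp _ e).1

lemma Whole.rotate {A C : List (Blk V)} (h : Whole G X K (A ++ C)) : Whole G X K (C ++ A) :=
  ⟨h.toKC.rotate, by rw [← h.len, List.length_append, List.length_append, Nat.add_comm]⟩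

/-- Two roots in standard position. -/
lemma Whole.split (h : Whole G X K B) {a b : V} (ha : a ∈ roots B) (hb : b ∈ roots B)
    (hab : a ≠ b) : ∃ P0 p Q0 q, Whole G X K (P0 ++ p :: (Q0 ++ [q])) ∧
      (flat (P0 ++ p :: (Q0 ++ [q]))).Perm (flat B) ∧
      (sz (P0 ++ p :: (Q0 ++ [q]))).Perm (sz B) ∧ lastV p = a ∧ lastV q = b := by
  rw [roots, List.mem_toFinset, List.mem_map] at ha hb
  obtain ⟨p, hp, hpa⟩ := ha
  obtain ⟨q, hq, hqb⟩ := hb
  obtain ⟨U, W, rfl⟩ := List.append_of_mem hq
  have h' : Whole G X K ((W ++ U) ++ [q]) := by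
    have := Whole.rotate (A := U ++ [q]) (C := W) (by simpa using h)
    simpa using this
  have hp' : p ∈ W ++ U := by
    simp only [List.mem_append, List.mem_cons] at hp ⊢
    rcases hp with hp | hp | hp
    · exact Or.inr hp
    · exact absurd (hpa ▸ hp ▸ hqb) hab
    · exact Or.inl hp
  obtain ⟨P0, Q0, e⟩ := List.append_of_mem hp'
  have e' : (W ++ U) ++ [q] = P0 ++ p :: (Q0 ++ [q]) := by rw [e]; simp
  refine ⟨P0, p, Q0, q, e' ▸ h', ?_, ?_, hpa, hqb⟩
  · rw [← e', List.perm_iff_count]
    intro x
    simp only [flat_append, flat_cons, flat_nil, List.count_append, List.count_cons, List.count_nil]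
    omega
  · rw [← e', List.perm_iff_count]
    intro x
    simp only [sz, List.map_append, List.map_cons, List.map_nil, List.count_append,
      List.count_cons, List.count_nil]
    omega

lemma off_perm {B' : List (Blk V)} (h : (flat B').Perm (flat B)) : off X B' = off X B := by
  rw [off, off, List.toFinset_eq_of_perm _ _ h]

/-- A link outside gives a longer cycle through all of `K`. -/
lemma Whole.linked (hK : G.IsClique (K : Set V)) {P0 Q0 : List (Blk V)} {p q : Blk V}
    (h : Whole G X K (P0 ++ p :: (Q0 ++ [q]))) {R : List V}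
    (hl : Link G (off X (P0 ++ p :: (Q0 ++ [q]))) (lastV p) R (lastV q)) :
    ∃ B', Whole G X K B' ∧
      sz B' = sz P0 ++ (p.2.length + R.length + q.2.length) :: ((sz Q0).reverse ++ [0]) ∧
      (flat B').length = (flat (P0 ++ p :: (Q0 ++ [q]))).length + R.length := by
  have hRX : ∀ x ∈ R, x ∈ X ∧ x ∉ K ∧ x ∉ flat (P0 ++ p :: (Q0 ++ [q])) := fun x hx => by
    have h' := hl.2.1 x hx
    rw [off, Finset.mem_sdiff, List.mem_toFinset] at h'
    exact ⟨h'.1, fun hK' => h'.2 (h.clique_sub x hK'), h'.2⟩
  obtain ⟨B', -, h1, h2, h3⟩ := h.join hK hl.1 hRX hl.2.2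
  exact ⟨B', h1, h2, by rw [h3.length_eq, List.length_append]⟩

/-- A root adjacent to everything on a cycle with `m - 1` vertices is not linked to another. -/
lemma Whole.universal (hK : G.IsClique (K : Set V)) {P0 Q0 : List (Blk V)} {p q : Blk V}
    (h : Whole G X K (P0 ++ p :: (Q0 ++ [q]))) {R : List V}
    (hl : Link G (off X (P0 ++ p :: (Q0 ++ [q]))) (lastV p) R (lastV q)) {m : ℕ} (hm : 3 ≤ m)
    (hR1 : 1 ≤ R.length) (hR : R.length + 2 ≤ m)
    (hlen : (flat (P0 ++ p :: (Q0 ++ [q]))).length + 1 = m)
    (huniv : ∀ x ∈ flat (P0 ++ p :: (Q0 ++ [q])), x ≠ lastV p → G.Adj (lastV p) x) :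
    HasCyc G m := by
  -- the join written out
  set N : Blk V := (p.1, p.2 ++ R ++ q.2.reverse)
  have hdl : (p.1 :: p.2).dropLast ++ [lastV p] = p.1 :: p.2 := List.dropLast_append_getLast _
  set U : List V := flat P0 ++ (p.1 :: p.2).dropLast
  set W : List V := R ++ (q.2.reverse ++ flat (rv q.1 Q0.reverse))
  have hRX : ∀ x ∈ R, x ∈ X ∧ x ∉ K ∧ x ∉ flat (P0 ++ p :: (Q0 ++ [q])) := fun x hx => by
    have h' := hl.2.1 x hx
    rw [off, Finset.mem_sdiff, List.mem_toFinset] at h'
    exact ⟨h'.1, fun hK' => h'.2 (h.clique_sub x hK'), h'.2⟩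
  have hq : (flat (rv q.1 Q0.reverse)).Perm (q.1 :: flat Q0) :=
    (flat_rv _ _).trans (List.Perm.cons _ ((List.reverse_perm _).flatMap_right _))
  have hC : (lastV p :: (W ++ U)).Perm (flat (P0 ++ p :: (Q0 ++ [q])) ++ R) := by
    rw [List.perm_iff_count]
    intro x
    have h1 := List.perm_iff_count.1 hq x
    have h2 := congrArg (List.count x) hdl
    simp only [W, U, flat_append, flat_cons, flat_nil, List.count_append, List.count_cons,
      List.count_nil, List.count_reverse] at h1 h2 ⊢
    omega
  have hnd : (lastV p :: (W ++ U)).Nodup := by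
    rw [hC.nodup_iff, List.nodup_append']
    exact ⟨h.nd, hl.1, fun x hx hx' => (hRX x hx').2.2 hx⟩
  have hlenW : (lastV p :: (W ++ U)).length = m - 1 + R.length := by
    rw [hC.length_eq, List.length_append]; omega
  simp only [List.length_cons, List.length_append] at hlenW
  -- the chain along the joined cycle from the universal root
  have hchain : (lastV p :: W).IsChain G.Adj ∧ (U ++ [lastV p]).IsChain G.Adj ∧
      ∀ x ∈ W.getLast?, ∀ y ∈ U.head?, G.Adj x y := by
    obtain ⟨B3, hB3eq, hB3, -, -⟩ := h.join hK hl.1 hRX hl.2.2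
    obtain ⟨w, t, hwt⟩ := List.exists_cons_of_ne_nil hB3.ne
    have hch := okto_chain (hB3.ok w (by rw [hwt]; rfl))
    have hw : ∀ y ∈ U.head?, y = w.1 := by
      intro y hy
      rw [hB3eq] at hwt
      simp only [U] at hy
      rcases P0 with _ | ⟨r, P0⟩
      · simp only [List.nil_append, List.cons.injEq] at hwt
        rw [← hwt.1]
        simp only [flat_nil, List.nil_append] at hy
        rcases hp2 : p.2 with _ | ⟨c, e⟩
        · simp [hp2] at hy
        · simp [hp2] at hy; exact hy.symm
      · simp only [List.cons_append, List.cons.injEq] at hwt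
        simp [← hwt.1] at hy ⊢; exact hy.symm
    have hfl : flat B3 = U ++ lastV p :: W := by
      rw [hB3eq]
      simp only [U, W, flat_append, flat_cons, List.append_assoc]
      conv_rhs => rw [← List.singleton_append (x := lastV p), ← List.append_assoc _ [lastV p], hdl]
      simp
    rw [hfl, List.append_assoc, List.isChain_append] at hch
    obtain ⟨hU, hW, hUW⟩ := hch
    rw [List.cons_append, ← List.cons_append, List.isChain_append] at hW
    refine ⟨hW.1, ?_, fun x hx y hy => ?_⟩
    · rw [List.isChain_append]
      exact ⟨hU, List.isChain_singleton _, fun x hx y hy => hUW x hx y (by simpa using hy)⟩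
    · rw [hw y hy]
      refine hW.2.2 x ?_ w.1 (by simp)
      rw [Option.mem_def] at hx ⊢
      rw [List.getLast?_cons]
      simp [hx]
  have hall : (lastV p :: (W ++ U)).IsChain G.Adj := by
    rw [← List.cons_append, List.isChain_append]
    refine ⟨hchain.1, hchain.2.1.left_of_append, fun x hx y hy => hchain.2.2 x ?_ y hy⟩
    rw [List.getLast?_cons] at hx
    rcases hW : W.getLast? with _ | c
    · rw [List.getLast?_eq_none_iff] at hW
      simp [W] at hW
      simp [hW.1] at hR1
    · simpa [hW] using hx
  have hlt : ((lastV p :: (W ++ U)).take m).length = m := by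
    rw [List.length_take, List.length_cons, List.length_append]; omega
  refine (congrArg (HasCyc G) hlt).mp
    (hasCyc_of_list (h := lastV p) ?_ (List.Sublist.nodup (List.take_sublist _ _) hnd) ?_)
  · cases m with
    | zero => omega
    | succ => simp
  · rw [List.isChain_append]
    refine ⟨hall.take _, List.isChain_singleton _, fun x hx y hy => ?_⟩
    simp only [List.head?_cons, Option.mem_some_iff] at hy
    subst hy
    rw [Option.mem_def, List.getLast?_eq_getElem?, List.length_take, List.length_cons,
      List.length_append, min_eq_left (by omega), List.getElem?_take_of_lt (by omega),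
      List.getElem?_eq_getElem (by simp; omega), Option.some.injEq] at hx
    subst hx
    have hne : (lastV p :: (W ++ U))[m - 1]'(by simp; omega) ≠ lastV p := fun e => by
      have := hnd.getElem_inj_iff (i := m - 1) (j := 0) (hi := by simp; omega) (hj := by simp)
      simp at this
      have := this.1 (by simpa using e)
      omega
    refine (huniv _ ?_ hne).symm
    have hmem := hC.subset (List.getElem_mem (l := lastV p :: (W ++ U)) (n := m - 1)
      (by simp; omega))
    rcases List.mem_append.1 hmem with h' | h'
    · exact h'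
    · exfalso
      obtain ⟨i, hi, e⟩ := List.mem_iff_getElem.1 h'
      have e2 : (lastV p :: (W ++ U))[i + 1]'(by simp; omega) = R[i] := by
        simp [W, List.getElem_append_left, hi]
      have := hnd.getElem_inj_iff (i := i + 1) (j := m - 1) (hi := by simp; omega)
        (hj := by simp; omega)
      have := this.1 (e2.trans e)
      omega

end Vale.Agent.P048.Full.NC
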