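import Vale.Agent.P048.Full.NC.Half

/-!
P048, the clique step: the two states of the cycle through the maximum clique, and separation of
the roots in both.
-/

open scoped Classical

namespace Vale.Agent.P048.Full.NC

universe u

variable {V : Type u} {G : SimpleGraph V} {X K : Finset V} {B : List (Blk V)} {m k : ℕ}

/-- The number of non-zero entries. -/
def nz (l : List ℕ) : ℕ := l.countP fun x => decide (x ≠ 0)

lemma pc_cover (a b : ℕ) (l : List ℕ) : l.length + 1 ≤
    pc a l b + 2 * nz l + (if a = 0 then 0 else 1) + (if b = 0 then 0 else 1) := by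
  induction l generalizing a with
  | nil => simp only [List.length_nil, nz, List.countP_nil, pc]; split_ifs <;> omega
  | cons c l ih =>
    have := ih c
    simp only [List.length_cons, nz, List.countP_cons, pc, decide_eq_true_eq] at this ⊢
    split_ifs at this ⊢ <;> omega

lemma fz_cover : ∀ l : List ℕ, l.length ≤ fz l + 2 * nz l
  | [] => by simp
  | a :: l => by
    have := pc_cover a a l
    simp only [List.length_cons, fz, nz, List.countP_cons, decide_eq_true_eq] at this ⊢
    split_ifs at this ⊢ <;> omega

lemma nz_ofFn {s : ℕ} (σ : Fin s → ℕ) :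
    nz (List.ofFn σ) = (Finset.univ.filter fun i => σ i ≠ 0).card := by
  induction s with
  | zero => simp [nz]
  | succ n ih =>
    rw [List.ofFn_succ, nz, List.countP_cons, ← nz, ih, Finset.card_filter, Finset.card_filter,
      Fin.sum_univ_succ, Nat.add_comm]
    simp

/-- Facts common to both states. -/
structure Base (G : SimpleGraph V) (X K : Finset V) (B : List (Blk V)) (m k : ℕ) : Prop where
  cx : Cx G m k X
  hm : 8 ≤ m
  hw : 14 ≤ m ∨ m ≤ 2 * K.card
  hKX : K ⊆ X
  hK : G.IsClique (K : Set V)
  hq : m ≤ 2 * K.card + 1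
  hs : K.card ≤ k
  hk : k + 1 ≤ m
  whole : Whole G X K B

/-- The cycle is longest below `m`, and none has `m + 1` vertices. -/
structure StateN (G : SimpleGraph V) (X K : Finset V) (B : List (Blk V)) (m k : ℕ) : Prop
    extends Base G X K B m k where
  short : (flat B).length < m
  max : ∀ B', Whole G X K B' → (flat B).length < (flat B').length → m + 1 < (flat B').length

/-- The cycle has `m + 1` vertices. -/
structure StateM (G : SimpleGraph V) (X K : Finset V) (B : List (Blk V)) (m k : ℕ) : Prop
    extends Base G X K B m k where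
  long : (flat B).length = m + 1
  five : 5 ≤ K.card

lemma Base.perm (h : Base G X K B m k) {C : List (Blk V)} (hC : Whole G X K C) :
    Base G X K C m k :=
  ⟨h.cx, h.hm, h.hw, h.hKX, h.hK, h.hq, h.hs, h.hk, hC⟩

lemma Base.card7 (h : Base G X K B m k) : 4 ≤ K.card := by
  have := h.hm; have := h.hw; have := h.hq; omega

lemma sz_fn {s : ℕ} (h : B.length = s) : ∃ σ : Fin s → ℕ, sz B = List.ofFn σ := by
  subst h
  exact ⟨fun i => (B[i.1]).2.length, List.ext_getElem (by simp [sz]) fun i h1 h2 => by simp [sz]⟩

lemma Link.symm {Y : Finset V} {a b : V} {P : List V} (h : Link G Y a P b) :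
    Link G Y b P.reverse a := link_symm h

lemma perm_sz_ne_one (h : StateM G X K B m k) : ∀ x ∈ sz B, x ≠ 1 := by
  intro x hx hx1
  subst hx1
  have : NeZero K.card := ⟨by have := h.card7; omega⟩
  have hs : 2 ≤ K.card := by have := h.card7; omega
  obtain ⟨σ, hσ⟩ := sz_fn h.whole.len
  rw [hσ, List.mem_ofFn] at hx
  obtain ⟨i, hi⟩ := hx
  obtain ⟨σ', hσ', B', hB', -, hlen⟩ := h.whole.drop_set h.hK hs rfl {i}
  obtain rfl : σ' = σ := List.ofFn_injective (hσ'.symm.trans hσ)
  refine hB'.no_len h.cx.noc ?_
  have h1 : (flat B).length = K.card + ∑ j, σ' j := by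
    rw [length_flat, hσ, List.sum_ofFn, h.whole.len]
  have h2 : ∑ j, zero σ' {i} j + 1 = ∑ j, σ' j := by
    rw [← Finset.add_sum_erase _ σ' (Finset.mem_univ i),
      ← Finset.add_sum_erase _ (zero σ' {i}) (Finset.mem_univ i), hi,
      Finset.sum_congr rfl (fun j (hj : j ∈ Finset.univ.erase i) =>
        show zero σ' {i} j = σ' j by simp [zero, (Finset.mem_erase.1 hj).1])]
    simp [zero, Nat.add_comm]
  have := h.long
  omega

lemma StateM.free_zero (h : StateM G X K B m k) : fz (sz B) = 0 := by
  have := h.whole.no_excess h.hK h.cx.noc (by have := h.hm; omega) (by rw [h.long]; omega)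
  rw [h.long] at this
  omega

/-- No link of at most four vertices in state M. -/
lemma StateM.no_link (hGF : GapFull) (h : StateM G X K B m k) {a b : V} (ha : a ∈ roots B)
    (hb : b ∈ roots B) (hab : a ≠ b) {P : List V} (hl : Link G (off X B) a P b) (hP1 : 1 ≤ P.length)
    (hP4 : P.length ≤ 4) : False := by
  obtain ⟨P0, p, Q0, q, hC, hperm, hszp, rfl, rfl⟩ := h.whole.split ha hb hab
  rw [← off_perm hperm] at hl
  obtain ⟨B', hB', hsz, hlen⟩ := hC.linked h.hK hl
  have hs7 := h.card7
  have : NeZero K.card := ⟨by omega⟩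
  have hm := h.hm
  obtain ⟨σ, hσ⟩ := sz_fn hB'.len
  have hn : P0.length < K.card := by
    have := hB'.len
    have h2 := congrArg List.length hsz
    simp [sz] at h2
    omega
  have hE : σ ⟨P0.length, hn⟩ = p.2.length + P.length + q.2.length := by
    have e : σ ⟨P0.length, hn⟩ = (List.ofFn σ).getD P0.length 0 := by
      rw [List.getD_eq_getElem _ _ (by simpa using hn), List.getElem_ofFn]
    rw [e, ← hσ, hsz, List.getD_eq_getElem _ _ (by simp [sz]),
      List.getElem_append_right (by simp [sz])]
    simp [sz]
  have hlenσ : K.card + ∑ i, σ i = (flat B').length := by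
    rw [length_flat, hσ, List.sum_ofFn, hB'.len]
  have hfree : fz (sz (P0 ++ p :: (Q0 ++ [q]))) = 0 :=
    (StateM.mk (h.toBase.perm hC) (by rw [hperm.length_eq, h.long]) h.five).free_zero
  have hcov := fz_cover (sz (P0 ++ p :: (Q0 ++ [q])))
  have hone : ∀ x ∈ sz (P0 ++ p :: (Q0 ++ [q])), x ≠ 1 :=
    perm_sz_ne_one (StateM.mk (h.toBase.perm hC) (by rw [hperm.length_eq, h.long]) h.five)
  have hx := hone p.2.length (by simp [sz])
  have hy := hone q.2.length (by simp [sz])
  obtain ⟨c, hc⟩ : ∃ c, c = (if p.2.length = 0 then 0 else 1) +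
      (if q.2.length = 0 then 0 else 1) := ⟨_, rfl⟩
  have hcount := nz_ofFn σ
  rw [← hσ, hsz] at hcount
  have hCl := hC.len
  rw [hfree] at hcov
  simp only [sz, nz, List.map_append, List.map_cons, List.map_nil, List.countP_append,
    List.countP_cons, List.countP_nil, List.countP_reverse, List.length_append, List.length_cons,
    List.length_map, List.length_nil, decide_eq_true_eq] at hcov hcount hCl
  refine hGF K.card σ ⟨P0.length, hn⟩ m P.length c h.five hm h.hw h.hq hP1 hP4 ?_ ?_ ?_ ?_ ?_
    (hB'.safe h.hK (by omega) rfl (by omega) h.cx.noc (fun B'' hB'' hlt => hlt) σ hσ _)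
  · rw [hlenσ, hlen, hperm.length_eq, h.long]
  · split_ifs at hc <;> omega
  · rw [hE]; split_ifs at hc <;> omega
  · split_ifs at hcount hcov hc <;> omega
  · intro i hi
    have hmem : σ i ∈ sz B' := by rw [hσ, List.mem_ofFn]; exact ⟨i, rfl⟩
    obtain ⟨i', hi', e⟩ : ∃ i' : Fin (sz B').length, i'.1 = i.1 ∧ (sz B')[i'.1] = σ i :=
      ⟨⟨i.1, by rw [hσ]; simp⟩, rfl, by simp [hσ]⟩
    clear hmem
    intro h1
    have hne : i.1 ≠ P0.length := fun e' => hi (Fin.ext e')
    have hgd : (sz B').getD i.1 0 = 1 := by
      rw [List.getD_eq_getElem _ _ (hi' ▸ i'.2)]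
      simp only [hi'] at e
      rw [e, h1]
    rw [hsz] at hgd
    rcases Nat.lt_or_ge i.1 P0.length with hlt | hge
    · rw [List.getD_append _ _ _ _ (by simpa [sz] using hlt),
        List.getD_eq_getElem _ _ (by simpa [sz] using hlt)] at hgd
      exact hone 1 (by
        rw [← hgd]
        simp only [sz, List.map_append, List.mem_append]
        exact Or.inl (List.getElem_mem _)) rfl
    · obtain ⟨d, hd⟩ : ∃ d, i.1 = P0.length + (d + 1) := ⟨i.1 - P0.length - 1, by omega⟩
      rw [hd, List.getD_append_right _ _ _ _ (by simp [sz]), show P0.length + (d + 1) -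
        (sz P0).length = d + 1 by simp [sz], List.getD_cons_succ] at hgd
      rcases Nat.lt_or_ge d ((sz Q0).reverse ++ [0]).length with hdl | hdl
      · rw [List.getD_eq_getElem _ _ hdl] at hgd
        have hmem := List.getElem_mem hdl
        rw [hgd] at hmem
        simp only [List.mem_append, List.mem_reverse, List.mem_singleton] at hmem
        rcases hmem with hmem | hmem
        · exact hone 1 (by
            simp only [sz, List.map_append, List.map_cons, List.mem_append, List.mem_cons] at hmem ⊢
            exact Or.inr (Or.inr (Or.inl hmem))) rfl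
        · omega
      · rw [List.getD_eq_default _ _ hdl] at hgd
        omega

/-- Separation in state M. -/
lemma StateM.sep (hGF : GapFull) (h : StateM G X K B m k) {a b : V}
    (ha : a ∈ roots B)
    (hb : b ∈ roots B) (hab : a ≠ b) : Sep G (off X B) a b :=
  ⟨fun _ hl h1 h2 => h.no_link hGF ha hb hab hl h1 (by omega),
    fun _ _ hl _ h3 h4 _ _ _ => h.no_link hGF ha hb hab hl (by omega) h4,
    fun _ _ hl h1 h4 => h.no_link hGF ha hb hab hl h1 h4⟩

lemma lonely (h : StateN G X K B m k) {a : V} (ha : a ∈ roots B)
    (h1 : (nb G a (off X B)).card = 1) :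
    (flat B).length + 1 = m ∧ ∀ x ∈ flat B, x ≠ a → G.Adj a x := by
  obtain ⟨haX, haB⟩ := h.whole.roots_sub h.hKX ha
  have hd := h.cx.deg haX
  have hsub : nb G a X ⊆ nb G a (off X B) ∪ ((flat B).toFinset.erase a).filter (G.Adj a) := by
    intro x hx
    rw [mem_nb] at hx
    by_cases hxB : x ∈ flat B
    · refine Finset.mem_union_right _ (Finset.mem_filter.2 ⟨?_, hx.2⟩)
      exact Finset.mem_erase.2 ⟨hx.2.ne.symm, List.mem_toFinset.2 hxB⟩
    · refine Finset.mem_union_left _ (mem_nb.2 ⟨?_, hx.2⟩)
      rw [off, Finset.mem_sdiff, List.mem_toFinset]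
      exact ⟨hx.1, hxB⟩
  have h2 := (Finset.card_le_card hsub).trans (Finset.card_union_le _ _)
  have h3 : ((flat B).toFinset.erase a).card + 1 = (flat B).length := by
    rw [Finset.card_erase_add_one (List.mem_toFinset.2 haB),
      List.toFinset_card_of_nodup h.whole.nd]
  have h4 := Finset.card_le_card (Finset.filter_subset (G.Adj a) ((flat B).toFinset.erase a))
  have := h.short
  refine ⟨by omega, fun x hx hxa => ?_⟩
  have he := Finset.eq_of_subset_of_card_le
    (Finset.filter_subset (G.Adj a) ((flat B).toFinset.erase a)) (by omega)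
  have := Finset.mem_erase.2 ⟨hxa, List.mem_toFinset.2 hx⟩
  rw [← he] at this
  exact (Finset.mem_filter.1 this).2

/-- The exceptional pattern for `m = 10`: a root between free clique vertices has at least five
neighbours outside, hence these form no clique. -/
lemma StateN.ten (h : StateN G X K B 10 k) (h5 : K.card = 5)
    (hmax : ∀ T, T ⊆ X → G.IsClique (T : Set V) → T.card ≤ K.card) {W : List (Blk V)} {r : Blk V}
    (hW : Whole G X K (r :: W)) (hperm : (flat (r :: W)).Perm (flat B)) (hr : 4 ≤ r.2.length)
    {a b : V} (ha : a ∈ K) (hb : b ∈ K) (hab : a ≠ b) (hra : r.1 ≠ a) (hrb : r.1 ≠ b)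
    {P P' : List V} (hl : Link G (off X B) a P b) (hl' : Link G (off X B) a P' b)
    (hP : P.length = 3) (hP' : P'.length = 4) (hc : G.IsClique (nb G a (off X B) : Set V)) :
    False := by
  have hoff : off X (r :: W) = off X B := off_perm hperm
  rw [← hoff] at hl hl' hc
  have hcK : r.1 ∈ K := hW.mem r (by simp)
  have haF := hW.clique_sub a ha
  have hbF := hW.clique_sub b hb
  obtain ⟨d, hd⟩ : ∃ d, d = fst W r.1 := ⟨_, rfl⟩
  have hchain : (r.1 :: (r.2 ++ [d])).IsChain G.Adj := by
    rw [hd]; exact (hW.ok r rfl).1
  have hWne : W ≠ [] := by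
    rintro rfl
    have := hW.len
    simp at this
    omega
  obtain ⟨hnr, hnW, hnrW⟩ := List.nodup_append'.1 (show ((r.1 :: r.2) ++ flat W).Nodup by
    simpa using hW.nd)
  have hdW : d ∈ flat W ∧ d ∈ K := by
    rw [hd]
    rcases W with _ | ⟨r', W⟩
    · exact absurd rfl hWne
    · exact ⟨by simp [fst], hW.mem r' (by simp)⟩
  have hcd : r.1 ≠ d := fun e => hnrW (by simp) (e ▸ hdW.1 : r.1 ∈ flat W)
  have heK : ∀ x ∈ r.2, x ∈ flat (r :: W) ∧ x ∉ K := fun x hx =>
    ⟨by simp [hx], (hW.ear r (by simp) x hx).2⟩
  have hr4 : r.2.length = 4 := by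
    have h1 := hperm.length_eq
    have := h.short
    have := hW.len
    simp only [length_flat, sz, List.map_cons, List.sum_cons, List.length_cons] at *
    omega
  -- an end of the ear among the roots
  have hend : d ≠ a ∧ d ≠ b := by
    refine ⟨fun e => ?_, fun e => ?_⟩
    all_goals subst e
    · have := hW.k_ear_link h.hK (T := r.2) hl hcK hb haF hrb.symm hab
        (by simpa [List.nodup_cons, List.nodup_append', hcd] using
          ⟨(List.nodup_cons.1 hnr).1, (List.nodup_cons.1 hnr).2,
            fun h' => (heK _ h').2 ha⟩)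
        heK (by simpa using hchain) (i := 0) (by omega)
      exact h.cx.noc (by simpa [hr4, hP] using this)
    · have := hW.k_ear_link h.hK (T := r.2) (link_symm hl) hcK ha hbF hra.symm hab.symm
        (by simpa [List.nodup_cons, List.nodup_append', hcd] using
          ⟨(List.nodup_cons.1 hnr).1, (List.nodup_cons.1 hnr).2,
            fun h' => (heK _ h').2 hb⟩)
        heK (by simpa using hchain) (i := 0) (by omega)
      exact h.cx.noc (by simpa [hr4, hP] using this)
  -- no neighbour of the root on the ear
  have hnoe : ∀ x ∈ r.2, ¬ G.Adj a x := by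
    intro x hx hax
    obtain ⟨e1, e2, he⟩ := List.append_of_mem hx
    have hn2 := (List.nodup_cons.1 hnr).2
    rw [he] at hn2 hchain hr4 heK
    rcases Nat.lt_or_ge e1.length 3 with hlt | hge
    · have := hW.k_ear_link h.hK (c := r.1) (T := e1 ++ [x]) hl' hcK hb haF hrb.symm hab
        (by
          rw [List.cons_append, List.nodup_cons, List.nodup_append']
          refine ⟨?_, hn2.sublist (List.Sublist.append_left (by simp) _), List.nodup_singleton _,
            fun z hz hz' => ?_⟩
          · simp only [List.mem_append, List.mem_singleton]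
            rintro (h' | h')
            · exact (heK r.1 (by simp at h' ⊢; tauto)).2 hcK
            · exact hra h'
          · rw [List.mem_singleton] at hz'
            subst hz'
            exact (heK z (by simp at hz ⊢; tauto)).2 ha)
        (fun z hz => heK z (by simp at hz ⊢; tauto))
        (by
          rw [show r.1 :: ((e1 ++ x :: e2) ++ [d]) = (r.1 :: (e1 ++ [x])) ++ (e2 ++ [d]) by simp]
            at hchain
          refine List.isChain_append.2 ⟨hchain.left_of_append, List.isChain_singleton _, ?_⟩
          intro z hz z' hz'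
          rw [← List.cons_append, List.getLast?_concat, Option.mem_some_iff] at hz
          simp at hz'
          subst hz hz'
          exact hax.symm) (i := 2 - e1.length) (by omega)
      refine h.cx.noc ((congrArg (HasCyc G) ?_).mp this)
      simp [hP']
      omega
    · obtain rfl : e2 = [] := by
        rcases e2 with _ | ⟨z, e2⟩
        · rfl
        · simp at hr4; omega
      rw [show r.1 :: ((e1 ++ [x]) ++ [d]) = (r.1 :: e1) ++ [x, d] by simp,
        List.isChain_append] at hchain
      have := hW.k_ear_link h.hK (c := d) (T := [x]) hl' hdW.2 hb haF hend.2.symm hab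
        (by
          have h1 : x ∉ K := (heK x (by simp)).2
          simp only [List.cons_append, List.nil_append, List.nodup_cons, List.mem_cons,
            List.not_mem_nil, or_false, not_false_eq_true, List.nodup_nil, and_true, not_or]
          exact ⟨⟨fun e => h1 (e ▸ hdW.2), hend.1⟩, fun e => h1 (e ▸ ha)⟩)
        (fun z hz => heK z (by simp at hz ⊢; tauto))
        (by
          simp only [List.cons_append, List.nil_append, List.isChain_cons_cons,
            List.isChain_singleton, and_true]
          exact ⟨(List.isChain_cons_cons.1 hchain.2.1).1.symm, hax.symm⟩) (i := 2) (by omega)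
      refine h.cx.noc ((congrArg (HasCyc G) ?_).mp this)
      simp [hP']
  -- all other vertices of the cycle are in the clique
  have hflat : ∀ x ∈ flat (r :: W), x ∈ K ∨ x ∈ r.2 := by
    intro x hx
    rw [flat, List.mem_flatMap] at hx
    obtain ⟨w, hw, hxw⟩ := hx
    rcases List.mem_cons.1 hxw with rfl | hxw
    · exact Or.inl (hW.mem w hw)
    rcases List.mem_cons.1 hw with rfl | hw
    · exact Or.inr hxw
    exfalso
    have h1 := List.single_le_sum (fun x _ => Nat.zero_le x) w.2.length
      (List.mem_map.2 ⟨w, hw, rfl⟩ : w.2.length ∈ sz W)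
    have h2 := hperm.length_eq
    have := h.short
    have := hW.len
    have := List.length_pos_of_mem hxw
    simp only [length_flat, sz, List.map_cons, List.sum_cons, List.length_cons] at *
    omega
  have hsub : nb G a X ⊆ nb G a (off X (r :: W)) ∪ K.erase a := by
    intro x hx
    rw [mem_nb] at hx
    by_cases hxF : x ∈ flat (r :: W)
    · refine Finset.mem_union_right _ (Finset.mem_erase.2 ⟨hx.2.ne', ?_⟩)
      exact (hflat x hxF).resolve_right fun h' => hnoe x h' hx.2
    · exact Finset.mem_union_left _ (mem_nb.2 ⟨by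
        rw [off, Finset.mem_sdiff, List.mem_toFinset]; exact ⟨hx.1, hxF⟩, hx.2⟩)
  have hd9 := h.cx.deg (h.hKX ha)
  have h1 := (Finset.card_le_card hsub).trans (Finset.card_union_le _ _)
  rw [Finset.card_erase_of_mem ha, h5] at h1
  have hnot : a ∉ nb G a (off X (r :: W)) := fun h' => G.irrefl (mem_nb.1 h').2
  have hcl : G.IsClique ((insert a (nb G a (off X (r :: W))) : Finset V) : Set V) := by
    rw [Finset.coe_insert, SimpleGraph.isClique_insert]
    exact ⟨hc, fun x hx _ => (mem_nb.1 hx).2⟩
  have : (insert a (nb G a (off X (r :: W)))).card ≤ K.card :=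
    hmax _ (Finset.insert_subset (h.hKX ha) fun x hx =>
      (Finset.mem_sdiff.1 (mem_nb.1 hx).1).1) hcl
  rw [Finset.card_insert_of_notMem hnot] at this
  omega

/-- Separation in state N. -/
lemma StateN.sep (hG3 : GapThree) (h : StateN G X K B m k)
    (hmax : ∀ T, T ⊆ X → G.IsClique (T : Set V) → T.card ≤ K.card) {a b : V} (ha : a ∈ roots B)
    (hb : b ∈ roots B) (hab : a ≠ b) : Sep G (off X B) a b := by
  have hm := h.hm
  have hshort := h.short
  have hs7 := h.card7
  refine ⟨fun P hl h1 h2 => ?_, fun P P' hl hl' h3 h4 he hcl h6 => ?_, fun hone P hl h1 h4 => ?_⟩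
  · obtain ⟨P0, p, Q0, q, hC, hperm, -, rfl, rfl⟩ := h.whole.split ha hb hab
    rw [← off_perm hperm] at hl
    obtain ⟨B', hB', -, hlen⟩ := hC.linked h.hK hl
    rw [hperm.length_eq] at hlen
    have := h.max B' hB' (by omega)
    omega
  · obtain ⟨P0, p, Q0, q, hC, hperm, -, rfl, rfl⟩ := h.whole.split ha hb hab
    have hl0' := hl
    have hl1' := hl'
    rw [← off_perm hperm] at hl hl'
    obtain ⟨B1, hB1, hsz1, hlen1⟩ := hC.linked h.hK hl
    obtain ⟨B2, hB2, hsz2, -⟩ := hC.linked h.hK hl'
    have : NeZero K.card := ⟨by omega⟩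
    obtain ⟨σ, hσ⟩ := sz_fn hB1.len
    obtain ⟨τ, hτ⟩ := sz_fn hB2.len
    have hn : P0.length < K.card := by
      have := hB1.len
      have h2 := congrArg List.length hsz1
      simp [sz] at h2
      omega
    have hval : ∀ i : Fin K.card, σ i = (sz B1).getD i.1 0 ∧ τ i = (sz B2).getD i.1 0 := by
      intro i
      rw [hσ, hτ, List.getD_eq_getElem _ _ (by simp), List.getD_eq_getElem _ _ (by simp)]
      simp
    have hl0 : (sz P0).length = P0.length := by simp [sz]
    have hE : σ ⟨P0.length, hn⟩ = p.2.length + P.length + q.2.length := by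
      rw [(hval _).1, hsz1, List.getD_append_right _ _ _ _ (by simp [sz])]
      simp [hl0]
    have hτσ : τ = Function.update σ ⟨P0.length, hn⟩ (σ ⟨P0.length, hn⟩ + 1) := by
      funext i
      by_cases hi : i = ⟨P0.length, hn⟩
      · subst hi
        rw [Function.update_self, (hval _).2, hsz2, hE,
          List.getD_append_right _ _ _ _ (by simp [sz])]
        simp [hl0]
        omega
      · rw [Function.update_of_ne hi, (hval i).1, (hval i).2, hsz1, hsz2]
        have hne : i.1 ≠ P0.length := fun e => hi (Fin.ext e)
        rcases Nat.lt_or_ge i.1 P0.length with hlt | hge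
        · rw [List.getD_append _ _ _ _ (by omega), List.getD_append _ _ _ _ (by omega)]
        · rw [List.getD_append_right _ _ _ _ (by omega), List.getD_append_right _ _ _ _ (by omega),
            hl0, show i.1 - P0.length = (i.1 - P0.length - 1) + 1 by omega, List.getD_cons_succ,
            List.getD_cons_succ]
    have hsum : K.card + ∑ i, σ i = (flat B).length + P.length := by
      have := length_flat B1
      rw [hσ, List.sum_ofFn, hB1.len, hlen1, hperm.length_eq] at this
      omega
    obtain ⟨h2s, hexc⟩ := hG3 K.card σ ⟨P0.length, hn⟩ m (flat B).length P.length hs7 hm h.hw h.hq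
      hshort (by omega) hsum (by omega)
      (hB1.safe h.hK (by omega) rfl (by omega) h.cx.noc h.max σ hσ _) (by
        rw [← hτσ]
        exact hB2.safe h.hK (by omega) rfl (by omega) h.cx.noc h.max τ hτ _)
    rcases hexc with ⟨hs4, hj4⟩ | ⟨hjs, hσ0, i, hi, hiσ⟩
    · -- a link of four, five or six vertices and an arc
      obtain ⟨P'', hl'', hP''⟩ := h6 hj4
      rw [← off_perm hperm] at hl''
      obtain ⟨n2, hn2⟩ : ∃ n2, n2 = (flat (Q0 ++ [q])).length := ⟨_, rfl⟩
      have hC' : Whole G X K (Q0 ++ q :: (P0 ++ [p])) := by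
        have := Whole.rotate (A := P0 ++ [p]) (C := Q0 ++ [q]) (by simpa using hC)
        simpa using this
      have hp' : (flat (Q0 ++ q :: (P0 ++ [p]))).Perm (flat B) := by
        refine List.Perm.trans ?_ hperm
        rw [List.perm_iff_count]
        intro x
        simp only [flat_append, flat_cons, flat_nil, List.count_append, List.count_cons,
          List.count_nil]
        omega
      obtain ⟨n1, hn1⟩ : ∃ n1, n1 = (flat (P0 ++ [p])).length := ⟨_, rfl⟩
      have hsplit : n1 + n2 = (flat B).length := by
        rw [← hperm.length_eq, hn1, hn2]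
        simp only [flat_append, flat_cons, flat_nil, List.length_append, List.length_cons,
          List.length_nil]
        omega
      have h1pos : 1 ≤ n1 ∧ 1 ≤ n2 := by
        rw [hn1, hn2]; simp [flat_append]; omega
      have hA : ∀ R, Link G (off X B) (lastV p) R (lastV q) →
          1 + R.length + n2 ≠ m ∧ 1 + R.length + n1 ≠ m := by
        intro R hR
        refine ⟨fun e => h.cx.noc ((congrArg (HasCyc G) ?_).mp
            (hC.arc_cycle (R := R) (by rw [off_perm hperm]; exact hR))),
          fun e => h.cx.noc ((congrArg (HasCyc G) ?_).mp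
            (hC'.arc_cycle (R := R.reverse) (by rw [off_perm hp']; exact link_symm hR)))⟩
        · rw [← hn2]; exact e
        · rw [← hn1, List.length_reverse]; exact e
      have := hA P hl0'
      have := hA P' hl1'
      have := hA P'' (by rw [← off_perm hperm]; exact hl'')
      omega
    -- the roots are free vertices of the clique
    obtain ⟨hp2, hq2⟩ : p.2 = [] ∧ q.2 = [] :=
      ⟨List.eq_nil_of_length_eq_zero (by omega), List.eq_nil_of_length_eq_zero (by omega)⟩
    have hpK : lastV p = p.1 := by simp [lastV, hp2]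
    have hqK : lastV q = q.1 := by simp [lastV, hq2]
    have hpmem : p.1 ∈ K := hC.mem p (by simp)
    have hqmem : q.1 ∈ K := hC.mem q (by simp)
    -- a long ear elsewhere
    obtain ⟨r, hr, hr4⟩ : ∃ r ∈ P0 ++ Q0, P.length < r.2.length := by
      have hne : i.1 ≠ P0.length := fun e => hi (Fin.ext e)
      have hmem : σ i ∈ sz P0 ∨ σ i ∈ (sz Q0).reverse ++ [0] := by
        have hv := (hval i).1
        rw [hsz1] at hv
        rcases Nat.lt_or_ge i.1 P0.length with hlt | hge
        · rw [List.getD_append _ _ _ _ (by omega), List.getD_eq_getElem _ _ (by omega)] at hv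
          exact Or.inl (hv ▸ List.getElem_mem _)
        · rw [List.getD_append_right _ _ _ _ (by omega), hl0,
            show i.1 - P0.length = (i.1 - P0.length - 1) + 1 by omega, List.getD_cons_succ] at hv
          rcases Nat.lt_or_ge (i.1 - P0.length - 1) ((sz Q0).reverse ++ [0]).length with h' | h'
          · rw [List.getD_eq_getElem _ _ h'] at hv
            exact Or.inr (hv ▸ List.getElem_mem _)
          · rw [List.getD_eq_default _ _ h'] at hv
            omega
      simp only [sz, List.mem_map, List.mem_append, List.mem_reverse, List.mem_singleton] at hmem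
      rcases hmem with ⟨r, hr, e⟩ | ⟨r, hr, e⟩ | e
      · exact ⟨r, List.mem_append_left _ hr, by omega⟩
      · exact ⟨r, List.mem_append_right _ hr, by omega⟩
      · omega
    have hpq : p.1 ≠ q.1 := by rw [← hpK, ← hqK]; exact hab
    have hrpq : r.1 ≠ p.1 ∧ r.1 ≠ q.1 := by
      have hn := hC.fst_inj
      simp only [List.map_append, List.map_cons, List.map_nil, List.nodup_append',
        List.nodup_cons, List.disjoint_left, List.mem_append, List.mem_cons, List.mem_map,
        List.not_mem_nil, or_false] at hn hr
      rcases hr with hr | hr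
      · exact ⟨fun e => hn.2.2 ⟨r, hr, e⟩ (Or.inl rfl),
          fun e => hn.2.2 ⟨r, hr, e⟩ (Or.inr (Or.inr rfl))⟩
      · exact ⟨fun e => hn.2.1.1 (Or.inl ⟨r, hr, e⟩), fun e => hn.2.1.2.2.2 ⟨r, hr, e⟩ rfl⟩
    rw [hpK, hqK] at hl0' hl1'
    rcases (show P.length = 4 ∨ P.length = 3 by omega) with hj | hj
    · -- `m = 12`
      obtain ⟨P'', hl'', hP''⟩ := h6 hj
      rw [hpK, hqK, ← off_perm hperm] at hl''
      have := hC.k_ear_link h.hK (c := r.1) (T := []) hl'' (hC.mem r (by
        simp only [List.mem_append, List.mem_cons] at hr ⊢; tauto)) hqmem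
        (hC.clique_sub _ hpmem) hrpq.2.symm hpq
        (by simp [hrpq.1]) (by simp)
        (by
          simp only [List.nil_append, List.cons_append, List.isChain_cons_cons,
            List.isChain_singleton, and_true]
          exact h.hK (hC.mem r (by simp only [List.mem_append, List.mem_cons] at hr ⊢; tauto))
            hpmem hrpq.1)
        (i := 3) (by omega)
      refine h.cx.noc ((congrArg (HasCyc G) ?_).mp this)
      simp [hP'']
      omega
    · -- `m = 10`
      obtain rfl : m = 10 := by omega
      obtain ⟨U, W, hUW⟩ := List.append_of_mem (show r ∈ P0 ++ p :: (Q0 ++ [q]) by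
        simp only [List.mem_append, List.mem_cons] at hr ⊢; tauto)
      have hW : Whole G X K (r :: (W ++ U)) := by
        have := Whole.rotate (A := U) (C := r :: W) (hUW ▸ hC)
        simpa using this
      have hpW : (flat (r :: (W ++ U))).Perm (flat B) := by
        refine List.Perm.trans ?_ (hUW ▸ hperm)
        rw [List.perm_iff_count]
        intro x
        simp only [flat_append, flat_cons, List.count_append, List.count_cons]
        omega
      rw [hpK, hqK] at hcl
      rcases hcl with hc | hc
      · exact h.ten (by omega) hmax hW hpW (by omega) hpmem hqmem hpq hrpq.1 hrpq.2 hl0' hl1' hj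
          (by omega) hc
      · exact h.ten (by omega) hmax hW hpW (by omega) hqmem hpmem hpq.symm hrpq.2 hrpq.1
          (link_symm hl0') (link_symm hl1') (by simpa using hj)
          (by simp; omega) hc
  · rcases hone with h1' | h1'
    · obtain ⟨hlen, huniv⟩ := lonely h ha h1'
      obtain ⟨P0, p, Q0, q, hC, hperm, -, rfl, rfl⟩ := h.whole.split ha hb hab
      rw [← off_perm hperm] at hl
      exact h.cx.noc (hC.universal h.hK hl (by omega) h1 (by omega)
        (by rw [hperm.length_eq]; exact hlen) fun x hx => huniv x (hperm.subset hx))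
    · obtain ⟨hlen, huniv⟩ := lonely h hb h1'
      obtain ⟨P0, p, Q0, q, hC, hperm, -, rfl, rfl⟩ := h.whole.split hb ha hab.symm
      rw [← off_perm hperm] at hl
      exact h.cx.noc (hC.universal h.hK hl.symm (by omega) (by simpa using h1)
        (by rw [List.length_reverse]; omega) (by rw [hperm.length_eq]; exact hlen)
        fun x hx => huniv x (hperm.subset hx))

end Vale.Agent.P048.Full.NC
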